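import Vale.Agent.P113.MachineSim

/-!
# The machine side of P113
-/

namespace Vale.Agent.P113

/-- The pieces of a reversible two-stack simulation of every machine. -/
def machineSide : MachineSide where
  pieces c := (Raw.ofCode c).pieces
  start a := (Raw.ofCode a.1).startPoint a.2
  pieces_computable := (Raw.primrec_pieces.comp Raw.primrec_ofCode).to_comp
  start_computable :=
    (Raw.primrec_startPoint.comp (Raw.primrec_ofCode.comp Primrec.fst) Primrec.snd).to_comp
  good _ := Raw.pieces_good _
  src_sep _ := (Raw.pieces_sep _).imp fun h => h.1
  dst_sep _ := (Raw.pieces_sep _).imp fun h => h.2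
  start_den a := Raw.startPoint_den _ a.2
  halts M w h := Raw.halts_orbit M w h
  nonhalts M w h := Raw.nonhalts_orbit M w h

end Vale.Agent.P113
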