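import Vale.Agent.P113.Defs

/-!
# Uniqueness of classical solutions on the torus, by the energy estimate
-/

open MeasureTheory Set Function

namespace Vale.Agent.P113

/-- Translation invariance by integer vectors. -/
lemma Periodic3.add_int {α : Type} {g : V3 → α} (h : Periodic3 g) (x : V3) (k : Fin 3 → ℤ) :
    g (x + fun i => (k i : ℝ)) = g x :=
  h k x

/-- A point of the closed unit cube in each orbit of `ℤ³`. -/
lemma exists_cube_rep (x : V3) :
    ∃ y ∈ Icc (0 : V3) 1, ∃ k : Fin 3 → ℤ, x = y + fun i => (k i : ℝ) := by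
  refine ⟨fun i => Int.fract (x i), ⟨fun i => Int.fract_nonneg _, fun i => ?_⟩,
    fun i => ⌊x i⌋, ?_⟩
  · exact (Int.fract_lt_one _).le
  · funext i; exact (Int.fract_add_floor (x i)).symm

lemma cube_restrict_eq_pi :
    (volume : Measure V3).restrict (Icc (0 : V3) 1)
      = Measure.pi (fun _ : Fin 3 => (volume : Measure ℝ).restrict (Icc 0 1)) := by
  rw [← Set.pi_univ_Icc, volume_pi, Measure.restrict_pi_pi]
  rfl

lemma integrableOn_cube {g : V3 → ℝ} (hg : Continuous g) :
    Integrable g ((volume : Measure V3).restrict (Icc 0 1)) :=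
  hg.continuousOn.integrableOn_compact isCompact_Icc

/-- The derivative of a periodic function in a coordinate direction has zero mean. -/
lemma integral_partial_eq_zero {g g' : V3 → ℝ} (j : Fin 3) (hg : Periodic3 g)
    (hd : ∀ x, HasDerivAt (fun s => g (update x j s)) (g' x) (x j)) (hc : Continuous g') :
    (∫ x in Icc (0 : V3) 1, g' x) = 0 := by
  set ν₁ := (volume : Measure ℝ).restrict (Icc 0 1) with hν₁
  rw [cube_restrict_eq_pi]
  have hmp := measurePreserving_piFinSuccAbove (fun _ : Fin 3 => ν₁) j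
  have hint : Integrable g' (Measure.pi fun _ : Fin 3 => ν₁) := by
    rw [hν₁, ← cube_restrict_eq_pi]; exact integrableOn_cube hc
  set e := MeasurableEquiv.piFinSuccAbove (fun _ : Fin 3 => ℝ) j
  rw [← (hmp.symm e).integral_comp' g']
  have hint' := ((hmp.symm e).integrable_comp_emb e.symm.measurableEmbedding).2 hint
  simp only [Function.comp_def] at hint'
  rw [integral_prod_symm _ hint']
  refine integral_eq_zero_of_ae (Filter.Eventually.of_forall fun y => ?_)
  show (∫ s, g' (e.symm (s, y)) ∂ν₁) = 0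
  have he : ∀ s : ℝ, e.symm (s, y) = j.insertNth s y := fun s => rfl
  simp only [he, hν₁]
  rw [integral_Icc_eq_integral_Ioc, ← intervalIntegral.integral_of_le zero_le_one]
  have hder : ∀ s : ℝ, HasDerivAt (fun r => g (j.insertNth r y)) (g' (j.insertNth s y)) s := by
    intro s
    have := hd (j.insertNth s y)
    simp only [Fin.update_insertNth, Fin.insertNth_apply_same] at this
    exact this
  rw [intervalIntegral.integral_eq_sub_of_hasDerivAt (fun s _ => hder s)
    ((hc.comp (continuous_id.finInsertNth j continuous_const)).intervalIntegrable _ _)]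
  have := hg (Pi.single j 1) (j.insertNth 0 y)
  have hv : (fun i => (j.insertNth 0 y : V3) i + ((Pi.single j 1 : Fin 3 → ℤ) i : ℝ))
      = (j.insertNth 1 y : V3) := by
    funext i
    rcases Fin.eq_self_or_eq_succAbove j i with rfl | ⟨l, rfl⟩
    · simp
    · simp [Fin.succAbove_ne]
  rw [hv] at this
  linarith

section Energy

variable {ν T : ℝ} {f : ℝ → V3 → V3}

lemma slice_continuous {α : Type*} [TopologicalSpace α] {g : ℝ → V3 → α}
    (h : ContinuousOn (uncurry g) (Icc 0 T ×ˢ univ)) {t : ℝ} (ht : t ∈ Icc 0 T) :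
    Continuous (g t) :=
  h.comp_continuous (Continuous.prodMk_right t) (fun _ => ⟨ht, trivial⟩)

lemma bounded_on_cube {g : ℝ → V3 → ℝ} (h : ContinuousOn (uncurry g) (Icc 0 T ×ˢ univ)) :
    ∃ M, 0 ≤ M ∧ ∀ t ∈ Icc 0 T, ∀ x ∈ Icc (0 : V3) 1, |g t x| ≤ M := by
  obtain ⟨M, hM⟩ := (isCompact_Icc.prod isCompact_Icc).exists_bound_of_continuousOn
    (h.mono (prod_mono_right (subset_univ (Icc (0 : V3) 1))))
  exact ⟨max M 0, le_max_right _ _,
    fun t ht x hx => (hM (t, x) ⟨ht, hx⟩).trans (le_max_left _ _)⟩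

/-- The coordinate derivatives of a periodic function are periodic. -/
lemma Periodic3.partial_periodic {g g' : V3 → ℝ} {j : Fin 3} (hg : Periodic3 g)
    (hd : ∀ x, HasDerivAt (fun s => g (update x j s)) (g' x) (x j)) : Periodic3 g' := by
  intro v x
  set y : V3 := fun i => x i + (v i : ℝ) with hy
  have h2 : HasDerivAt (fun s => g (update y j s)) (g' x) (y j) := by
    have hs : (fun s => g (update y j s)) = fun s => g (update x j (s - (v j : ℝ))) := by
      funext s
      rw [← hg v (update x j (s - (v j : ℝ)))]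
      congr 1
      funext l; by_cases hl : l = j
      · subst hl; simp
      · simp [hy, hl]
    rw [hs]
    have hx : HasDerivAt (fun s => g (update x j s)) (g' x) (y j - (v j : ℝ)) := by
      simpa [hy] using hd x
    exact hx.comp_sub_const (y j) (v j : ℝ)
  exact (hd y).unique h2

lemma integral_product_eq_zero {g h g' h' : V3 → ℝ} {j : Fin 3}
    (hg : Periodic3 g) (hh : Periodic3 h)
    (hdg : ∀ x, HasDerivAt (fun s => g (update x j s)) (g' x) (x j))
    (hdh : ∀ x, HasDerivAt (fun s => h (update x j s)) (h' x) (x j))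
    (cg : Continuous g) (ch : Continuous h) (cg' : Continuous g') (ch' : Continuous h') :
    (∫ x in Icc (0 : V3) 1, (g' x * h x + g x * h' x)) = 0 := by
  refine integral_partial_eq_zero j (g := fun x => g x * h x) ?_ (fun x => ?_)
    ((cg'.mul ch).add (cg.mul ch'))
  · intro k x; simp only [hg k x, hh k x]
  · have := (hdg x).fun_mul (hdh x)
    simpa using this

/-- The energy inequality at a fixed time: `w` solves the linearised equation with drift `a`,
gradient `b` and pressure `q`. -/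
lemma energy_le {ν M : ℝ} (hν : 0 ≤ ν) (a : Fin 3 → V3 → ℝ) (p : V3 → ℝ)
    (w wt dq : Fin 3 → V3 → ℝ) (dw d2w b : Fin 3 → Fin 3 → V3 → ℝ) (da : Fin 3 → V3 → ℝ)
    (pa : ∀ j, Periodic3 (a j)) (pp : Periodic3 p) (pw : ∀ i, Periodic3 (w i))
    (ca : ∀ j, Continuous (a j)) (cp : Continuous p) (cw : ∀ i, Continuous (w i))
    (cdq : ∀ i, Continuous (dq i)) (cdw : ∀ j i, Continuous (dw j i))
    (cd2w : ∀ j i, Continuous (d2w j i)) (cda : ∀ j, Continuous (da j))
    (cwt : ∀ i, Continuous (wt i))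
    (hda : ∀ x j, HasDerivAt (fun s => a j (update x j s)) (da j x) (x j))
    (hdp : ∀ x i, HasDerivAt (fun s => p (update x i s)) (dq i x) (x i))
    (hdw : ∀ x j i, HasDerivAt (fun s => w i (update x j s)) (dw j i x) (x j))
    (hd2w : ∀ x j i, HasDerivAt (fun s => dw j i (update x j s)) (d2w j i x) (x j))
    (diva : ∀ x, (∑ j, da j x) = 0) (divw : ∀ x, (∑ j, dw j j x) = 0)
    (eqn : ∀ x i, wt i x = - dq i x + ν * (∑ j, d2w j i x)
      - (∑ j, a j x * dw j i x) - (∑ j, w j x * b j i x))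
    (hM : ∀ x ∈ Icc (0 : V3) 1, ∀ j i, |b j i x| ≤ M) :
    (∫ x in Icc (0 : V3) 1, ∑ i, 2 * w i x * wt i x)
      ≤ 6 * M * ∫ x in Icc (0 : V3) 1, ∑ i, (w i x) ^ 2 := by
  let A : Fin 3 → V3 → ℝ := fun i x => dq i x * w i x + p x * dw i i x
  let B : Fin 3 → Fin 3 → V3 → ℝ := fun i j x => dw j i x * dw j i x + w i x * d2w j i x
  let W : Fin 3 → V3 → ℝ := fun i x => w i x * w i x
  let C : Fin 3 → Fin 3 → V3 → ℝ := fun i j x =>
    da j x * W i x + a j x * (dw j i x * w i x + w i x * dw j i x)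
  have cW : ∀ i, Continuous (W i) := fun i => (cw i).mul (cw i)
  have pW : ∀ i, Periodic3 (W i) := fun i k x => by simp only [W, pw i k x]
  have hdW : ∀ x j i, HasDerivAt (fun s => W i (update x j s))
      (dw j i x * w i x + w i x * dw j i x) (x j) := fun x j i => by
    have := (hdw x j i).fun_mul (hdw x j i)
    simpa [W] using this
  have cA : ∀ i, Continuous (A i) := fun i => ((cdq i).mul (cw i)).add (cp.mul (cdw i i))
  have cB : ∀ i j, Continuous (B i j) := fun i j =>
    ((cdw j i).mul (cdw j i)).add ((cw i).mul (cd2w j i))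
  have cC : ∀ i j, Continuous (C i j) := fun i j =>
    ((cda j).mul (cW i)).add ((ca j).mul (((cdw j i).mul (cw i)).add ((cw i).mul (cdw j i))))
  have zA : ∀ i, (∫ x in Icc (0 : V3) 1, A i x) = 0 := fun i =>
    integral_product_eq_zero pp (pw i) (fun x => hdp x i) (fun x => hdw x i i) cp (cw i) (cdq i)
      (cdw i i)
  have zB : ∀ i j, (∫ x in Icc (0 : V3) 1, B i j x) = 0 := fun i j =>
    integral_product_eq_zero (pw i) ((pw i).partial_periodic fun x => hdw x j i)
      (fun x => hdw x j i) (fun x => hd2w x j i) (cw i) (cdw j i) (cdw j i) (cd2w j i)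
  have zC : ∀ i j, (∫ x in Icc (0 : V3) 1, C i j x) = 0 := fun i j =>
    integral_product_eq_zero (pa j) (pW i) (fun x => hda x j) (fun x => hdW x j i) (ca j) (cW i)
      (cda j) (((cdw j i).mul (cw i)).add ((cw i).mul (cdw j i)))
  have iA : ∀ i, IntegrableOn (A i) (Icc (0 : V3) 1) := fun i => integrableOn_cube (cA i)
  have iB : ∀ i j, IntegrableOn (B i j) (Icc (0 : V3) 1) := fun i j => integrableOn_cube (cB i j)
  have iC : ∀ i j, IntegrableOn (C i j) (Icc (0 : V3) 1) := fun i j => integrableOn_cube (cC i j)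
  let SA : V3 → ℝ := fun x => ∑ i, A i x
  let SB : V3 → ℝ := fun x => ∑ i, ∑ j, B i j x
  let SC : V3 → ℝ := fun x => ∑ i, ∑ j, C i j x
  have cSA : Continuous SA := continuous_finsetSum _ fun i _ => cA i
  have cSB : Continuous SB :=
    continuous_finsetSum _ fun i _ => continuous_finsetSum _ fun j _ => cB i j
  have cSC : Continuous SC :=
    continuous_finsetSum _ fun i _ => continuous_finsetSum _ fun j _ => cC i j
  have sA : (∫ x in Icc (0 : V3) 1, SA x) = 0 := by
    rw [integral_finsetSum _ fun i _ => iA i]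
    exact Finset.sum_eq_zero fun i _ => zA i
  have sB : (∫ x in Icc (0 : V3) 1, SB x) = 0 := by
    rw [integral_finsetSum _ fun i _ => integrable_finsetSum _ fun j _ => iB i j]
    refine Finset.sum_eq_zero fun i _ => ?_
    rw [integral_finsetSum _ fun j _ => iB i j]
    exact Finset.sum_eq_zero fun j _ => zB i j
  have sC : (∫ x in Icc (0 : V3) 1, SC x) = 0 := by
    rw [integral_finsetSum _ fun i _ => integrable_finsetSum _ fun j _ => iC i j]
    refine Finset.sum_eq_zero fun i _ => ?_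
    rw [integral_finsetSum _ fun j _ => iC i j]
    exact Finset.sum_eq_zero fun j _ => zC i j
  let L : V3 → ℝ := fun x => ∑ i, 2 * w i x * wt i x
  let R : V3 → ℝ := fun x => ∑ i, (w i x) ^ 2
  have cL : Continuous L :=
    continuous_finsetSum _ fun i _ => (continuous_const.mul (cw i)).mul (cwt i)
  have cR : Continuous R := continuous_finsetSum _ fun i _ => (cw i).pow 2
  have hpt : ∀ x ∈ Icc (0 : V3) 1,
      L x + (2 * SA x - 2 * ν * SB x + SC x) ≤ 6 * M * R x := by
    intro x hx
    have hterm : ∀ i j, -(2 * (w i x * (w j x * b j i x))) ≤ M * ((w i x) ^ 2 + (w j x) ^ 2) := by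
      intro i j
      obtain ⟨l1, l2⟩ := abs_le.1 (hM x hx j i)
      nlinarith [mul_nonneg (sub_nonneg.2 l2) (sq_nonneg (w i x - w j x)),
        mul_nonneg (sub_nonneg.2 l1) (sq_nonneg (w i x + w j x))]
    have hid : L x + (2 * SA x - 2 * ν * SB x + SC x)
        = -(2 * ν) * (∑ i, ∑ j, dw j i x * dw j i x)
          + ∑ i, ∑ j, -(2 * (w i x * (w j x * b j i x))) := by
      have d1 := diva x
      have d2 := divw x
      simp only [L, SA, SB, SC, A, B, C, W, eqn x]
      simp only [Fin.sum_univ_three] at d1 d2 ⊢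
      linear_combination (2 * p x) * d2
        + (w 0 x * w 0 x + w 1 x * w 1 x + w 2 x * w 2 x) * d1
    rw [hid]
    have hneg : -(2 * ν) * (∑ i, ∑ j, dw j i x * dw j i x) ≤ 0 :=
      mul_nonpos_of_nonpos_of_nonneg (by linarith)
        (Finset.sum_nonneg fun i _ => Finset.sum_nonneg fun j _ => mul_self_nonneg _)
    have hsum := Finset.sum_le_sum (s := Finset.univ) fun i _ =>
      Finset.sum_le_sum (s := Finset.univ) fun j _ => hterm i j
    simp only [R, Fin.sum_univ_three] at hsum hneg ⊢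
    linarith
  have cG : Continuous fun x => 2 * SA x - 2 * ν * SB x + SC x := by fun_prop
  have hle := setIntegral_mono_on (integrableOn_cube (cL.add cG))
    (integrableOn_cube (continuous_const.mul cR)) measurableSet_Icc hpt
  have e1 : (∫ x in Icc (0 : V3) 1, (2 * SA x - 2 * ν * SB x + SC x)) = 0 := by
    rw [integral_add (integrableOn_cube (by fun_prop)) (integrableOn_cube cSC),
      integral_sub (integrableOn_cube (by fun_prop)) (integrableOn_cube (by fun_prop)),
      integral_const_mul, integral_const_mul, sA, sB, sC]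
    ring
  simp only [Pi.add_apply, Pi.mul_apply] at hle
  rw [integral_add (integrableOn_cube cL) (integrableOn_cube cG), e1, add_zero,
    integral_const_mul] at hle
  exact hle

/-- A periodic field with vanishing energy vanishes. -/
lemma eq_zero_of_integral_sq_eq_zero {w : Fin 3 → V3 → ℝ} (pw : ∀ i, Periodic3 (w i))
    (cw : ∀ i, Continuous (w i)) (h : (∫ x in Icc (0 : V3) 1, ∑ i, (w i x) ^ 2) = 0) :
    ∀ x i, w i x = 0 := by
  have hc : Continuous fun x => ∑ i, (w i x) ^ 2 :=
    continuous_finsetSum _ fun i _ => (cw i).pow 2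
  have hae : (fun x => ∑ i, (w i x) ^ 2) =ᵐ[(volume : Measure V3).restrict (Icc 0 1)] 0 :=
    (integral_eq_zero_iff_of_nonneg (fun x => Finset.sum_nonneg fun i _ => sq_nonneg _)
      (integrableOn_cube hc)).1 h
  have hU : IsOpen (univ.pi fun _ : Fin 3 => Ioo (0 : ℝ) 1) :=
    isOpen_set_pi finite_univ fun _ _ => isOpen_Ioo
  have hsub : (univ.pi fun _ : Fin 3 => Ioo (0 : ℝ) 1) ⊆ Icc (0 : V3) 1 := fun x hx =>
    ⟨fun i => (hx i trivial).1.le, fun i => (hx i trivial).2.le⟩
  have heq := Measure.eqOn_open_of_ae_eq (ae_restrict_of_ae_restrict_of_subset hsub hae) hU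
    hc.continuousOn continuousOn_const
  have hcl := heq.closure hc continuous_const
  have hclo : closure (univ.pi fun _ : Fin 3 => Ioo (0 : ℝ) 1) = Icc (0 : V3) 1 := by
    rw [closure_pi_set, ← Set.pi_univ_Icc]
    simp [closure_Ioo]
  rw [hclo] at hcl
  intro x i
  obtain ⟨y, hy, k, rfl⟩ := exists_cube_rep x
  rw [(pw i).add_int]
  have := (Finset.sum_eq_zero_iff_of_nonneg (fun j _ => sq_nonneg (w j y))).1 (hcl hy) i
    (Finset.mem_univ _)
  exact pow_eq_zero_iff two_ne_zero |>.1 this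

/-- A nonnegative function starting from zero with `E' ≤ K E` vanishes. -/
lemma gronwall_zero {E E' : ℝ → ℝ} {K : ℝ} (hc : ContinuousOn E (Icc 0 T))
    (hd : ∀ t ∈ Ioo 0 T, HasDerivAt E (E' t) t) (hle : ∀ t ∈ Ioo 0 T, E' t ≤ K * E t)
    (h0 : E 0 = 0) (hnn : ∀ t, 0 ≤ E t) : ∀ t ∈ Icc 0 T, E t = 0 := by
  intro t ht
  have hanti : AntitoneOn (fun s => E s * Real.exp (-K * s)) (Icc 0 T) := by
    refine antitoneOn_of_hasDerivWithinAt_nonpos (convex_Icc 0 T)
      (hc.mul (by fun_prop))
      (f' := fun s => E' s * Real.exp (-K * s) + E s * (Real.exp (-K * s) * (-K))) ?_ ?_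
    · intro s hs
      rw [interior_Icc] at hs ⊢
      refine ((hd s hs).fun_mul ?_).hasDerivWithinAt
      simpa using ((hasDerivAt_id s).const_mul (-K)).exp
    · intro s hs
      rw [interior_Icc] at hs
      nlinarith [hle s hs, Real.exp_pos (-K * s)]
  have h := hanti (left_mem_Icc.2 (ht.1.trans ht.2)) ht ht.1
  simp only [h0, zero_mul] at h
  nlinarith [hnn t, Real.exp_pos (-K * t)]

lemma continuousOn_component {ι : Type*} {α : Type*} [TopologicalSpace α] {g : ℝ → V3 → ι → α}
    (i : ι) (h : ContinuousOn (uncurry g) (Icc 0 T ×ˢ univ)) :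
    ContinuousOn (uncurry fun t x => g t x i) (Icc 0 T ×ˢ univ) :=
  (continuous_apply i).comp_continuousOn h

/-- Differentiation of the energy under the integral sign. -/
lemma energy_hasDerivAt {w wt : Fin 3 → ℝ → V3 → ℝ}
    (cw : ∀ i, ContinuousOn (uncurry (w i)) (Icc 0 T ×ˢ univ))
    (cwt : ∀ i, ContinuousOn (uncurry (wt i)) (Icc 0 T ×ˢ univ))
    (hwt : ∀ t ∈ Icc 0 T, ∀ x i, HasDerivWithinAt (fun s => w i s x) (wt i t x) (Icc 0 T) t) :
    ContinuousOn (fun t => ∫ x in Icc (0 : V3) 1, ∑ i, (w i t x) ^ 2) (Icc 0 T) ∧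
      ∀ t ∈ Ioo 0 T, HasDerivAt (fun t => ∫ x in Icc (0 : V3) 1, ∑ i, (w i t x) ^ 2)
        (∫ x in Icc (0 : V3) 1, ∑ i, 2 * w i t x * wt i t x) t := by
  have : IsFiniteMeasure ((volume : Measure V3).restrict (Icc 0 1)) :=
    isFiniteMeasure_restrict.2 (isCompact_Icc.measure_lt_top).ne
  have ce : ContinuousOn (uncurry fun t x => ∑ i, (w i t x) ^ 2) (Icc 0 T ×ˢ univ) :=
    continuousOn_finsetSum _ fun i _ => (cw i).pow 2
  have cde : ContinuousOn (uncurry fun t x => ∑ i, 2 * w i t x * wt i t x) (Icc 0 T ×ˢ univ) :=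
    continuousOn_finsetSum _ fun i _ => (continuousOn_const.mul (cw i)).mul (cwt i)
  obtain ⟨B₀, -, hB₀⟩ := bounded_on_cube ce
  obtain ⟨B₁, -, hB₁⟩ := bounded_on_cube cde
  constructor
  · refine continuousOn_of_dominated (bound := fun _ => B₀) ?_ ?_ (integrable_const _) ?_
    · exact fun t ht => (slice_continuous ce ht).aestronglyMeasurable
    · intro t ht
      filter_upwards [ae_restrict_mem measurableSet_Icc] with x hx
      exact hB₀ t ht x hx
    · refine Filter.Eventually.of_forall fun x => ?_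
      exact ce.comp (continuous_id.prodMk continuous_const).continuousOn
        (fun t ht => ⟨ht, trivial⟩)
  · intro t ht
    refine (hasDerivAt_integral_of_dominated_loc_of_deriv_le (bound := fun _ => B₁)
      (F' := fun t x => ∑ i, 2 * w i t x * wt i t x) (Ioo_mem_nhds ht.1 ht.2) ?_ ?_ ?_ ?_
      (integrable_const _) ?_).2
    · filter_upwards [Ioo_mem_nhds ht.1 ht.2] with s hs
      exact (slice_continuous ce (Ioo_subset_Icc_self hs)).aestronglyMeasurable
    · exact integrableOn_cube (slice_continuous ce (Ioo_subset_Icc_self ht))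
    · exact (slice_continuous cde (Ioo_subset_Icc_self ht)).aestronglyMeasurable
    · filter_upwards [ae_restrict_mem measurableSet_Icc] with x hx s hs
      exact hB₁ s (Ioo_subset_Icc_self hs) x hx
    · refine Filter.Eventually.of_forall fun x s hs => ?_
      have hd : ∀ i, HasDerivAt (fun r => w i r x) (wt i s x) s := fun i =>
        (hwt s (Ioo_subset_Icc_self hs) x i).hasDerivAt (Icc_mem_nhds hs.1 hs.2)
      have := HasDerivAt.fun_sum (u := Finset.univ) fun i _ => (hd i).fun_pow 2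
      simpa [pow_one] using this

/-- A function with vanishing coordinate derivatives and mean zero vanishes. -/
lemma eq_zero_of_partials_zero {q : V3 → ℝ}
    (hd : ∀ x i, HasDerivAt (fun s => q (update x i s)) 0 (x i))
    (hint : (∫ x in Icc (0 : V3) 1, q x) = 0) : ∀ x, q x = 0 := by
  have hconst : ∀ x i s, q (update x i s) = q x := by
    intro x i s
    have hd' : ∀ r, HasDerivAt (fun r => q (update x i r)) 0 r := by
      intro r
      simpa using hd (update x i r) i
    have := is_const_of_deriv_eq_zero (fun r => (hd' r).differentiableAt)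
      (fun r => (hd' r).deriv) s (x i)
    simpa using this
  have hq0 : ∀ x, q x = q 0 := by
    intro x
    have hx : x = update (update (update (0 : V3) 0 (x 0)) 1 (x 1)) 2 (x 2) := by
      funext i; fin_cases i <;> simp [update]
    rw [hx, hconst, hconst, hconst]
  have hvol : (volume (Icc (0 : V3) 1)).toReal = 1 := by simp [Real.volume_Icc_pi]
  simp only [hq0, setIntegral_const, Measure.real, hvol, one_smul] at hint
  exact fun x => (hq0 x).trans hint

/-- Classical solutions on `[0, T]` are unique. -/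
theorem classical_unique {u₁ u₂ : ℝ → V3 → V3} {p₁ p₂ : ℝ → V3 → ℝ}
    (hν : 0 ≤ ν) (hT : 0 < T)
    (h₁ : IsClassicalSolution ν f T u₁ p₁) (h₂ : IsClassicalSolution ν f T u₂ p₂)
    (h0 : ∀ x, u₁ 0 x = u₂ 0 x) :
    ∀ t ∈ Icc 0 T, ∀ x, u₂ t x = u₁ t x ∧ p₂ t x = p₁ t x := by
  obtain ⟨ut₁, du₁, d2u₁, dp₁, hP₁, cu₁, cut₁, cdu₁, cd2u₁, cp₁, cdp₁,
    Dt₁, D1₁, D2₁, Dp₁, div₁, mom₁, mean₁⟩ := h₁
  obtain ⟨ut₂, du₂, d2u₂, dp₂, hP₂, cu₂, cut₂, cdu₂, cd2u₂, cp₂, cdp₂,
    Dt₂, D1₂, D2₂, Dp₂, div₂, mom₂, mean₂⟩ := h₂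
  let w : Fin 3 → ℝ → V3 → ℝ := fun i t x => u₁ t x i - u₂ t x i
  let wt : Fin 3 → ℝ → V3 → ℝ := fun i t x => ut₁ t x i - ut₂ t x i
  let dw : Fin 3 → Fin 3 → ℝ → V3 → ℝ := fun j i t x => du₁ j t x i - du₂ j t x i
  let d2w : Fin 3 → Fin 3 → ℝ → V3 → ℝ := fun j i t x => d2u₁ j j t x i - d2u₂ j j t x i
  let q : ℝ → V3 → ℝ := fun t x => p₁ t x - p₂ t x
  let dq : Fin 3 → ℝ → V3 → ℝ := fun i t x => dp₁ i t x - dp₂ i t x
  have cw : ∀ i, ContinuousOn (uncurry (w i)) (Icc 0 T ×ˢ univ) :=
    fun i => (continuousOn_component i cu₁).sub (continuousOn_component i cu₂)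
  have cwt : ∀ i, ContinuousOn (uncurry (wt i)) (Icc 0 T ×ˢ univ) :=
    fun i => (continuousOn_component i cut₁).sub (continuousOn_component i cut₂)
  have cdw : ∀ j i, ContinuousOn (uncurry (dw j i)) (Icc 0 T ×ˢ univ) :=
    fun j i => (continuousOn_component i (cdu₁ j)).sub (continuousOn_component i (cdu₂ j))
  have cd2w : ∀ j i, ContinuousOn (uncurry (d2w j i)) (Icc 0 T ×ˢ univ) :=
    fun j i => (continuousOn_component i (cd2u₁ j j)).sub (continuousOn_component i (cd2u₂ j j))
  have cdq : ∀ i, ContinuousOn (uncurry (dq i)) (Icc 0 T ×ˢ univ) :=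
    fun i => (cdp₁ i).sub (cdp₂ i)
  have dW : ∀ t ∈ Icc 0 T, ∀ x j i,
      HasDerivAt (fun s => w i t (update x j s)) (dw j i t x) (x j) := fun t ht x j i =>
    HasDerivAt.fun_sub (hasDerivAt_pi.1 (D1₁ t ht x j) i)
      (hasDerivAt_pi.1 (D1₂ t ht x j) i)
  have dW2 : ∀ t ∈ Icc 0 T, ∀ x j i,
      HasDerivAt (fun s => dw j i t (update x j s)) (d2w j i t x) (x j) := fun t ht x j i =>
    HasDerivAt.fun_sub (hasDerivAt_pi.1 (D2₁ t ht x j j) i)
      (hasDerivAt_pi.1 (D2₂ t ht x j j) i)
  have dQ : ∀ t ∈ Icc 0 T, ∀ x i,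
      HasDerivAt (fun s => q t (update x i s)) (dq i t x) (x i) := fun t ht x i =>
    HasDerivAt.fun_sub (Dp₁ t ht x i) (Dp₂ t ht x i)
  have dWt : ∀ t ∈ Icc 0 T, ∀ x i,
      HasDerivWithinAt (fun s => w i s x) (wt i t x) (Icc 0 T) t := fun t ht x i =>
    HasDerivWithinAt.fun_sub (hasDerivWithinAt_pi.1 (Dt₁ t ht x) i)
      (hasDerivWithinAt_pi.1 (Dt₂ t ht x) i)
  have pW : ∀ t ∈ Icc 0 T, ∀ i, Periodic3 (w i t) := fun t ht i k x => by
    simp only [w, (hP₁ t ht).1 k x, (hP₂ t ht).1 k x]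
  have eqn : ∀ t ∈ Icc 0 T, ∀ x i, wt i t x =
      - dq i t x + ν * (∑ j, d2w j i t x)
        - (∑ j, u₁ t x j * dw j i t x) - (∑ j, w j t x * du₂ j t x i) := by
    intro t ht x i
    have e1 := mom₁ t ht x i
    have e2 := mom₂ t ht x i
    simp only [wt, dq, d2w, dw, w, Fin.sum_univ_three] at *
    linear_combination e1 - e2
  obtain ⟨hEc, hEd⟩ := energy_hasDerivAt cw cwt dWt
  obtain ⟨M, -, hM⟩ := bounded_on_cube (g := fun t x => ∑ j, ‖du₂ j t x‖)
    (continuousOn_finsetSum _ fun j _ => continuous_norm.comp_continuousOn (cdu₂ j))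
  have key : ∀ t ∈ Ioo 0 T, (∫ x in Icc (0 : V3) 1, ∑ i, 2 * w i t x * wt i t x)
      ≤ 6 * M * ∫ x in Icc (0 : V3) 1, ∑ i, (w i t x) ^ 2 := by
    intro t ht'
    have ht := Ioo_subset_Icc_self ht'
    refine energy_le hν (fun j x => u₁ t x j) (q t) (fun i => w i t)
      (fun i => wt i t) (fun i => dq i t) (fun j i => dw j i t) (fun j i => d2w j i t)
      (fun j i x => du₂ j t x i) (fun j x => du₁ j t x j) ?_ ?_ (pW t ht) ?_ ?_
      (fun i => slice_continuous (cw i) ht) (fun i => slice_continuous (cdq i) ht)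
      (fun j i => slice_continuous (cdw j i) ht) (fun j i => slice_continuous (cd2w j i) ht)
      (fun j => slice_continuous (continuousOn_component j (cdu₁ j)) ht)
      (fun i => slice_continuous (cwt i) ht)
      (fun x j => hasDerivAt_pi.1 (D1₁ t ht x j) j) (dQ t ht) (dW t ht) (dW2 t ht)
      (fun x => div₁ t ht x) ?_ (eqn t ht) ?_
    · intro j k x; simp only [(hP₁ t ht).1 k x]
    · intro k x; simp only [q, (hP₁ t ht).2 k x, (hP₂ t ht).2 k x]
    · exact fun j => slice_continuous (continuousOn_component j cu₁) ht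
    · exact (slice_continuous cp₁ ht).sub (slice_continuous cp₂ ht)
    · intro x
      simp only [dw, Finset.sum_sub_distrib, div₁ t ht x, div₂ t ht x,
        sub_zero]
    · intro x hx j i
      calc |du₂ j t x i| ≤ ‖du₂ j t x‖ := norm_le_pi_norm (du₂ j t x) i
        _ ≤ ∑ l, ‖du₂ l t x‖ := Finset.single_le_sum (f := fun l => ‖du₂ l t x‖)
            (fun l _ => norm_nonneg _) (Finset.mem_univ j)
        _ ≤ |∑ l, ‖du₂ l t x‖| := le_abs_self _
        _ ≤ M := hM t ht x hx
  have hE := gronwall_zero hEc hEd key (by simp [w, h0])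
    (fun t => integral_nonneg fun x => Finset.sum_nonneg fun i _ => sq_nonneg _)
  have hw : ∀ t ∈ Icc 0 T, ∀ x i, w i t x = 0 := fun t ht =>
    eq_zero_of_integral_sq_eq_zero (pW t ht) (fun i => slice_continuous (cw i) ht) (hE t ht)
  intro t ht x₀
  refine ⟨funext fun i => (sub_eq_zero.1 (hw t ht x₀ i)).symm, ?_⟩
  have hdw : ∀ x j i, dw j i t x = 0 := fun x j i =>
    (dW t ht x j i).unique ((hasDerivAt_const _ (0 : ℝ)).congr_of_eventuallyEq
      (Filter.Eventually.of_forall fun s => hw t ht _ i))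
  have hd2w : ∀ x j i, d2w j i t x = 0 := fun x j i =>
    (dW2 t ht x j i).unique ((hasDerivAt_const _ (0 : ℝ)).congr_of_eventuallyEq
      (Filter.Eventually.of_forall fun s => hdw _ j i))
  have hwt : ∀ x i, wt i t x = 0 := fun x i =>
    (uniqueDiffOn_Icc hT t ht).eq_deriv _ (dWt t ht x i)
      ((hasDerivWithinAt_const t (Icc 0 T) (0 : ℝ)).congr (fun s hs => hw s hs x i) (hw t ht x i))
  have hdq : ∀ x i, dq i t x = 0 := fun x i => by
    have h := eqn t ht x i
    simp [hwt, hd2w, hdw, hw t ht] at h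
    linarith
  have hint : (∫ x in Icc (0 : V3) 1, q t x) = 0 := by
    show (∫ x in Icc (0 : V3) 1, (p₁ t x - p₂ t x)) = 0
    rw [integral_sub (integrableOn_cube (slice_continuous cp₁ ht))
      (integrableOn_cube (slice_continuous cp₂ ht)), mean₁ t ht, mean₂ t ht, sub_zero]
  refine (sub_eq_zero.1 (eq_zero_of_partials_zero (q := q t) (fun x i => ?_) hint x₀)).symm
  simpa [hdq] using dQ t ht x i

end Energy

end Vale.Agent.P113
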