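import Vale.Agent.P113.Bumps

/-!
# Derivatives of term lists, and the force of a shear velocity field

`dT`, `dX` differentiate a term code; `nsForce V` is the list of `∂ₜV - ν ΔV`.
-/

open Filter Topology

namespace Vale.Agent.P113

set_option synthInstance.maxSize 2048

/-! ## Rational codes -/

/-- Product of two rational codes. -/
def ratMul (r s : RatCode) : RatCode :=
  (r.1 * s.1 + r.2.1 * s.2.1, r.1 * s.2.1 + r.2.1 * s.1, (r.2.2 + 1) * (s.2.2 + 1) - 1)

/-- Sum of two rational codes. -/
def ratAdd (r s : RatCode) : RatCode :=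
  (r.1 * (s.2.2 + 1) + s.1 * (r.2.2 + 1), r.2.1 * (s.2.2 + 1) + s.2.1 * (r.2.2 + 1),
    (r.2.2 + 1) * (s.2.2 + 1) - 1)

/-- Opposite of a rational code. -/
def ratNeg (r : RatCode) : RatCode := (r.2.1, r.1, r.2.2)

/-- Code of a natural number. -/
def ratOfNat (k : ℕ) : RatCode := (k, 0, 0)

lemma ratVal_ratMul (r s : RatCode) : ratVal (ratMul r s) = ratVal r * ratVal s := by
  have h : ((((r.2.2 + 1) * (s.2.2 + 1) - 1 : ℕ) : ℚ)) + 1
      = ((r.2.2 : ℚ) + 1) * ((s.2.2 : ℚ) + 1) := by
    rw [Nat.cast_sub (Nat.mul_pos (Nat.succ_pos _) (Nat.succ_pos _))]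
    push_cast; ring
  simp only [ratVal, ratMul]
  rw [h, div_mul_div_comm]
  push_cast; ring

lemma ratVal_ratAdd (r s : RatCode) : ratVal (ratAdd r s) = ratVal r + ratVal s := by
  have h : ((((r.2.2 + 1) * (s.2.2 + 1) - 1 : ℕ) : ℚ)) + 1
      = ((r.2.2 : ℚ) + 1) * ((s.2.2 : ℚ) + 1) := by
    rw [Nat.cast_sub (Nat.mul_pos (Nat.succ_pos _) (Nat.succ_pos _))]
    push_cast; ring
  have h1 : ((r.2.2 : ℚ) + 1) ≠ 0 := by positivity
  have h2 : ((s.2.2 : ℚ) + 1) ≠ 0 := by positivity
  simp only [ratVal, ratAdd]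
  rw [h, div_add_div _ _ h1 h2]
  push_cast; ring

lemma ratVal_ratNeg (r : RatCode) : ratVal (ratNeg r) = -ratVal r := by
  simp only [ratVal, ratNeg]; rw [← neg_div, neg_sub]

lemma ratVal_ratOfNat (k : ℕ) : ratVal (ratOfNat k) = k := by
  simp [ratVal, ratOfNat]

/-! ## Symbolic derivatives -/

/-- Derivative of the shape part of a bump. -/
def shapeD (g : Bump) : List (RatCode × Bump) :=
  match g.1 with
  | Sum.inl j => [(g.2.2.1, (Sum.inl (j + 1), g.2.1, g.2.2.1, g.2.2.2))]
  | Sum.inr l => [(g.2.2.1, (Sum.inl 0, g.2.1, g.2.2.1, g.2.2.2)),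
      (ratNeg g.2.2.1, (Sum.inl 0, g.2.1, g.2.2.1, ratAdd g.2.2.2 l))]

/-- Derivative of a bump as a combination of bumps. -/
def bumpD (g : Bump) : List (RatCode × Bump) :=
  (ratOfNat g.2.1, (g.1, g.2.1 - 1, g.2.2.1, g.2.2.2)) :: shapeD g

/-- Derivative of a time factor. -/
def timeFactorD (a : TimeFactor) : List (RatCode × TimeFactor) :=
  (bumpD a.2).map fun p => (p.1, (a.1, p.2))

/-- Leibniz rule on a list of factors. -/
def leibniz {α : Type} (d : α → List (RatCode × α)) : List α → List (RatCode × List α)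
  | [] => []
  | a :: l => (d a).map (fun p => (p.1, p.2 :: l)) ++
      (leibniz d l).map fun p => (p.1, a :: p.2)

/-- Multiply the coefficient by a rational. -/
def coefScale (q : RatCode) (c : Coef) : Coef := (ratMul q c.1, c.2)

/-- Time derivative of a term. -/
def dT (τ : Term) : List Term :=
  (leibniz timeFactorD τ.2.1).map fun p => (coefScale p.1 τ.1, p.2, τ.2.2)

/-- Derivative in the first coordinate. -/
def dX0 (τ : Term) : List Term :=
  (leibniz bumpD τ.2.2.1).map fun p => (coefScale p.1 τ.1, τ.2.1, p.2, τ.2.2.2)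

/-- Derivative in the second coordinate. -/
def dX1 (τ : Term) : List Term :=
  (leibniz bumpD τ.2.2.2.1).map fun p => (coefScale p.1 τ.1, τ.2.1, τ.2.2.1, p.2, τ.2.2.2.2)

/-- Derivative in the third coordinate. -/
def dX2 (τ : Term) : List Term :=
  (leibniz bumpD τ.2.2.2.2).map fun p => (coefScale p.1 τ.1, τ.2.1, τ.2.2.1, τ.2.2.2.1, p.2)

/-- Derivative in the `j`-th coordinate. -/
def dX (j : Fin 3) : Term → List Term := ![dX0, dX1, dX2] j

/-- Multiply a term by `-ν`. -/
def negNu (τ : Term) : Term := ((ratNeg τ.1.1, τ.1.2.1 + 1, τ.1.2.2), τ.2)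

/-- The Laplacian of a term. -/
def lapTerm (τ : Term) : List Term :=
  (dX0 τ).flatMap dX0 ++ (dX1 τ).flatMap dX1 ++ (dX2 τ).flatMap dX2

/-- `∂ₜ τ - ν Δ τ`. -/
def nsTerm (τ : Term) : List Term := dT τ ++ (lapTerm τ).map negNu

/-- Apply a term operation to the three components. -/
def mapForce (f : Term → List Term) (V : Force) : Force :=
  (V.1.flatMap f, V.2.1.flatMap f, V.2.2.flatMap f)

/-- The force `∂ₜV - νΔV`. -/
def nsForce (V : Force) : Force := mapForce nsTerm V

/-- A force code all of whose terms are valid. -/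
def Force.Valid (V : Force) : Prop := ∀ i, ∀ τ ∈ V.component i, Term.Valid τ

@[simp] lemma component_mapForce (f : Term → List Term) (V : Force) (i : Fin 3) :
    (mapForce f V).component i = (V.component i).flatMap f := by
  fin_cases i <;> rfl

/-! ## Values -/

/-- Value of a combination of factors. -/
noncomputable def combVal {α : Type} (val : α → ℝ → ℝ) (L : List (RatCode × α)) (s : ℝ) : ℝ :=
  (L.map fun p => (ratVal p.1 : ℝ) * val p.2 s).sum

/-- Product of a list of factors. -/
noncomputable def prodVal {α : Type} (val : α → ℝ → ℝ) (l : List α) (s : ℝ) : ℝ :=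
  (l.map fun a => val a s).prod

lemma hasDerivAt_leibniz {α : Type} (d : α → List (RatCode × α)) (val : α → ℝ → ℝ) :
    ∀ (l : List α) (s : ℝ), (∀ a ∈ l, HasDerivAt (val a) (combVal val (d a) s) s) →
      HasDerivAt (prodVal val l) (combVal (prodVal val) (leibniz d l) s) s := by
  intro l
  induction l with
  | nil => intro s _; exact hasDerivAt_const s (1 : ℝ)
  | cons a l ih =>
      intro s h
      have ha := h a (List.mem_cons_self)
      have hl := ih s fun b hb => h b (List.mem_cons_of_mem _ hb)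
      have hp := ha.fun_mul hl
      have hfun : prodVal val (a :: l) = fun r => val a r * prodVal val l r := by
        funext r; simp [prodVal]
      rw [hfun]
      refine hp.congr_deriv ?_
      symm
      simp only [combVal, leibniz, List.map_append, List.sum_append, List.map_map,
        ← List.sum_map_mul_right, ← List.sum_map_mul_left, Function.comp_def]
      congr 1
      · refine congrArg List.sum (List.map_congr_left fun p _ => ?_)
        simp [prodVal, mul_assoc]
      · refine congrArg List.sum (List.map_congr_left fun p _ => ?_)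
        simp [prodVal]; ring

lemma boundedSupport_combVal {α : Type} (val : α → ℝ → ℝ) :
    ∀ L : List (RatCode × α), (∀ p ∈ L, BoundedSupport (val p.2)) →
      BoundedSupport (combVal val L) := by
  intro L
  induction L with
  | nil => exact fun _ => ⟨0, fun s _ => by simp [combVal]⟩
  | cons p L ih =>
      intro h
      obtain ⟨R, hR⟩ := h p List.mem_cons_self
      obtain ⟨R', hR'⟩ := ih fun q hq => h q (List.mem_cons_of_mem _ hq)
      refine ⟨max R R', fun s hs => ?_⟩
      have h1 := hR s (lt_of_le_of_lt (le_max_left _ _) hs)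
      have h2 := hR' s (lt_of_le_of_lt (le_max_right _ _) hs)
      simp only [combVal] at h2 ⊢
      simp [h1, h2]

lemma perVal_add {f g : ℝ → ℝ} (hf : BoundedSupport f) (hg : BoundedSupport g) (y : ℝ) :
    perVal (fun s => f s + g s) y = perVal f y + perVal g y := by
  obtain ⟨R, hR⟩ := hf
  obtain ⟨R', hR'⟩ := hg
  obtain ⟨N, hN⟩ := exists_nat_ge (max R R' + |y|)
  have h1 : ∀ s, max R R' < |s| → f s + g s = 0 := fun s hs => by
    rw [hR s (lt_of_le_of_lt (le_max_left _ _) hs), hR' s (lt_of_le_of_lt (le_max_right _ _) hs),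
      add_zero]
  rw [perVal_eq_sum (g := fun s => f s + g s) h1 hN,
    perVal_eq_sum hR (N := N) (by linarith [le_max_left R R']),
    perVal_eq_sum hR' (N := N) (by linarith [le_max_right R R']), ← Finset.sum_add_distrib]

lemma perVal_combVal {α : Type} (val : α → ℝ → ℝ) (y : ℝ) :
    ∀ L : List (RatCode × α), (∀ p ∈ L, BoundedSupport (val p.2)) →
      perVal (combVal val L) y = combVal (fun a => perVal (val a)) L y := by
  intro L
  induction L with
  | nil => intro _; exact perVal_eq_zero fun m => by simp [combVal]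
  | cons p L ih =>
      intro h
      obtain ⟨R, hR⟩ := h p List.mem_cons_self
      have hc : combVal val (p :: L) = fun s => (ratVal p.1 : ℝ) * val p.2 s + combVal val L s := by
        funext s; simp [combVal]
      rw [hc, perVal_add ⟨R, fun s hs => by rw [hR s hs, mul_zero]⟩
        (boundedSupport_combVal val L fun q hq => h q (List.mem_cons_of_mem _ hq)),
        ih fun q hq => h q (List.mem_cons_of_mem _ hq)]
      simp [combVal, perVal, tsum_mul_left]

lemma hasDerivAt_bumpVal (g : Bump) (s : ℝ) :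
    HasDerivAt (bumpVal g) (combVal bumpVal (bumpD g) s) s := by
  obtain ⟨S, k, a, b⟩ := g
  have hp := hasDerivAt_pow k s
  have hin : HasDerivAt (fun r => (ratVal a : ℝ) * r - (ratVal b : ℝ)) (ratVal a : ℝ) s := by
    simpa using ((hasDerivAt_id s).const_mul (ratVal a : ℝ)).sub_const (ratVal b : ℝ)
  cases S with
  | inl j =>
      have := hp.fun_mul ((hasDerivAt_iteratedDeriv_rho j _).comp s hin)
      simp only [Function.comp_def] at this
      refine this.congr_deriv ?_
      symm
      simp only [combVal, bumpD, shapeD, bumpVal, shapeVal, ratVal_ratOfNat, List.map_cons,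
        List.map_nil, List.sum_cons, List.sum_nil, Rat.cast_natCast]
      ring
  | inr l =>
      have := hp.fun_mul ((hasDerivAt_piFun (ratVal l : ℝ) _).comp s hin)
      simp only [Function.comp_def] at this
      refine this.congr_deriv ?_
      symm
      simp only [combVal, bumpD, shapeD, bumpVal, shapeVal, ratVal_ratOfNat, ratVal_ratNeg,
        ratVal_ratAdd, List.map_cons, List.map_nil, List.sum_cons, List.sum_nil, iteratedDeriv_zero,
        Rat.cast_natCast, Rat.cast_neg, Rat.cast_add, sub_add_eq_sub_sub]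
      ring

lemma bumpD_a {g : Bump} {p : RatCode × Bump} (hp : p ∈ bumpD g) : p.2.2.2.1 = g.2.2.1 := by
  obtain ⟨S, k, a, b⟩ := g
  rcases S with j | l <;> simp [bumpD, shapeD] at hp <;> rcases hp with h | h | h <;> simp_all

lemma valid_bumpD {g : Bump} (hg : g.Valid) {p : RatCode × Bump} (hp : p ∈ bumpD g) :
    p.2.Valid := by
  refine ⟨by rw [bumpD_a hp]; exact hg.1, ?_⟩
  intro l hl
  obtain ⟨S, k, a, b⟩ := g
  rcases S with j | m <;>
    simp only [bumpD, shapeD, List.mem_cons, List.not_mem_nil, or_false] at hp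
  · rcases hp with rfl | rfl <;> simp at hl
  · rcases hp with rfl | rfl | rfl
    · exact hg.2 l hl
    · simp at hl
    · simp at hl

lemma hasDerivAt_perVal_bump {g : Bump} (hg : g.Valid) (y : ℝ) :
    HasDerivAt (perVal (bumpVal g)) (combVal (fun a => perVal (bumpVal a)) (bumpD g) y) y := by
  have hb : ∀ p ∈ bumpD g, BoundedSupport (bumpVal p.2) :=
    fun p hp => (valid_bumpD hg hp).boundedSupport
  rw [← perVal_combVal bumpVal y _ hb]
  exact hasDerivAt_perVal hg.boundedSupport (boundedSupport_combVal _ _ hb)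
    (hasDerivAt_bumpVal g) y

lemma hasDerivAt_timeFactorVal {a : TimeFactor} (ha : a.2.Valid) (t : ℝ) :
    HasDerivAt (timeFactorVal a) (combVal timeFactorVal (timeFactorD a) t) t := by
  obtain ⟨f, g⟩ := a
  cases f with
  | false =>
      have e : timeFactorVal (false, g) = bumpVal g := by funext r; simp [timeFactorVal]
      rw [e]
      refine (hasDerivAt_bumpVal g t).congr_deriv ?_
      simp [combVal, timeFactorD, timeFactorVal, Function.comp_def]
  | true =>
      have e : timeFactorVal (true, g) = perVal (bumpVal g) := by funext r; simp [timeFactorVal]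
      rw [e]
      refine (hasDerivAt_perVal_bump ha t).congr_deriv ?_
      simp [combVal, timeFactorD, timeFactorVal, Function.comp_def]

lemma termVal_eq (ν : ℝ) (τ : Term) (t : ℝ) (x : V3) :
    termVal ν τ t x = coefVal ν τ.1 * prodVal timeFactorVal τ.2.1 t * spaceVal τ.2.2.1 (x 0) *
      spaceVal τ.2.2.2.1 (x 1) * spaceVal τ.2.2.2.2 (x 2) := rfl

lemma spaceVal_eq (l : List Bump) (y : ℝ) :
    spaceVal l y = prodVal (fun a => perVal (bumpVal a)) l y := rfl

lemma coefVal_scale (ν : ℝ) (q : RatCode) (c : Coef) :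
    coefVal ν (coefScale q c) = (ratVal q : ℝ) * coefVal ν c := by
  simp only [coefVal, coefScale, ratVal_ratMul, Rat.cast_mul]; ring

lemma hasDerivAt_spaceVal {l : List Bump} (h : ∀ g ∈ l, Bump.Valid g) (y : ℝ) :
    HasDerivAt (spaceVal l)
      (combVal (prodVal fun a => perVal (bumpVal a)) (leibniz bumpD l) y) y :=
  hasDerivAt_leibniz bumpD (fun a => perVal (bumpVal a)) l y
    fun g hg => hasDerivAt_perVal_bump (h g hg) y

lemma hasDerivAt_termVal_t {ν : ℝ} {τ : Term} (hτ : τ.Valid) (t : ℝ) (x : V3) :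
    HasDerivAt (fun s => termVal ν τ s x) ((dT τ).map fun σ => termVal ν σ t x).sum t := by
  have h := hasDerivAt_leibniz timeFactorD timeFactorVal τ.2.1 t
    fun a ha => hasDerivAt_timeFactorVal (hτ.1 a ha) t
  have h' := ((((h.const_mul (coefVal ν τ.1)).mul_const (spaceVal τ.2.2.1 (x 0))).mul_const
    (spaceVal τ.2.2.2.1 (x 1))).mul_const (spaceVal τ.2.2.2.2 (x 2)))
  refine h'.congr_deriv ?_
  symm
  simp only [combVal, dT, List.map_map, ← List.sum_map_mul_right, ← List.sum_map_mul_left]
  refine congrArg List.sum (List.map_congr_left fun p _ => ?_)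
  simp only [Function.comp_def, termVal_eq, coefVal_scale]
  ring

lemma hasDerivAt_termVal_x0 {ν : ℝ} {τ : Term} (hτ : τ.Valid) (t : ℝ) (x : V3) :
    HasDerivAt (fun s => termVal ν τ t (Function.update x 0 s))
      ((dX0 τ).map fun σ => termVal ν σ t x).sum (x 0) := by
  have h := ((((hasDerivAt_spaceVal hτ.2.1 (x 0)).const_mul
    (coefVal ν τ.1 * prodVal timeFactorVal τ.2.1 t)).mul_const
      (spaceVal τ.2.2.2.1 (x 1))).mul_const (spaceVal τ.2.2.2.2 (x 2)))
  refine (h.congr_of_eventuallyEq
    (Filter.Eventually.of_forall fun s => by simp [termVal_eq])).congr_deriv ?_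
  symm
  simp only [combVal, dX0, List.map_map, ← List.sum_map_mul_right, ← List.sum_map_mul_left]
  refine congrArg List.sum (List.map_congr_left fun p _ => ?_)
  simp only [Function.comp_def, termVal_eq, coefVal_scale, spaceVal_eq]
  ring

lemma hasDerivAt_termVal_x1 {ν : ℝ} {τ : Term} (hτ : τ.Valid) (t : ℝ) (x : V3) :
    HasDerivAt (fun s => termVal ν τ t (Function.update x 1 s))
      ((dX1 τ).map fun σ => termVal ν σ t x).sum (x 1) := by
  have h := (((hasDerivAt_spaceVal hτ.2.2.1 (x 1)).const_mul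
    (coefVal ν τ.1 * prodVal timeFactorVal τ.2.1 t * spaceVal τ.2.2.1 (x 0))).mul_const
      (spaceVal τ.2.2.2.2 (x 2)))
  refine (h.congr_of_eventuallyEq
    (Filter.Eventually.of_forall fun s => by simp [termVal_eq])).congr_deriv ?_
  symm
  simp only [combVal, dX1, List.map_map, ← List.sum_map_mul_right, ← List.sum_map_mul_left]
  refine congrArg List.sum (List.map_congr_left fun p _ => ?_)
  simp only [Function.comp_def, termVal_eq, coefVal_scale, spaceVal_eq]
  ring

lemma hasDerivAt_termVal_x2 {ν : ℝ} {τ : Term} (hτ : τ.Valid) (t : ℝ) (x : V3) :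
    HasDerivAt (fun s => termVal ν τ t (Function.update x 2 s))
      ((dX2 τ).map fun σ => termVal ν σ t x).sum (x 2) := by
  have h := (hasDerivAt_spaceVal hτ.2.2.2.1 (x 2)).const_mul
    (coefVal ν τ.1 * prodVal timeFactorVal τ.2.1 t * spaceVal τ.2.2.1 (x 0) *
      spaceVal τ.2.2.2.1 (x 1))
  refine (h.congr_of_eventuallyEq
    (Filter.Eventually.of_forall fun s => by simp [termVal_eq])).congr_deriv ?_
  symm
  simp only [combVal, dX2, List.map_map, ← List.sum_map_mul_left]
  refine congrArg List.sum (List.map_congr_left fun p _ => ?_)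
  simp only [Function.comp_def, termVal_eq, coefVal_scale, spaceVal_eq]
  ring

lemma hasDerivAt_termVal_x {ν : ℝ} {τ : Term} (hτ : τ.Valid) (t : ℝ) (x : V3) (j : Fin 3) :
    HasDerivAt (fun s => termVal ν τ t (Function.update x j s))
      ((dX j τ).map fun σ => termVal ν σ t x).sum (x j) := by
  fin_cases j
  · exact hasDerivAt_termVal_x0 hτ t x
  · exact hasDerivAt_termVal_x1 hτ t x
  · exact hasDerivAt_termVal_x2 hτ t x

/-! ## Validity -/

lemma leibniz_forall {α : Type} {d : α → List (RatCode × α)} {P : α → Prop}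
    (hd : ∀ a, P a → ∀ p ∈ d a, P p.2) :
    ∀ l : List α, (∀ a ∈ l, P a) → ∀ p ∈ leibniz d l, ∀ a ∈ p.2, P a := by
  intro l
  induction l with
  | nil => simp [leibniz]
  | cons a l ih =>
      intro h p hp b hb
      simp only [leibniz, List.mem_append, List.mem_map] at hp
      rcases hp with ⟨q, hq, rfl⟩ | ⟨q, hq, rfl⟩
      · rcases List.mem_cons.1 hb with rfl | hb
        · exact hd a (h a List.mem_cons_self) q hq
        · exact h b (List.mem_cons_of_mem _ hb)
      · rcases List.mem_cons.1 hb with rfl | hb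
        · exact h b List.mem_cons_self
        · exact ih (fun c hc => h c (List.mem_cons_of_mem _ hc)) q hq b hb

lemma valid_timeFactorD {a : TimeFactor} (ha : a.2.Valid) :
    ∀ p ∈ timeFactorD a, p.2.2.Valid := by
  intro p hp
  simp only [timeFactorD, List.mem_map] at hp
  obtain ⟨q, hq, rfl⟩ := hp
  exact valid_bumpD ha hq

lemma valid_dT {τ σ : Term} (hτ : τ.Valid) (hσ : σ ∈ dT τ) : σ.Valid := by
  simp only [dT, List.mem_map] at hσ
  obtain ⟨p, hp, rfl⟩ := hσ
  exact ⟨leibniz_forall (P := fun a : TimeFactor => a.2.Valid)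
    (fun a ha => valid_timeFactorD ha) _ hτ.1 p hp, hτ.2.1, hτ.2.2.1, hτ.2.2.2.1, hτ.2.2.2.2⟩

lemma valid_dX {τ σ : Term} {j : Fin 3} (hτ : τ.Valid) (hσ : σ ∈ dX j τ) : σ.Valid := by
  have H : ∀ l : List Bump, (∀ g ∈ l, g.Valid) → ∀ p ∈ leibniz bumpD l, ∀ g ∈ p.2, Bump.Valid g :=
    leibniz_forall fun g hg p hp => valid_bumpD hg hp
  fin_cases j
  · replace hσ : σ ∈ dX0 τ := hσ
    simp only [dX0, List.mem_map] at hσ
    obtain ⟨p, hp, rfl⟩ := hσ
    exact ⟨hτ.1, H _ hτ.2.1 _ hp, hτ.2.2.1, hτ.2.2.2.1, hτ.2.2.2.2⟩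
  · replace hσ : σ ∈ dX1 τ := hσ
    simp only [dX1, List.mem_map] at hσ
    obtain ⟨p, hp, rfl⟩ := hσ
    exact ⟨hτ.1, hτ.2.1, H _ hτ.2.2.1 _ hp, hτ.2.2.2.1, hτ.2.2.2.2⟩
  · replace hσ : σ ∈ dX2 τ := hσ
    simp only [dX2, List.mem_map] at hσ
    obtain ⟨p, hp, rfl⟩ := hσ
    exact ⟨hτ.1, hτ.2.1, hτ.2.2.1, H _ hτ.2.2.2.1 _ hp, hτ.2.2.2.2⟩

lemma mem_lapTerm {τ σ : Term} (h : σ ∈ lapTerm τ) : ∃ j, ∃ ρ ∈ dX j τ, σ ∈ dX j ρ := by
  simp only [lapTerm, List.mem_append, List.mem_flatMap] at h
  rcases h with (⟨ρ, h1, h2⟩ | ⟨ρ, h1, h2⟩) | ⟨ρ, h1, h2⟩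
  exacts [⟨0, ρ, h1, h2⟩, ⟨1, ρ, h1, h2⟩, ⟨2, ρ, h1, h2⟩]

lemma valid_nsTerm {τ σ : Term} (hτ : τ.Valid) (hσ : σ ∈ nsTerm τ) : σ.Valid := by
  simp only [nsTerm, List.mem_append, List.mem_map] at hσ
  rcases hσ with h | ⟨ρ, h, rfl⟩
  · exact valid_dT hτ h
  · obtain ⟨j, π, h1, h2⟩ := mem_lapTerm h
    have hρ : ρ.Valid := valid_dX (valid_dX hτ h1) h2
    exact hρ

lemma valid_mapForce {f : Term → List Term} (hf : ∀ τ σ : Term, τ.Valid → σ ∈ f τ → σ.Valid)
    {V : Force} (hV : V.Valid) : (mapForce f V).Valid := by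
  intro i σ hσ
  rw [component_mapForce, List.mem_flatMap] at hσ
  obtain ⟨τ, hτ, h⟩ := hσ
  exact hf τ σ (hV i τ hτ) h

lemma valid_nsForce {V : Force} (hV : V.Valid) : (nsForce V).Valid :=
  valid_mapForce (fun _ _ => valid_nsTerm) hV

/-! ## Velocity fields given by term lists -/

lemma forceVal_apply (ν : ℝ) (V : Force) (t : ℝ) (x : V3) (i : Fin 3) :
    forceVal ν V t x i = ((V.component i).map fun τ => termVal ν τ t x).sum := rfl

lemma forceVal_mapForce (ν : ℝ) (f : Term → List Term) (V : Force) (t : ℝ) (x : V3) (i : Fin 3) :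
    forceVal ν (mapForce f V) t x i
      = ((V.component i).map fun τ => ((f τ).map fun σ => termVal ν σ t x).sum).sum := by
  rw [forceVal_apply, component_mapForce]
  simp [List.flatMap, List.map_flatten, List.sum_flatten, List.map_map, Function.comp_def]

lemma hasDerivAt_list_sum {ι : Type} {F : ι → ℝ → ℝ} {F' : ι → ℝ} {s : ℝ} :
    ∀ l : List ι, (∀ a ∈ l, HasDerivAt (F a) (F' a) s) →
      HasDerivAt (fun r => (l.map fun a => F a r).sum) (l.map F').sum s := by
  intro l
  induction l with
  | nil => intro _; simpa using hasDerivAt_const s (0 : ℝ)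
  | cons a l ih =>
      intro h
      simpa using (h a List.mem_cons_self).fun_add
        (ih fun b hb => h b (List.mem_cons_of_mem _ hb))

lemma hasDerivAt_forceVal_t {ν : ℝ} {V : Force} (hV : V.Valid) (t : ℝ) (x : V3) :
    HasDerivAt (fun s => forceVal ν V s x) (forceVal ν (mapForce dT V) t x) t := by
  refine hasDerivAt_pi.2 fun i => ?_
  rw [forceVal_mapForce]
  exact hasDerivAt_list_sum _ fun τ hτ => hasDerivAt_termVal_t (hV i τ hτ) t x

lemma hasDerivAt_forceVal_x {ν : ℝ} {V : Force} (hV : V.Valid) (t : ℝ) (x : V3) (j : Fin 3) :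
    HasDerivAt (fun s => forceVal ν V t (Function.update x j s))
      (forceVal ν (mapForce (dX j) V) t x) (x j) := by
  refine hasDerivAt_pi.2 fun i => ?_
  rw [forceVal_mapForce]
  exact hasDerivAt_list_sum _ fun τ hτ => hasDerivAt_termVal_x (hV i τ hτ) t x j

lemma contDiff_prodVal {α : Type} {val : α → ℝ → ℝ} {n : ℕ∞} :
    ∀ l : List α, (∀ a ∈ l, ContDiff ℝ n (val a)) → ContDiff ℝ n (prodVal val l) := by
  intro l
  induction l with
  | nil => intro _; exact contDiff_const
  | cons a l ih =>
      intro h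
      have hfun : prodVal val (a :: l) = fun r => val a r * prodVal val l r := by
        funext r; simp [prodVal]
      rw [hfun]
      exact (h a List.mem_cons_self).mul (ih fun b hb => h b (List.mem_cons_of_mem _ hb))

lemma contDiff_spaceVal {l : List Bump} (h : ∀ g ∈ l, Bump.Valid g) {n : ℕ∞} :
    ContDiff ℝ n (spaceVal l) :=
  contDiff_prodVal (val := fun a => perVal (bumpVal a)) l fun g hg => contDiff_perVal_bump (h g hg)

lemma contDiff_timeFactorVal {a : TimeFactor} (ha : a.2.Valid) {n : ℕ∞} :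
    ContDiff ℝ n (timeFactorVal a) := by
  obtain ⟨f, g⟩ := a
  cases f with
  | false =>
      have h : timeFactorVal (false, g) = bumpVal g := by funext r; simp [timeFactorVal]
      rw [h]; exact contDiff_bumpVal g
  | true =>
      have h : timeFactorVal (true, g) = perVal (bumpVal g) := by funext r; simp [timeFactorVal]
      rw [h]; exact contDiff_perVal_bump ha

lemma contDiff_termVal {ν : ℝ} {τ : Term} (hτ : τ.Valid) {n : ℕ∞} :
    ContDiff ℝ n fun z : ℝ × V3 => termVal ν τ z.1 z.2 := by
  have hx : ∀ i : Fin 3, ContDiff ℝ n fun z : ℝ × V3 => z.2 i :=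
    fun i => (contDiff_apply ℝ ℝ i).comp contDiff_snd
  refine (((contDiff_const.mul ?_).mul ((contDiff_spaceVal hτ.2.1).comp (hx 0))).mul
    ((contDiff_spaceVal hτ.2.2.1).comp (hx 1))).mul ((contDiff_spaceVal hτ.2.2.2.1).comp (hx 2))
  exact (contDiff_prodVal τ.2.1 fun a ha => contDiff_timeFactorVal (hτ.1 a ha)).comp contDiff_fst

lemma contDiff_forceVal {ν : ℝ} {V : Force} (hV : V.Valid) {n : ℕ∞} :
    ContDiff ℝ n fun z : ℝ × V3 => forceVal ν V z.1 z.2 := by
  refine contDiff_pi.2 fun i => ?_
  have : ∀ l : List Term, (∀ τ ∈ l, τ.Valid) →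
      ContDiff ℝ n fun z : ℝ × V3 => (l.map fun τ => termVal ν τ z.1 z.2).sum := by
    intro l
    induction l with
    | nil => intro _; simpa using contDiff_const
    | cons a l ih =>
        intro h
        simpa using (contDiff_termVal (h a List.mem_cons_self)).add
          (ih fun b hb => h b (List.mem_cons_of_mem _ hb))
  exact this _ (hV i)

lemma continuous_forceVal {ν : ℝ} {V : Force} (hV : V.Valid) :
    Continuous fun z : ℝ × V3 => forceVal ν V z.1 z.2 :=
  (contDiff_forceVal hV (n := 0)).continuous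

lemma periodic3_forceVal (ν : ℝ) (V : Force) (t : ℝ) : Periodic3 (forceVal ν V t) := by
  intro z x
  funext i
  simp [forceVal_apply, termVal, spaceVal, perVal_add_int]

lemma forceVal_nsForce (ν : ℝ) (V : Force) (t : ℝ) (x : V3) (i : Fin 3) :
    forceVal ν (nsForce V) t x i = forceVal ν (mapForce dT V) t x i
      - ν * ∑ j, forceVal ν (mapForce (dX j) (mapForce (dX j) V)) t x i := by
  have hneg : ∀ σ : Term, termVal ν (negNu σ) t x = -ν * termVal ν σ t x := by
    intro σ
    simp only [termVal, negNu, coefVal, ratVal_ratNeg, Rat.cast_neg, pow_succ]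
    ring
  have hlap : ∀ j, forceVal ν (mapForce (dX j) (mapForce (dX j) V)) t x i
      = ((V.component i).map fun τ =>
          (((dX j τ).flatMap (dX j)).map fun σ => termVal ν σ t x).sum).sum := by
    intro j
    rw [forceVal_apply, component_mapForce, component_mapForce, List.flatMap_assoc]
    simp [List.flatMap, List.map_flatten, List.sum_flatten, List.map_map, Function.comp_def]
  simp only [nsForce, forceVal_mapForce ν nsTerm, forceVal_mapForce ν dT, hlap,
    Fin.sum_univ_three, nsTerm, lapTerm, List.map_append, List.sum_append, List.map_map,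
    Function.comp_def, hneg, List.sum_map_mul_left, List.sum_map_add]
  simp only [dX, Matrix.cons_val_zero, Matrix.cons_val_one, Matrix.cons_val_two, Matrix.head_cons,
    Matrix.tail_cons]
  ring

/-- A shear velocity field solves Navier-Stokes with force `∂ₜu - νΔu` and pressure `0`. -/
theorem isClassicalSolution_shear (ν : ℝ) {V : Force} (hV : V.Valid)
    (hdiag : ∀ t x i s,
      forceVal ν V t (Function.update x i s) i = forceVal ν V t x i)
    (hone : ∀ t, ∃ i, ∀ x j, j ≠ i → forceVal ν V t x j = 0) (T : ℝ) :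
    IsClassicalSolution ν (forceVal ν (nsForce V)) T (forceVal ν V) fun _ _ => 0 := by
  have hV1 : ∀ j, (mapForce (dX j) V).Valid := fun j => valid_mapForce (fun _ _ => valid_dX) hV
  have hVt : (mapForce dT V).Valid := valid_mapForce (fun _ _ => valid_dT) hV
  have hV2 : ∀ j k, (mapForce (dX k) (mapForce (dX j) V)).Valid :=
    fun j k => valid_mapForce (fun _ _ => valid_dX) (hV1 j)
  have hdd : ∀ t x i, forceVal ν (mapForce (dX i) V) t x i = 0 := by
    intro t x i
    refine (hasDerivAt_pi.1 (hasDerivAt_forceVal_x hV t x i) i).unique ?_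
    simpa [hdiag] using hasDerivAt_const (x i) (forceVal ν V t x i)
  refine ⟨forceVal ν (mapForce dT V), fun j => forceVal ν (mapForce (dX j) V),
    fun j k => forceVal ν (mapForce (dX k) (mapForce (dX j) V)), fun _ _ _ => 0,
    fun t _ => ⟨periodic3_forceVal ν V t, fun _ _ => rfl⟩,
    (continuous_forceVal hV).continuousOn, (continuous_forceVal hVt).continuousOn,
    fun j => (continuous_forceVal (hV1 j)).continuousOn,
    fun j k => (continuous_forceVal (hV2 j k)).continuousOn,
    continuousOn_const, fun _ => continuousOn_const,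
    fun t _ x => (hasDerivAt_forceVal_t hV t x).hasDerivWithinAt,
    fun t _ x j => hasDerivAt_forceVal_x hV t x j,
    fun t _ x j k => hasDerivAt_forceVal_x (hV1 j) t x k,
    fun t _ x j => hasDerivAt_const _ _, fun t _ x => by simp [hdd], ?_, fun t _ => by simp⟩
  intro t _ x i
  obtain ⟨i₀, hi₀⟩ := hone t
  have hconv : ∀ j, forceVal ν V t x j * forceVal ν (mapForce (dX j) V) t x i = 0 := by
    intro j
    by_cases hj : j = i₀
    · subst hj
      by_cases hi : i = j
      · subst hi; rw [hdd, mul_zero]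
      · have h0 : forceVal ν (mapForce (dX j) V) t x i = 0 := by
          refine (hasDerivAt_pi.1 (hasDerivAt_forceVal_x hV t x j) i).unique ?_
          simpa [fun y => hi₀ y i hi] using hasDerivAt_const (x j) (0 : ℝ)
        rw [h0, mul_zero]
    · rw [hi₀ x j hj, zero_mul]
  simp only [hconv, Finset.sum_const_zero, forceVal_nsForce]
  ring

/-! ## Periodic and transient parts -/

lemma leibniz_timeFlags : ∀ (θ : List TimeFactor), ∀ p ∈ leibniz timeFactorD θ,
    p.2.map Prod.fst = θ.map Prod.fst := by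
  intro θ
  induction θ with
  | nil => simp [leibniz]
  | cons a l ih =>
      intro p hp
      simp only [leibniz, List.mem_append, List.mem_map] at hp
      rcases hp with ⟨q, hq, rfl⟩ | ⟨q, hq, rfl⟩
      · simp only [timeFactorD, List.mem_map] at hq
        obtain ⟨r, -, rfl⟩ := hq
        simp
      · simp [ih q hq]

lemma time_dX {τ σ : Term} {j : Fin 3} (h : σ ∈ dX j τ) : σ.2.1 = τ.2.1 := by
  fin_cases j
  · replace h : σ ∈ dX0 τ := h
    simp only [dX0, List.mem_map] at h
    obtain ⟨p, -, rfl⟩ := h; rfl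
  · replace h : σ ∈ dX1 τ := h
    simp only [dX1, List.mem_map] at h
    obtain ⟨p, -, rfl⟩ := h; rfl
  · replace h : σ ∈ dX2 τ := h
    simp only [dX2, List.mem_map] at h
    obtain ⟨p, -, rfl⟩ := h; rfl

lemma isPeriodic_nsTerm {τ σ : Term} (h : σ ∈ nsTerm τ) : σ.isPeriodic = τ.isPeriodic := by
  simp only [nsTerm, List.mem_append, List.mem_map] at h
  have key : ∀ l l' : List TimeFactor, l.map Prod.fst = l'.map Prod.fst →
      (l.all fun a => a.1) = l'.all fun a => a.1 := by
    intro l l' hl
    have h1 := List.all_map (l := l) (f := Prod.fst) (p := id)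
    have h2 := List.all_map (l := l') (f := Prod.fst) (p := id)
    rw [hl] at h1
    simp only [Function.comp_def, id] at h1 h2
    exact h1.symm.trans h2
  rcases h with h | ⟨ρ, h, rfl⟩
  · simp only [dT, List.mem_map] at h
    obtain ⟨p, hp, rfl⟩ := h
    exact key _ _ (leibniz_timeFlags _ p hp)
  · obtain ⟨j, π, h1, h2⟩ := mem_lapTerm h
    simp [Term.isPeriodic, negNu, time_dX h2, time_dX h1]

/-- The periodic part of the force only depends on the periodic part of the velocity. -/
lemma filter_periodic_nsForce (V : Force) (i : Fin 3) :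
    ((nsForce V).component i).filter Term.isPeriodic
      = ((V.component i).filter Term.isPeriodic).flatMap nsTerm := by
  rw [nsForce, component_mapForce]
  induction V.component i with
  | nil => rfl
  | cons τ l ih =>
      rw [List.flatMap_cons, List.filter_append, ih, List.filter_cons]
      cases hτ : τ.isPeriodic
      · rw [List.filter_eq_nil_iff.2 fun σ hσ => by simp [isPeriodic_nsTerm hσ, hτ]]
        simp
      · rw [List.filter_eq_self.2 fun σ hσ => by simp [isPeriodic_nsTerm hσ, hτ]]
        simp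

/-- Length of the plateau of a shape (zero for the first shape). -/
def shapeLen : ℕ ⊕ RatCode → ℚ
  | Sum.inl _ => 0
  | Sum.inr l => max (ratVal l) 0

/-- The bump vanishes, with all its symbolic derivatives, from `T₀` on. -/
def Bump.EndsBy (g : Bump) (T₀ : ℚ) : Prop :=
  0 < ratVal g.2.2.1 ∧ ratVal g.2.2.2 + 1 + shapeLen g.1 ≤ ratVal g.2.2.1 * T₀

/-- The term has a non-periodized time factor that vanishes from `T₀` on. -/
def Term.EndsBy (τ : Term) (T₀ : ℚ) : Prop :=
  ∃ a ∈ τ.2.1, a.1 = false ∧ Bump.EndsBy a.2 T₀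

lemma iteratedDeriv_rho_eq_zero_of_one_le (j : ℕ) {s : ℝ} (h : 1 ≤ s) :
    iteratedDeriv j rho s = 0 := by
  have hc : Continuous (iteratedDeriv j rho) :=
    (contDiff_iteratedDeriv_rho j (n := 0)).continuous
  have h1 : Set.EqOn (iteratedDeriv j rho) (fun _ => 0) (Set.Ioi 1) := fun r hr =>
    iteratedDeriv_rho_eq_zero j (lt_of_lt_of_le hr (le_abs_self r))
  exact (h1.closure hc continuous_const) (by simpa [closure_Ioi] using h)

lemma bumpVal_eq_zero_of_endsBy {g : Bump} {T₀ : ℚ} (h : g.EndsBy T₀) {t : ℝ}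
    (ht : (T₀ : ℝ) ≤ t) : bumpVal g t = 0 := by
  obtain ⟨S, k, a, b⟩ := g
  obtain ⟨ha, hle⟩ := h
  have ha' : (0 : ℝ) < (ratVal a : ℝ) := by exact_mod_cast ha
  have hle' : ((ratVal b : ℝ)) + 1 + (shapeLen S : ℝ) ≤ (ratVal a : ℝ) * (T₀ : ℝ) := by
    exact_mod_cast hle
  have hs : 1 + (shapeLen S : ℝ) ≤ (ratVal a : ℝ) * t - (ratVal b : ℝ) := by
    nlinarith [mul_le_mul_of_nonneg_left ht ha'.le]
  have hz : shapeVal S ((ratVal a : ℝ) * t - (ratVal b : ℝ)) = 0 := by
    cases S with
    | inl j =>
        simp only [shapeLen, Rat.cast_zero, add_zero] at hs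
        exact iteratedDeriv_rho_eq_zero_of_one_le j hs
    | inr l =>
        have hm : max (ratVal l : ℝ) 0 = ((shapeLen (Sum.inr l) : ℚ) : ℝ) := by simp [shapeLen]
        simp only [shapeVal, piFun]
        rw [sigma_eq_kappa (by linarith [le_max_right (ratVal l : ℝ) 0]),
          sigma_eq_kappa (by linarith [le_max_left (ratVal l : ℝ) 0]), sub_self]
  simp [bumpVal, hz]

lemma endsBy_bumpD {g : Bump} {T₀ : ℚ} (h : g.EndsBy T₀) {p : RatCode × Bump}
    (hp : p ∈ bumpD g) : p.2.EndsBy T₀ := by
  obtain ⟨S, k, a, b⟩ := g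
  obtain ⟨ha, hle⟩ := h
  refine ⟨by rw [bumpD_a hp]; exact ha, ?_⟩
  rcases S with j | l <;>
    simp only [bumpD, shapeD, List.mem_cons, List.not_mem_nil, or_false] at hp
  · rcases hp with rfl | rfl <;> simp only [shapeLen] at hle ⊢ <;> linarith
  · rcases hp with rfl | rfl | rfl <;> simp only [shapeLen, ratVal_ratAdd] at hle ⊢ <;>
      linarith [le_max_left (ratVal l) 0, le_max_right (ratVal l) 0]

lemma endsBy_nsTerm {τ σ : Term} {T₀ : ℚ} (h : τ.EndsBy T₀) (hσ : σ ∈ nsTerm τ) :
    σ.EndsBy T₀ := by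
  simp only [nsTerm, List.mem_append, List.mem_map] at hσ
  rcases hσ with hd | ⟨ρ, hl, rfl⟩
  · simp only [dT, List.mem_map] at hd
    obtain ⟨p, hp, rfl⟩ := hd
    obtain ⟨a₀, ha₀, hf, he⟩ := h
    have : ∀ θ : List TimeFactor, a₀ ∈ θ → ∀ p ∈ leibniz timeFactorD θ,
        ∃ a ∈ p.2, a.1 = false ∧ Bump.EndsBy a.2 T₀ := by
      intro θ
      induction θ with
      | nil => simp
      | cons a l ih =>
          intro hmem p hp
          simp only [leibniz, List.mem_append, List.mem_map] at hp
          rcases hp with ⟨q, hq, rfl⟩ | ⟨q, hq, rfl⟩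
          · rcases List.mem_cons.1 hmem with rfl | hmem
            · simp only [timeFactorD, List.mem_map] at hq
              obtain ⟨r, hr, rfl⟩ := hq
              exact ⟨_, List.mem_cons_self, hf, endsBy_bumpD he hr⟩
            · exact ⟨a₀, List.mem_cons_of_mem _ hmem, hf, he⟩
          · rcases List.mem_cons.1 hmem with rfl | hmem
            · exact ⟨a₀, List.mem_cons_self, hf, he⟩
            · obtain ⟨b, hb, hb'⟩ := ih hmem q hq
              exact ⟨b, List.mem_cons_of_mem _ hb, hb'⟩
    exact this _ ha₀ p hp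
  · obtain ⟨j, π, h1, h2⟩ := mem_lapTerm hl
    simpa [Term.EndsBy, negNu, time_dX h2, time_dX h1] using h

lemma termVal_eq_zero_of_endsBy {ν : ℝ} {τ : Term} {T₀ : ℚ} (h : τ.EndsBy T₀) {t : ℝ}
    (ht : (T₀ : ℝ) ≤ t) (x : V3) : termVal ν τ t x = 0 := by
  obtain ⟨a, ha, hf, he⟩ := h
  have h0 : timeFactorVal a t = 0 := by simp [timeFactorVal, hf, bumpVal_eq_zero_of_endsBy he ht]
  have : (τ.2.1.map fun b => timeFactorVal b t).prod = 0 :=
    List.prod_eq_zero (List.mem_map.2 ⟨a, ha, h0⟩)
  simp [termVal, this]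

/-- Every non-periodic term of the force vanishes from `T₀` on. -/
lemma nsForce_transient_vanish (ν : ℝ) {V : Force} {T₀ : ℚ}
    (hV : ∀ i, ∀ τ ∈ V.component i, τ.isPeriodic = false → τ.EndsBy T₀)
    (i : Fin 3) {σ : Term} (hσ : σ ∈ (nsForce V).component i) (hp : σ.isPeriodic = false)
    {t : ℝ} (ht : (T₀ : ℝ) ≤ t) (x : V3) : termVal ν σ t x = 0 := by
  rw [nsForce, component_mapForce, List.mem_flatMap] at hσ
  obtain ⟨τ, hτ, h⟩ := hσ
  exact termVal_eq_zero_of_endsBy
    (endsBy_nsTerm (hV i τ hτ ((isPeriodic_nsTerm h).symm.trans hp)) h) ht x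

/-! ## Computability -/

lemma primrec_ratNeg : Primrec ratNeg :=
  (Primrec.fst.comp Primrec.snd).pair (Primrec.fst.pair (Primrec.snd.comp Primrec.snd))

lemma primrec_ratOfNat : Primrec ratOfNat :=
  Primrec.id.pair (Primrec.const (0, 0))

lemma primrec_ratMul : Primrec₂ ratMul := by
  unfold Primrec₂ ratMul
  have p1 : Primrec fun z : RatCode × RatCode => z.1.1 := Primrec.fst.comp Primrec.fst
  have n1 : Primrec fun z : RatCode × RatCode => z.1.2.1 :=
    Primrec.fst.comp (Primrec.snd.comp Primrec.fst)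
  have d1 : Primrec fun z : RatCode × RatCode => z.1.2.2 :=
    Primrec.snd.comp (Primrec.snd.comp Primrec.fst)
  have p2 : Primrec fun z : RatCode × RatCode => z.2.1 := Primrec.fst.comp Primrec.snd
  have n2 : Primrec fun z : RatCode × RatCode => z.2.2.1 :=
    Primrec.fst.comp (Primrec.snd.comp Primrec.snd)
  have d2 : Primrec fun z : RatCode × RatCode => z.2.2.2 :=
    Primrec.snd.comp (Primrec.snd.comp Primrec.snd)
  refine (Primrec.nat_add.comp (Primrec.nat_mul.comp p1 p2) (Primrec.nat_mul.comp n1 n2)).pair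
    ((Primrec.nat_add.comp (Primrec.nat_mul.comp p1 n2) (Primrec.nat_mul.comp n1 p2)).pair ?_)
  exact Primrec.nat_sub.comp (Primrec.nat_mul.comp (Primrec.succ.comp d1) (Primrec.succ.comp d2))
    (Primrec.const 1)

lemma primrec_ratAdd : Primrec₂ ratAdd := by
  unfold Primrec₂ ratAdd
  have p1 : Primrec fun z : RatCode × RatCode => z.1.1 := Primrec.fst.comp Primrec.fst
  have n1 : Primrec fun z : RatCode × RatCode => z.1.2.1 :=
    Primrec.fst.comp (Primrec.snd.comp Primrec.fst)
  have e1 : Primrec fun z : RatCode × RatCode => z.1.2.2 + 1 :=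
    Primrec.succ.comp (Primrec.snd.comp (Primrec.snd.comp Primrec.fst))
  have p2 : Primrec fun z : RatCode × RatCode => z.2.1 := Primrec.fst.comp Primrec.snd
  have n2 : Primrec fun z : RatCode × RatCode => z.2.2.1 :=
    Primrec.fst.comp (Primrec.snd.comp Primrec.snd)
  have e2 : Primrec fun z : RatCode × RatCode => z.2.2.2 + 1 :=
    Primrec.succ.comp (Primrec.snd.comp (Primrec.snd.comp Primrec.snd))
  refine (Primrec.nat_add.comp (Primrec.nat_mul.comp p1 e2) (Primrec.nat_mul.comp p2 e1)).pair
    ((Primrec.nat_add.comp (Primrec.nat_mul.comp n1 e2) (Primrec.nat_mul.comp n2 e1)).pair ?_)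
  exact Primrec.nat_sub.comp (Primrec.nat_mul.comp e1 e2) (Primrec.const 1)

lemma primrec_shapeD : Primrec shapeD := by
  have hS : Primrec fun g : Bump => g.1 := Primrec.fst
  have hk : Primrec fun g : Bump => g.2.1 := Primrec.fst.comp Primrec.snd
  have ha : Primrec fun g : Bump => g.2.2.1 :=
    Primrec.fst.comp (Primrec.snd.comp Primrec.snd)
  have hb : Primrec fun g : Bump => g.2.2.2 :=
    Primrec.snd.comp (Primrec.snd.comp Primrec.snd)
  have h1 : Primrec fun z : Bump × ℕ =>
      [(z.1.2.2.1, ((Sum.inl (z.2 + 1), z.1.2.1, z.1.2.2.1, z.1.2.2.2) : Bump))] :=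
    Primrec.list_cons.comp ((ha.comp Primrec.fst).pair
      ((Primrec.sumInl.comp (Primrec.succ.comp Primrec.snd)).pair ((hk.comp Primrec.fst).pair
        ((ha.comp Primrec.fst).pair (hb.comp Primrec.fst))))) (Primrec.const [])
  have h2 : Primrec fun z : Bump × RatCode =>
      [(z.1.2.2.1, ((Sum.inl 0, z.1.2.1, z.1.2.2.1, z.1.2.2.2) : Bump)),
        (ratNeg z.1.2.2.1, ((Sum.inl 0, z.1.2.1, z.1.2.2.1, ratAdd z.1.2.2.2 z.2) : Bump))] :=
    Primrec.list_cons.comp ((ha.comp Primrec.fst).pair
      ((Primrec.const (Sum.inl 0)).pair ((hk.comp Primrec.fst).pair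
        ((ha.comp Primrec.fst).pair (hb.comp Primrec.fst)))))
      (Primrec.list_cons.comp ((primrec_ratNeg.comp (ha.comp Primrec.fst)).pair
        ((Primrec.const (Sum.inl 0)).pair ((hk.comp Primrec.fst).pair
          ((ha.comp Primrec.fst).pair
            (primrec_ratAdd.comp (hb.comp Primrec.fst) Primrec.snd))))) (Primrec.const []))
  refine (Primrec.sumCasesOn hS h1.to₂ h2.to₂).of_eq fun g => ?_
  obtain ⟨S, k, a, b⟩ := g
  cases S <;> rfl

lemma primrec_bumpD : Primrec bumpD := by
  have hk : Primrec fun g : Bump => g.2.1 := Primrec.fst.comp Primrec.snd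
  exact Primrec.list_cons.comp ((primrec_ratOfNat.comp hk).pair (Primrec.fst.pair
    ((Primrec.nat_sub.comp hk (Primrec.const 1)).pair (Primrec.snd.comp Primrec.snd))))
    primrec_shapeD

lemma primrec_timeFactorD : Primrec timeFactorD :=
  Primrec.list_map (primrec_bumpD.comp Primrec.snd)
    ((Primrec.fst.comp Primrec.snd).pair
      ((Primrec.fst.comp Primrec.fst).pair (Primrec.snd.comp Primrec.snd))).to₂

lemma primrec_leibniz {α : Type} [Primcodable α] {d : α → List (RatCode × α)} (hd : Primrec d) :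
    Primrec (leibniz d) := by
  have step : Primrec₂ fun (_ : List α) (z : α × List α × List (RatCode × List α)) =>
      (d z.1).map (fun p => (p.1, p.2 :: z.2.1)) ++ z.2.2.map fun p => (p.1, z.1 :: p.2) := by
    have h1 : Primrec fun w : List α × α × List α × List (RatCode × List α) =>
        (d w.2.1).map fun p => (p.1, p.2 :: w.2.2.1) :=
      Primrec.list_map (hd.comp (Primrec.fst.comp Primrec.snd))
        ((Primrec.fst.comp Primrec.snd).pair (Primrec.list_cons.comp
          (Primrec.snd.comp Primrec.snd)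
          (Primrec.fst.comp (Primrec.snd.comp (Primrec.snd.comp Primrec.fst))))).to₂
    have h2 : Primrec fun w : List α × α × List α × List (RatCode × List α) =>
        w.2.2.2.map fun p => (p.1, w.2.1 :: p.2) :=
      Primrec.list_map (Primrec.snd.comp (Primrec.snd.comp Primrec.snd))
        ((Primrec.fst.comp Primrec.snd).pair (Primrec.list_cons.comp
          (Primrec.fst.comp (Primrec.snd.comp Primrec.fst))
          (Primrec.snd.comp Primrec.snd))).to₂
    exact (Primrec.list_append.comp h1 h2).to₂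
  refine (Primrec.list_rec Primrec.id (Primrec.const []) step).of_eq fun l => ?_
  induction l with
  | nil => rfl
  | cons a l ih => simp only [id] at ih ⊢; rw [leibniz, ← ih]

lemma primrec_coefScale : Primrec₂ coefScale :=
  ((primrec_ratMul.comp Primrec.fst (Primrec.fst.comp Primrec.snd)).pair
    (Primrec.snd.comp Primrec.snd)).to₂

lemma primrec_negNu : Primrec negNu :=
  ((primrec_ratNeg.comp (Primrec.fst.comp Primrec.fst)).pair
    ((Primrec.succ.comp (Primrec.fst.comp (Primrec.snd.comp Primrec.fst))).pair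
      (Primrec.snd.comp (Primrec.snd.comp Primrec.fst)))).pair Primrec.snd

lemma primrec_dT : Primrec dT :=
  Primrec.list_map ((primrec_leibniz primrec_timeFactorD).comp (Primrec.fst.comp Primrec.snd))
    ((primrec_coefScale.comp (Primrec.fst.comp Primrec.snd) (Primrec.fst.comp Primrec.fst)).pair
      ((Primrec.snd.comp Primrec.snd).pair
        (Primrec.snd.comp (Primrec.snd.comp Primrec.fst)))).to₂

lemma primrec_dX0 : Primrec dX0 :=
  Primrec.list_map ((primrec_leibniz primrec_bumpD).comp
      (Primrec.fst.comp (Primrec.snd.comp Primrec.snd)))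
    ((primrec_coefScale.comp (Primrec.fst.comp Primrec.snd) (Primrec.fst.comp Primrec.fst)).pair
      ((Primrec.fst.comp (Primrec.snd.comp Primrec.fst)).pair
        ((Primrec.snd.comp Primrec.snd).pair
          (Primrec.snd.comp (Primrec.snd.comp (Primrec.snd.comp Primrec.fst)))))).to₂

lemma primrec_dX1 : Primrec dX1 :=
  Primrec.list_map ((primrec_leibniz primrec_bumpD).comp
      (Primrec.fst.comp (Primrec.snd.comp (Primrec.snd.comp Primrec.snd))))
    ((primrec_coefScale.comp (Primrec.fst.comp Primrec.snd) (Primrec.fst.comp Primrec.fst)).pair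
      ((Primrec.fst.comp (Primrec.snd.comp Primrec.fst)).pair
        ((Primrec.fst.comp (Primrec.snd.comp (Primrec.snd.comp Primrec.fst))).pair
          ((Primrec.snd.comp Primrec.snd).pair
            (Primrec.snd.comp (Primrec.snd.comp
              (Primrec.snd.comp (Primrec.snd.comp Primrec.fst)))))))).to₂

lemma primrec_dX2 : Primrec dX2 :=
  Primrec.list_map ((primrec_leibniz primrec_bumpD).comp
      (Primrec.snd.comp (Primrec.snd.comp (Primrec.snd.comp Primrec.snd))))
    ((primrec_coefScale.comp (Primrec.fst.comp Primrec.snd) (Primrec.fst.comp Primrec.fst)).pair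
      ((Primrec.fst.comp (Primrec.snd.comp Primrec.fst)).pair
        ((Primrec.fst.comp (Primrec.snd.comp (Primrec.snd.comp Primrec.fst))).pair
          ((Primrec.fst.comp (Primrec.snd.comp
              (Primrec.snd.comp (Primrec.snd.comp Primrec.fst)))).pair
            (Primrec.snd.comp Primrec.snd))))).to₂

lemma primrec_lapTerm : Primrec lapTerm :=
  Primrec.list_append.comp
    (Primrec.list_append.comp (Primrec.list_flatMap primrec_dX0 (primrec_dX0.comp Primrec.snd).to₂)
      (Primrec.list_flatMap primrec_dX1 (primrec_dX1.comp Primrec.snd).to₂))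
    (Primrec.list_flatMap primrec_dX2 (primrec_dX2.comp Primrec.snd).to₂)

lemma primrec_nsTerm : Primrec nsTerm :=
  Primrec.list_append.comp primrec_dT
    (Primrec.list_map primrec_lapTerm (primrec_negNu.comp Primrec.snd).to₂)

lemma primrec_nsForce : Primrec nsForce :=
  (Primrec.list_flatMap Primrec.fst (primrec_nsTerm.comp Primrec.snd).to₂).pair
    ((Primrec.list_flatMap (Primrec.fst.comp Primrec.snd)
      (primrec_nsTerm.comp Primrec.snd).to₂).pair
    (Primrec.list_flatMap (Primrec.snd.comp Primrec.snd)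
      (primrec_nsTerm.comp Primrec.snd).to₂))

lemma nsForce_computable : Computable nsForce := primrec_nsForce.to_comp

end Vale.Agent.P113
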