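import Vale.Agent.P113.Behaviour

/-!
Syntactic and structural properties of the compiled velocity.
-/

namespace Vale.Agent.P113

open Finset

theorem ratVal_ofNat (n : ℕ) : ratVal (n, 0, 0) = (n : ℚ) := by simp [ratVal]

theorem cellBump_valid {c : Cell} (hc : c.Good) (k : ℕ) : (cellBump c k).Valid := by
  refine ⟨?_, fun l hl => ?_⟩
  · have := hc.1
    simp only [cellBump, ratVal_ofNat]
    exact_mod_cast show 8 * c.2 ≠ 0 by omega
  · simp only [cellBump, Sum.inr.injEq] at hl
    rw [← hl, ratVal_ofNat]
    norm_num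

/-- All bumps in a spatial part are valid. -/
def SpaceValid (h : Space) : Prop :=
  (∀ g ∈ h.1, Bump.Valid g) ∧ (∀ g ∈ h.2.1, Bump.Valid g) ∧ ∀ g ∈ h.2.2, Bump.Valid g

theorem normTerm_valid {per : Bool} {a b : ℕ} (ha : a ≠ 0) (q : RatCode) {h : Space}
    (hh : SpaceValid h) : (normTerm per a b q h).Valid := by
  refine ⟨fun e he => ?_, hh.1, hh.2.1, hh.2.2, by simp [normTerm]⟩
  simp only [normTerm, List.mem_singleton] at he
  subst he
  refine ⟨?_, fun l hl => by simp at hl⟩
  rw [ratVal_ofNat]
  exact_mod_cast ha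

/-- A monomial list with valid bumps. -/
def MonsValid (l : List (RatCode × Bump)) : Prop := ∀ e ∈ l, Bump.Valid e.2

theorem linMons_valid {c : Cell} (hc : c.Good) (c' : Cell) : MonsValid (linMons c c') := by
  intro e he
  simp only [linMons, List.mem_cons, List.not_mem_nil, or_false] at he
  rcases he with rfl | rfl <;> exact cellBump_valid hc _

theorem negMons_valid {l : List (RatCode × Bump)} (h : MonsValid l) : MonsValid (negMons l) := by
  intro e he
  simp only [negMons, List.mem_map] at he
  obtain ⟨e', he', rfl⟩ := he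
  exact h e' he'

theorem monsValid_append {l l' : List (RatCode × Bump)} (h : MonsValid l) (h' : MonsValid l') :
    MonsValid (l ++ l') := fun e he => (List.mem_append.1 he).elim (h e) (h' e)

/-- Valid and periodic. -/
def GoodTerm (τ : Term) : Prop := τ.Valid ∧ τ.isPeriodic = true

theorem stageTerms_good (k : ℕ) {l : List (RatCode × Bump)} {emb : Bump → Space}
    (hl : MonsValid l) (he : ∀ g, Bump.Valid g → SpaceValid (emb g)) :
    ∀ τ ∈ stageTerms k l emb, GoodTerm τ := by
  intro τ hτ
  simp only [stageTerms, List.mem_map] at hτ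
  obtain ⟨e, he', rfl⟩ := hτ
  exact ⟨normTerm_valid (by norm_num) _ (he _ (hl e he')), by simp [normTerm, Term.isPeriodic]⟩

theorem embZ_valid {g : Bump} (hg : g.Valid) : SpaceValid (embZ g) := by
  simp [SpaceValid, embZ, hg]

theorem embX_valid {g : Bump} (hg : g.Valid) : SpaceValid (embX g) := by
  simp [SpaceValid, embX, hg]

theorem embXbox_valid {c : Cell} (hc : c.Good) {g : Bump} (hg : g.Valid) :
    SpaceValid (embXbox c g) := by
  simp [SpaceValid, embXbox, hg, cellBump_valid hc]

theorem embBoxY_valid {c : Cell} (hc : c.Good) {g : Bump} (hg : g.Valid) :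
    SpaceValid (embBoxY c g) := by
  simp [SpaceValid, embBoxY, hg, cellBump_valid hc]

theorem piece_terms_good {S : Cell} {P : Piece} (hS : S.Good) (hP : P.Good) :
    (∀ τ ∈ pieceX S P, GoodTerm τ) ∧ (∀ τ ∈ pieceY S P, GoodTerm τ) ∧
      ∀ τ ∈ pieceZ S P, GoodTerm τ := by
  obtain ⟨gX, gY, gX', gY'⟩ := hP
  have L := fun {c : Cell} (hc : c.Good) (c' : Cell) => linMons_valid hc c'
  have N := fun {c : Cell} (hc : c.Good) (c' : Cell) => negMons_valid (linMons_valid hc c')
  refine ⟨?_, ?_, ?_⟩
  · simp only [pieceX, List.mem_append]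
    rintro τ (h | h) <;>
      exact stageTerms_good _ (monsValid_append (L hS _) (N hS _)) (fun g => embZ_valid) τ h
  · exact fun τ h => stageTerms_good _ (monsValid_append (L hS _) (N hS _)) (fun g => embZ_valid) τ h
  · simp only [pieceZ, List.mem_append]
    rintro τ (((((h | h) | h) | h) | h) | h)
    · exact stageTerms_good _ (L gX _) (fun g => embXbox_valid gY) τ h
    · exact stageTerms_good _ (N hS _) (fun g => embX_valid) τ h
    · exact stageTerms_good _ (L gY _) (fun g => embBoxY_valid hS) τ h
    · exact stageTerms_good _ (N gY' _) (fun g => embBoxY_valid hS) τ h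
    · exact stageTerms_good _ (L hS _) (fun g => embX_valid) τ h
    · exact stageTerms_good _ (N gX' _) (fun g => embXbox_valid gY') τ h

theorem allPieces_good {l : List Piece} (hl : GoodPieces l) {f : Cell → Piece → List Term}
    (hf : ∀ S P, Cell.Good S → Piece.Good P → ∀ τ ∈ f S P, GoodTerm τ) :
    ∀ τ ∈ allPieces f l, GoodTerm τ := by
  intro τ hτ
  simp only [allPieces, List.mem_flatMap, List.mem_range] at hτ
  obtain ⟨i, hi, h⟩ := hτ
  exact hf _ _ (slot_good hi) (hl.at hi) τ h

/-- The periodic part of each component of the velocity. -/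
def periodicPart (l : List Piece) (i : Fin 3) : List Term :=
  ![allPieces pieceX l, allPieces pieceY l, allPieces pieceZ l] i

theorem periodicPart_good {l : List Piece} (hl : GoodPieces l) (i : Fin 3) :
    ∀ τ ∈ periodicPart l i, GoodTerm τ := by
  fin_cases i
  · exact allPieces_good hl fun S P hS hP => (piece_terms_good hS hP).1
  · exact allPieces_good hl fun S P hS hP => (piece_terms_good hS hP).2.1
  · exact allPieces_good hl fun S P hS hP => (piece_terms_good hS hP).2.2

/-- A term with a non-periodized time factor supported before `1/2`. -/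
def EarlyTerm (τ : Term) : Prop :=
  ∃ e ∈ τ.2.1, e.1 = false ∧ ∀ s : ℝ, 1 / 2 ≤ s → bumpVal e.2 s = 0

theorem velocity_terms {l : List Piece} (hl : GoodPieces l) (hb : ProfileFacts)
    (a : (ℕ × ℕ) × (ℕ × ℕ)) (i : Fin 3) :
    ∀ τ ∈ (velocity (l, a)).component i, τ.Valid ∧
      (τ.isPeriodic = false → EarlyTerm τ) := by
  have hnil : SpaceValid ([], [], []) := by simp [SpaceValid]
  have hload : ∀ (b : ℕ) (q : RatCode), b ≤ 4 → (normTerm false 16 b q ([], [], [])).Valid ∧
      EarlyTerm (normTerm false 16 b q ([], [], [])) := by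
    intro b q hb4
    refine ⟨normTerm_valid (by norm_num) _ hnil, _, List.mem_singleton.2 rfl, rfl, fun s hs => ?_⟩
    rw [bumpVal_rho]
    have : (b : ℝ) ≤ 4 := by exact_mod_cast hb4
    exact hb.rho_high _ (by push_cast; linarith)
  have hp : ∀ τ ∈ periodicPart l i, τ.Valid ∧ (τ.isPeriodic = false → EarlyTerm τ) :=
    fun τ hτ => ⟨(periodicPart_good hl i τ hτ).1, fun h => by
      rw [(periodicPart_good hl i τ hτ).2] at h; cases h⟩
  intro τ hτ
  fin_cases i
  · rcases List.mem_cons.1 hτ with rfl | h
    · exact ⟨(hload 2 _ (by norm_num)).1, fun _ => (hload 2 _ (by norm_num)).2⟩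
    · exact hp τ h
  · rcases List.mem_cons.1 hτ with rfl | h
    · exact ⟨(hload 4 _ le_rfl).1, fun _ => (hload 4 _ le_rfl).2⟩
    · exact hp τ h
  · exact hp τ hτ

theorem velocity_periodic_part {l : List Piece} (hl : GoodPieces l) (a : (ℕ × ℕ) × (ℕ × ℕ))
    (i : Fin 3) :
    ((velocity (l, a)).component i).filter Term.isPeriodic = periodicPart l i := by
  have h := List.filter_eq_self.2 fun τ hτ => (periodicPart_good hl i τ hτ).2
  fin_cases i <;>
    simpa [velocity, Force.component, periodicPart, normTerm, Term.isPeriodic] using h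

theorem stageField_indep (l : List Piece) {k : ℕ} (hk : k < 9) (x : V3) (i : Fin 3) (s : ℝ) :
    stageField l k (Function.update x i s) i = stageField l k x i := by
  simp only [stageField, Finset.sum_apply]
  refine sum_congr rfl fun j _ => ?_
  fin_cases i <;> interval_cases k <;> simp [pieceField, Function.update]

/-- Direction of motion of the periodic stage `k`. -/
def stageDir (k : ℕ) : Fin 3 := if k = 1 ∨ k = 7 then 0 else if k = 4 then 1 else 2

theorem stageField_dir (l : List Piece) {k : ℕ} (hk : k < 9) (x : V3) {j : Fin 3}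
    (h : j ≠ stageDir k) : stageField l k x j = 0 := by
  simp only [stageField, Finset.sum_apply]
  refine sum_eq_zero fun i _ => ?_
  fin_cases j <;> interval_cases k <;> simp [stageDir] at h <;> simp [pieceField]

theorem velField_apply (nu : ℝ) (l : List Piece) (a : (ℕ × ℕ) × (ℕ × ℕ)) (t : ℝ) (x : V3)
    (i : Fin 3) :
    velField nu l a t x i = timeW false 16 2 t * loadVec a 0 i + timeW false 16 4 t * loadVec a 1 i +
      ∑ k ∈ range 9, timeW true 40 (stageB k) t * stageField l k x i := by
  rw [velField, forceVal_velocity]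
  simp [Finset.sum_apply]

theorem velField_indep (nu : ℝ) (l : List Piece) (a : (ℕ × ℕ) × (ℕ × ℕ)) (t : ℝ) (x : V3)
    (i : Fin 3) (s : ℝ) :
    velField nu l a t (Function.update x i s) i = velField nu l a t x i := by
  simp only [velField_apply]
  congr 1
  exact sum_congr rfl fun k hk => by rw [stageField_indep l (mem_range.1 hk)]

theorem timeW_shift (a b : ℕ) (t : ℝ) (m : ℤ) : timeW true a b (t + m) = timeW true a b t := by
  simp only [timeW, timeFactorVal, if_pos, perVal_add_int]

theorem velField_one_dir (hb : ProfileFacts) (nu : ℝ) (l : List Piece) (a : (ℕ × ℕ) × (ℕ × ℕ))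
    (t : ℝ) : ∃ i : Fin 3, ∀ x, ∀ j, j ≠ i → velField nu l a t x j = 0 := by
  by_cases hload : timeW false 16 2 t = 0 ∧ timeW false 16 4 t = 0
  · obtain ⟨m, h0, h1⟩ : ∃ m : ℤ, (0 : ℕ) + 1 / 2 ≤ t + m ∧ t + m ≤ (0 : ℕ) + 3 / 2 := by
      refine ⟨-⌊t - 1 / 2⌋, ?_, ?_⟩ <;>
        have := Int.floor_le (t - 1 / 2) <;> have := Int.lt_floor_add_one (t - 1 / 2) <;>
        push_cast <;> linarith
    let S := clockStages hb (N := 9) 40 ((0 : ℕ) : ℝ) stageB stageB_sep
    have e : ∀ k < 9, timeW true 40 (stageB k) t = S.th k (t + m) := by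
      intro k hk
      rw [← timeW_shift 40 (stageB k) t m, timeW_periodic hb hk 0 h0 h1]
      rfl
    by_cases h : ∃ k, k < 9 ∧ S.th k (t + m) ≠ 0
    · obtain ⟨k, hk, hne⟩ := h
      refine ⟨stageDir k, fun x j hj => ?_⟩
      rw [velField_apply, hload.1, hload.2, zero_mul, zero_mul, zero_add, zero_add]
      refine sum_eq_zero fun k' hk' => ?_
      rcases eq_or_ne k' k with rfl | hkk
      · rw [stageField_dir l hk x hj, mul_zero]
      · rw [e k' (mem_range.1 hk'), S.excl k' k (mem_range.1 hk') hk hkk _ hne, zero_mul]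
    · push Not at h
      refine ⟨0, fun x j _ => ?_⟩
      rw [velField_apply, hload.1, hload.2, zero_mul, zero_mul, zero_add, zero_add]
      exact sum_eq_zero fun k' hk' => by
        rw [e k' (mem_range.1 hk'), h k' (mem_range.1 hk'), zero_mul]
  · have hw : 1 / 16 ≤ t ∧ t ≤ 5 / 16 ∧
        (timeW false 16 2 t = 0 ∨ timeW false 16 4 t = 0) := by
      simp only [timeW_load, clockSpeed] at hload ⊢
      rcases le_total t (3 / 16) with h | h
      · have h4 := hb.rho_low (((16 : ℕ) : ℝ) * (t - 0) - ((4 : ℕ) : ℝ)) (by push_cast; linarith)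
        refine ⟨?_, by linarith, Or.inr (by rw [h4, mul_zero])⟩
        by_contra hc
        exact hload ⟨by rw [hb.rho_low _ (by push_cast; linarith), mul_zero], by rw [h4, mul_zero]⟩
      · have h2 := hb.rho_high (((16 : ℕ) : ℝ) * (t - 0) - ((2 : ℕ) : ℝ)) (by push_cast; linarith)
        refine ⟨by linarith, ?_, Or.inl (by rw [h2, mul_zero])⟩
        by_contra hc
        exact hload ⟨by rw [h2, mul_zero], by rw [hb.rho_high _ (by push_cast; linarith), mul_zero]⟩
    have hz : ∀ x j, ∑ k ∈ range 9, timeW true 40 (stageB k) t * stageField l k x j = 0 :=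
      fun x j => sum_eq_zero fun k hk => by
        rw [timeW_periodic_zero hb (mem_range.1 hk) (by linarith [hw.1]) (by linarith [hw.2.1]),
          zero_mul]
    rcases hw.2.2 with h | h
    · refine ⟨1, fun x j hj => ?_⟩
      rw [velField_apply, hz, h]
      fin_cases j <;> simp [loadVec] at hj ⊢
    · refine ⟨0, fun x j hj => ?_⟩
      rw [velField_apply, hz, h]
      fin_cases j <;> simp [loadVec] at hj ⊢

theorem velField_zero (hb : ProfileFacts) (nu : ℝ) (l : List Piece) (a : (ℕ × ℕ) × (ℕ × ℕ))
    (x : V3) : velField nu l a 0 x = 0 := by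
  rw [velField_load hb nu l a le_rfl (by norm_num)]
  refine sum_eq_zero fun k _ => ?_
  have : (2 : ℝ) ≤ ((2 + 2 * k : ℕ) : ℝ) := by exact_mod_cast Nat.le_add_right 2 (2 * k)
  rw [clockSpeed, hb.rho_low _ (by push_cast at this ⊢; linarith), mul_zero, zero_smul]

end Vale.Agent.P113
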