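import Vale.Agent.P113.MainStatement
import Vale.Agent.P113.MachineSide
import Vale.Agent.P113.NSUnique
import Vale.Agent.P113.VelocityProps
import Vale.Agent.P113.TermAlg

/-!
Assembly of the main theorem.
-/

namespace Vale.Agent.P113

set_option synthInstance.maxSize 2048

theorem velocity_endsBy {l : List Piece} (hl : GoodPieces l) (a : (ℕ × ℕ) × (ℕ × ℕ)) (i : Fin 3) :
    ∀ τ ∈ (velocity (l, a)).component i, τ.isPeriodic = false → τ.EndsBy (1 / 2) := by
  have hload : ∀ (b : ℕ) (q : RatCode) (h : Space), b ≤ 4 →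
      (normTerm false 16 b q h).EndsBy (1 / 2) := by
    intro b q h hb
    have : (b : ℚ) ≤ 4 := by exact_mod_cast hb
    refine ⟨_, List.mem_singleton.2 rfl, rfl, ?_, ?_⟩
    · rw [ratVal_ofNat]; norm_num
    · simp only [shapeLen, ratVal_ofNat]
      push_cast
      linarith
  intro τ hτ hper
  have hp : τ ∈ periodicPart l i → τ.EndsBy (1 / 2) := fun h => by
    rw [(periodicPart_good hl i τ h).2] at hper
    cases hper
  fin_cases i
  · rcases List.mem_cons.1 hτ with rfl | h
    · exact hload 2 _ _ (by norm_num)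
    · exact hp h
  · rcases List.mem_cons.1 hτ with rfl | h
    · exact hload 4 _ _ le_rfl
    · exact hp h
  · exact hp hτ

theorem mainStatement : MainStatement := by
  let ms := machineSide
  refine ⟨fun _ => 0, boxLo, boxHi, 1 / 2,
    fun e => nsForce (velocity (ms.pieces e.1, ms.start e)), ?_, ?_, ?_⟩
  · intro i
    fin_cases i <;> simp [boxLo, boxHi] <;> norm_num
  · exact nsForce_computable.comp (primrec_velocity.to_comp.comp
      ((ms.pieces_computable.comp Computable.fst).pair ms.start_computable))
  intro M w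
  let l := ms.pieces M.code
  let a := fun v : List (Fin (M.symbols + 1)) => ms.start (M.code, v.map Fin.val)
  have hb := profileFacts
  have hl : GoodPieces l := ⟨ms.good M, ms.src_sep M, ms.dst_sep M⟩
  have hv : ∀ v i, ∀ τ ∈ (velocity (l, a v)).component i, τ.Valid :=
    fun v i τ hτ => (velocity_terms hl hb (a v) i τ hτ).1
  have hn : ∀ v, (nsForce (velocity (l, a v))).Valid := fun v => valid_nsForce (hv v)
  refine ⟨hn w, fun i τ hτ hp nu t ht x => ?_, fun w' i => ?_, fun nu hnu =>
    ⟨⟨fun n => by simpa using contDiff_forceVal (ν := nu) (hn w) (n := (n : ℕ∞)),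
      periodic3_forceVal nu _⟩, ?_⟩⟩
  · exact nsForce_transient_vanish nu (velocity_endsBy hl (a w)) i hτ hp
      (by push_cast; exact ht) x
  · rw [filter_periodic_nsForce, filter_periodic_nsForce, velocity_periodic_part hl,
      velocity_periodic_part hl]
  have hsm : ∀ n : ℕ, ContDiff ℝ n fun z : ℝ × V3 => velField nu l (a w) z.1 z.2 :=
    fun n => by simpa [velField] using contDiff_forceVal (ν := nu) (hv w) (n := (n : ℕ∞))
  have hsm1 : ContDiff ℝ 1 fun z : ℝ × V3 => velField nu l (a w) z.1 z.2 := by
    simpa using hsm 1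
  have hsol := isClassicalSolution_shear nu (V := velocity (l, a w)) (hv w) (velField_indep nu l (a w))
    (velField_one_dir hb nu l (a w))
  have ha := ms.start_den (M.code, w.map Fin.val)
  have e0 : (fun i : Fin 3 => (((fun _ => 0 : Fin 3 → ℚ) i : ℚ) : ℝ)) = (0 : V3) := by
    funext i; simp
  refine ⟨velField nu l (a w), fun _ _ => 0, hsm, fun n => contDiff_const,
    velField_zero hb nu l (a w), fun T _ => hsol T, fun T hT v q hq hq0 t ht x => ?_, ?_, ?_⟩
  · exact classical_unique hnu.le hT (hsol T) hq
      (fun x => (velField_zero hb nu l (a w) x).trans (hq0 x).symm) t ht x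
  · exact exists_trajectory hsm1 (periodic3_forceVal nu _) _
  · intro X hX
    rw [e0] at hX
    constructor
    · rintro ⟨t, ht, hbox⟩
      by_contra hnot
      obtain ⟨p, hp0, hs⟩ := ms.nonhalts M w hnot
      exact avoids hb hsm1 hl ha hX p hp0 hs t ht hbox
    · intro hh
      obtain ⟨n, p, hp0, hs, h1, h2⟩ := ms.halts M w hh
      exact reaches hb hsm1 hl ha hX n p hp0 hs h1 h2

end Vale.Agent.P113
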