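import Vale.Agent.P113.Flow

/-!
The trajectory of the origin under the compiled velocity field.
-/

namespace Vale.Agent.P113

open Finset

/-- The compiled velocity field as a function. -/
noncomputable def velField (nu : ℝ) (l : List Piece) (a : (ℕ × ℕ) × (ℕ × ℕ)) : ℝ → V3 → V3 :=
  forceVal nu (velocity (l, a))

/-- The point `(p, 0)`. -/
def flatPt (p : ℝ × ℝ) : V3 := ![p.1, p.2, 0]

/-- The two loading segments. -/
noncomputable def loadPt (a : (ℕ × ℕ) × (ℕ × ℕ)) : ℕ → V3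
  | 0 => ![0, 0, 0]
  | 1 => ![(fracPoint a).1, 0, 0]
  | _ => flatPt (fracPoint a)

theorem stageB_sep (j k : ℕ) (h : j < k) (_ : k < 9) : stageB j + 2 ≤ stageB k := by
  simp only [stageB]; omega

theorem loadB_sep (j k : ℕ) (h : j < k) (_ : k < 2) : (2 + 2 * j) + 2 ≤ 2 + 2 * k := by omega

theorem loadVec_eq {a : (ℕ × ℕ) × (ℕ × ℕ)} (h1 : 0 < a.1.2) (h2 : 0 < a.2.2) (k : ℕ) (hk : k < 2) :
    loadVec a k = loadPt a (k + 1) - loadPt a k := by
  interval_cases k <;>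
    simp [loadVec, loadPt, flatPt, fracPoint, fracQ, vec3_sub, ratVal_den _ _ _ h1,
      ratVal_den _ _ _ h2]

theorem velField_load (hb : ProfileFacts) (nu : ℝ) (l : List Piece) (a : (ℕ × ℕ) × (ℕ × ℕ))
    {t : ℝ} (h0 : 0 ≤ t) (h1 : t ≤ 1 / 2) (x : V3) :
    velField nu l a t x =
      ∑ k ∈ range 2, clockSpeed 16 0 (2 + 2 * k) t • loadVec a k := by
  rw [velField, forceVal_velocity, sum_eq_zero (s := range 9) fun k hk => by
    rw [timeW_periodic_zero hb (mem_range.1 hk) h0 h1, zero_smul]]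
  simp [sum_range_succ, timeW_load]

theorem velField_period (hb : ProfileFacts) (nu : ℝ) (l : List Piece) (a : (ℕ × ℕ) × (ℕ × ℕ))
    (n : ℕ) {t : ℝ} (h0 : (n : ℝ) + 1 / 2 ≤ t) (h1 : t ≤ (n : ℝ) + 3 / 2) (x : V3) :
    velField nu l a t x =
      ∑ k ∈ range 9, clockSpeed 40 (n : ℝ) (stageB k) t • stageField l k x := by
  have ht : 1 / 2 ≤ t := le_trans (by linarith [(n.cast_nonneg : (0 : ℝ) ≤ n)]) h0
  rw [velField, forceVal_velocity, timeW_load_zero hb (by norm_num) ht,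
    timeW_load_zero hb le_rfl ht, zero_smul, zero_smul, zero_add, zero_add]
  exact sum_congr rfl fun k hk => by rw [timeW_periodic hb (mem_range.1 hk) n h0 h1]

variable {nu : ℝ} {l : List Piece} {a : (ℕ × ℕ) × (ℕ × ℕ)} {X : ℝ → V3}

/-- The loading part of a trajectory. -/
theorem load_motion (hb : ProfileFacts)
    (hsm : ContDiff ℝ 1 fun z : ℝ × V3 => velField nu l a z.1 z.2)
    (ha : 0 < a.1.2 ∧ 0 < a.2.2) (hX : IsTrajectory (velField nu l a) 0 X) :
    X (1 / 2) = flatPt (fracPoint a) ∧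
      ∀ t, 0 ≤ t → t ≤ 1 / 2 → ∃ k, k < 2 ∧ ∃ s : ℝ, 0 ≤ s ∧ s ≤ 1 ∧
        X t = loadPt a k + s • (loadPt a (k + 1) - loadPt a k) := by
  let S := clockStages hb (N := 2) 16 0 (fun k => 2 + 2 * k) loadB_sep
  have hY : ∀ t ∈ Set.Icc (0 : ℝ) (1 / 2), HasDerivWithinAt (S.curve (loadPt a))
      (velField nu l a t (S.curve (loadPt a) t)) (Set.Icc 0 (1 / 2)) t := by
    intro t ht
    rw [velField_load hb nu l a ht.1 ht.2]
    exact (S.curve_solves (loadPt a) (fun k _ => loadVec a k)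
      (fun k hk s _ _ => loadVec_eq ha.1 ha.2 k hk) t).hasDerivWithinAt
  have h0 : X 0 = S.curve (loadPt a) 0 := by
    rw [hX.1, S.curve_of_zero _ _ fun k hk => clock_zero hb _ _ _ _ (by
      have : (2 : ℝ) ≤ ((2 + 2 * k : ℕ) : ℝ) := by exact_mod_cast Nat.le_add_right 2 (2 * k)
      push_cast at this ⊢; linarith)]
    funext i
    fin_cases i <;> simp [loadPt]
  have he := hX.eqOn hsm le_rfl hY h0
  refine ⟨?_, fun t ht ht' => ?_⟩
  · rw [he ⟨by norm_num, le_rfl⟩, S.curve_of_one _ _ fun k hk => clock_one hb _ _ _ _ (by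
      have : (k : ℝ) ≤ 1 := by exact_mod_cast Nat.lt_succ_iff.1 hk
      push_cast; linarith)]
    rfl
  · obtain ⟨k, hk, s, hs, hs', e⟩ := S.curve_mem (loadPt a) (by norm_num) t
    exact ⟨k, hk, s, hs, hs', by rw [he ⟨ht, ht'⟩, e]⟩

/-- One period of a trajectory. -/
theorem period_motion (hb : ProfileFacts)
    (hsm : ContDiff ℝ 1 fun z : ℝ × V3 => velField nu l a z.1 z.2)
    (hl : GoodPieces l) (hX : IsTrajectory (velField nu l a) 0 X) (n : ℕ) {p p' : ℝ × ℝ}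
    (hstep : PieceStep l p p') (hp : X ((n : ℝ) + 1 / 2) = flatPt p) :
    X ((n : ℝ) + 3 / 2) = flatPt p' ∧
      ∀ t, (n : ℝ) + 1 / 2 ≤ t → t ≤ (n : ℝ) + 3 / 2 → ∀ B : ℝ, p.1 ≤ B → p'.1 ≤ B → 1 / 2 ≤ B →
        0 ≤ X t 0 ∧ X t 0 ≤ B := by
  obtain ⟨P, hP, u, v, hu, hu', hv, hv', rfl, rfl⟩ := hstep
  obtain ⟨i, hi, rfl⟩ := List.getElem_of_mem hP
  have e : l[i] = pieceAt l i := (List.getD_eq_getElem _ _ hi).symm
  let S := clockStages hb (N := 9) 40 (n : ℝ) stageB stageB_sep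
  let Q := corner (slot l.length i) (pieceAt l i) u v
  have hY : ∀ t ∈ Set.Icc ((n : ℝ) + 1 / 2) ((n : ℝ) + 3 / 2), HasDerivWithinAt (S.curve Q)
      (velField nu l a t (S.curve Q t)) (Set.Icc ((n : ℝ) + 1 / 2) ((n : ℝ) + 3 / 2)) t := by
    intro t ht
    rw [velField_period hb nu l a n ht.1 ht.2]
    exact (S.curve_solves Q (stageField l)
      (fun k hk s _ _ => stage_moves hb hl hi hu hu' hv hv' k hk s) t).hasDerivWithinAt
  have h0 : X ((n : ℝ) + 1 / 2) = S.curve Q ((n : ℝ) + 1 / 2) := by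
    rw [hp, S.curve_of_zero _ _ fun k hk => clock_zero hb _ _ _ _ (by
      have : (22 : ℝ) ≤ (stageB k : ℝ) := by exact_mod_cast (stageB_bounds hk).1
      push_cast; linarith), e]
    rfl
  have he := hX.eqOn hsm (by positivity) hY h0
  refine ⟨?_, fun t ht ht' B hB hB' hB2 => ?_⟩
  · rw [he ⟨by linarith, le_rfl⟩, S.curve_of_one _ _ fun k hk => clock_one hb _ _ _ _ (by
      have : (stageB k : ℝ) ≤ 38 := by exact_mod_cast (stageB_bounds hk).2
      push_cast; linarith), e]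
    rfl
  · obtain ⟨gX, _, gX', _⟩ := hl.at hi
    have hQ : ∀ k, 0 ≤ Q k 0 ∧ Q k 0 ≤ B := by
      intro k
      have a1 := gX.pt_mem hu hu'
      have a2 := gX'.pt_mem hu hu'
      have a3 := (slot_good hi).pt_mem hu hu'
      have a4 := slot_pt_le hi hu'
      simp only [e] at hB hB'
      rcases k with _ | _ | _ | _ | _ | _ | _ | _ | _ | k <;>
        simp only [Q, corner, Matrix.cons_val_zero] <;> constructor <;> linarith [a1.1, a2.1, a3.1]
    obtain ⟨k, _, s, hs, hs', eX⟩ := S.curve_mem Q (by norm_num) t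
    have eX' : X t 0 = Q k 0 + s * (Q (k + 1) 0 - Q k 0) := by
      rw [he ⟨ht, ht'⟩, eX]; simp
    rw [eX']
    obtain ⟨c1, c2⟩ := hQ k
    obtain ⟨d1, d2⟩ := hQ (k + 1)
    constructor <;>
      nlinarith [mul_nonneg hs d1, mul_nonneg (sub_nonneg.2 hs') c1,
        mul_le_mul_of_nonneg_left d2 hs, mul_le_mul_of_nonneg_left c2 (sub_nonneg.2 hs')]

theorem orbit_at (hb : ProfileFacts)
    (hsm : ContDiff ℝ 1 fun z : ℝ × V3 => velField nu l a z.1 z.2)
    (hl : GoodPieces l) (ha : 0 < a.1.2 ∧ 0 < a.2.2) (hX : IsTrajectory (velField nu l a) 0 X)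
    (p : ℕ → ℝ × ℝ) (hp0 : p 0 = fracPoint a) :
    ∀ n : ℕ, (∀ k < n, PieceStep l (p k) (p (k + 1))) → X ((n : ℝ) + 1 / 2) = flatPt (p n) := by
  intro n
  induction n with
  | zero => intro _; simpa [hp0] using (load_motion hb hsm ha hX).1
  | succ n ih =>
    intro h
    have := (period_motion hb hsm hl hX n (h n n.lt_succ_self)
      (ih fun k hk => h k (hk.trans n.lt_succ_self))).1
    convert this using 2
    push_cast
    ring

/-- Lower corner of the detecting box. -/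
def boxLo : Fin 3 → ℚ := ![1 / 2, -1, -1]

/-- Upper corner of the detecting box. -/
def boxHi : Fin 3 → ℚ := ![9 / 10, 2, 2]

theorem inBox_of_x {x : V3} (h : 1 / 2 < x 0) (h' : x 0 < 9 / 10) : InBox boxLo boxHi x := by
  refine ⟨![0, -⌊x 1⌋, -⌊x 2⌋], fun i => ?_⟩
  have h1 := Int.floor_le (x 1)
  have h2 := Int.lt_floor_add_one (x 1)
  have h3 := Int.floor_le (x 2)
  have h4 := Int.lt_floor_add_one (x 2)
  fin_cases i <;> simp [boxLo, boxHi] <;> norm_num <;> constructor <;> linarith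

theorem not_inBox {x : V3} (h : 0 ≤ x 0) (h' : x 0 ≤ 1 / 2) : ¬ InBox boxLo boxHi x := by
  rintro ⟨z, hz⟩
  have := hz 0
  simp [boxLo, boxHi] at this
  rcases lt_or_ge (0 : ℤ) (z 0) with hz0 | hz0
  · have : (1 : ℝ) ≤ (z 0 : ℝ) := by exact_mod_cast hz0
    linarith
  · have : (z 0 : ℝ) ≤ 0 := by exact_mod_cast hz0
    linarith

theorem reaches (hb : ProfileFacts)
    (hsm : ContDiff ℝ 1 fun z : ℝ × V3 => velField nu l a z.1 z.2)
    (hl : GoodPieces l) (ha : 0 < a.1.2 ∧ 0 < a.2.2) (hX : IsTrajectory (velField nu l a) 0 X)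
    (n : ℕ) (p : ℕ → ℝ × ℝ) (hp0 : p 0 = fracPoint a)
    (hs : ∀ k < n, PieceStep l (p k) (p (k + 1))) (hlo : 3 / 5 ≤ (p n).1) (hhi : (p n).1 ≤ 4 / 5) :
    ∃ t : ℝ, 0 ≤ t ∧ InBox boxLo boxHi (X t) := by
  refine ⟨(n : ℝ) + 1 / 2, by positivity, ?_⟩
  rw [orbit_at hb hsm hl ha hX p hp0 n hs]
  exact inBox_of_x (by simp [flatPt]; linarith) (by simp [flatPt]; linarith)

theorem avoids (hb : ProfileFacts)
    (hsm : ContDiff ℝ 1 fun z : ℝ × V3 => velField nu l a z.1 z.2)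
    (hl : GoodPieces l) (ha : 0 < a.1.2 ∧ 0 < a.2.2) (hX : IsTrajectory (velField nu l a) 0 X)
    (p : ℕ → ℝ × ℝ) (hp0 : p 0 = fracPoint a)
    (hs : ∀ k, PieceStep l (p k) (p (k + 1)) ∧ 0 ≤ (p k).1 ∧ (p k).1 ≤ 2 / 5) (t : ℝ) (ht : 0 ≤ t) :
    ¬ InBox boxLo boxHi (X t) := by
  rcases le_total t (1 / 2) with h | h
  · obtain ⟨k, hk, s, hs0, hs1, e⟩ := (load_motion hb hsm ha hX).2 t ht h
    obtain ⟨-, q0, q1⟩ := hs 0
    rw [hp0] at q0 q1
    interval_cases k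
    · have : X t 0 = s * (fracPoint a).1 := by rw [e]; simp [loadPt, flatPt]
      refine not_inBox ?_ ?_ <;> rw [this] <;> nlinarith
    · have : X t 0 = (fracPoint a).1 := by rw [e]; simp [loadPt, flatPt]
      refine not_inBox ?_ ?_ <;> rw [this] <;> linarith
  · have h1 := Nat.floor_le (show (0 : ℝ) ≤ t - 1 / 2 by linarith)
    have h2 := Nat.lt_floor_add_one (t - 1 / 2)
    generalize ⌊t - 1 / 2⌋₊ = n at h1 h2
    obtain ⟨hn, -, qn⟩ := hs n
    obtain ⟨-, -, qn'⟩ := hs (n + 1)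
    obtain ⟨b1, b2⟩ := (period_motion hb hsm hl hX n hn
      (orbit_at hb hsm hl ha hX p hp0 n fun k _ => (hs k).1)).2 t (by linarith) (by linarith)
      (1 / 2) (by linarith) (by linarith) le_rfl
    exact not_inBox b1 b2

end Vale.Agent.P113
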