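import Vale.Agent.P113.Defs

/-!
# The profiles `rho`, `sigma`, `piFun`, the bumps and their periodizations
-/

open MeasureTheory Set Filter Topology

namespace Vale.Agent.P113




lemma rho_eq_glue : rho = fun s => expNegInvGlue (1 - s ^ 2) := by
  funext s
  by_cases h : |s| < 1
  · have h2 : 0 < 1 - s ^ 2 := by
      have := sq_lt_one_iff_abs_lt_one s |>.2 h
      linarith
    simp [rho, h, expNegInvGlue, not_le.2 h2, one_div]
  · have h2 : 1 - s ^ 2 ≤ 0 := by
      have := (one_le_sq_iff_one_le_abs s).2 (not_lt.1 h)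
      linarith
    simp [rho, h, expNegInvGlue, h2]

lemma contDiff_rho {n : ℕ∞} : ContDiff ℝ n rho := by
  rw [rho_eq_glue]
  exact expNegInvGlue.contDiff.comp (contDiff_const.sub (contDiff_id.pow 2))

lemma continuous_rho : Continuous rho := (contDiff_rho (n := 0)).continuous

lemma rho_nonneg (s : ℝ) : 0 ≤ rho s := by
  unfold rho; split_ifs <;> positivity

lemma rho_eq_zero {s : ℝ} (h : 1 ≤ |s|) : rho s = 0 := by
  simp [rho, not_lt.2 h]

lemma rho_pos {s : ℝ} (h : |s| < 1) : 0 < rho s := by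
  simp [rho, h, Real.exp_pos]

lemma hasCompactSupport_rho : HasCompactSupport rho :=
  HasCompactSupport.intro (isCompact_Icc (a := (-1 : ℝ)) (b := 1)) fun s hs =>
    rho_eq_zero (by
      by_contra h
      exact hs ⟨(abs_lt.1 (not_le.1 h)).1.le, (abs_lt.1 (not_le.1 h)).2.le⟩)

lemma integrable_rho : Integrable rho :=
  continuous_rho.integrable_of_hasCompactSupport hasCompactSupport_rho

lemma sigma_eq_intervalIntegral (s : ℝ) : sigma s = ∫ r in (-1)..s, rho r := by
  have h : sigma (-1) = 0 :=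
    setIntegral_eq_zero_of_forall_eq_zero fun r hr => rho_eq_zero (by
      have : r ≤ -1 := hr
      rw [abs_of_neg (by linarith)]; linarith)
  have := intervalIntegral.integral_Iic_sub_Iic (f := rho) (μ := volume) (a := -1) (b := s)
    integrable_rho.integrableOn integrable_rho.integrableOn
  simp only [sigma] at h ⊢
  rw [h, sub_zero] at this
  exact this

lemma hasDerivAt_sigma (s : ℝ) : HasDerivAt sigma (rho s) s := by
  have h : sigma = fun x => ∫ r in (-1)..x, rho r := funext sigma_eq_intervalIntegral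
  rw [h]
  exact continuous_rho.integral_hasStrictDerivAt (-1) s |>.hasDerivAt

lemma deriv_sigma : deriv sigma = rho := funext fun s => (hasDerivAt_sigma s).deriv

lemma contDiff_sigma {n : ℕ∞} : ContDiff ℝ n sigma := by
  have h : ContDiff ℝ ((⊤ : ℕ∞) : WithTop ℕ∞) sigma :=
    contDiff_infty_iff_deriv.2
      ⟨fun s => (hasDerivAt_sigma s).differentiableAt, by rw [deriv_sigma]; exact contDiff_rho⟩
  exact h.of_le (by exact_mod_cast le_top)

lemma monotone_sigma : Monotone sigma :=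
  monotone_of_hasDerivAt_nonneg hasDerivAt_sigma rho_nonneg

lemma sigma_eq_zero {s : ℝ} (h : s ≤ -1) : sigma s = 0 :=
  setIntegral_eq_zero_of_forall_eq_zero fun r hr => rho_eq_zero (by
    have : r ≤ -1 := le_trans hr h
    rw [abs_of_neg (by linarith)]; linarith)

lemma sigma_eq_kappa {s : ℝ} (h : 1 ≤ s) : sigma s = kappa := by
  refine setIntegral_eq_integral_of_forall_compl_eq_zero fun r hr => rho_eq_zero ?_
  have : s < r := not_le.1 hr
  rw [abs_of_pos (by linarith)]; linarith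

lemma sigma_nonneg (s : ℝ) : 0 ≤ sigma s :=
  setIntegral_nonneg measurableSet_Iic fun r _ => rho_nonneg r

lemma sigma_le_kappa (s : ℝ) : sigma s ≤ kappa := by
  rw [← sigma_eq_kappa (le_max_right s 1)]
  exact monotone_sigma (le_max_left s 1)

lemma kappa_pos : 0 < kappa := by
  refine continuous_rho.integral_pos_of_hasCompactSupport_nonneg_nonzero (x := 0)
    hasCompactSupport_rho rho_nonneg ?_
  exact (rho_pos (by simp)).ne'

lemma kappa_ne_zero : kappa ≠ 0 := kappa_pos.ne'

lemma iteratedDeriv_rho_eq_zero (j : ℕ) {s : ℝ} (h : 1 < |s|) : iteratedDeriv j rho s = 0 := by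
  have he : rho =ᶠ[𝓝 s] fun _ => (0 : ℝ) := by
    filter_upwards [(isOpen_lt continuous_const continuous_abs).mem_nhds h] with r hr
    exact rho_eq_zero (le_of_lt hr)
  rw [he.iteratedDeriv_eq]
  simp

lemma contDiff_iteratedDeriv_rho (j : ℕ) {n : ℕ∞} : ContDiff ℝ n (iteratedDeriv j rho) := by
  induction j generalizing n with
  | zero => simpa using contDiff_rho
  | succ j ih =>
      rw [iteratedDeriv_succ]
      exact ((contDiff_infty_iff_deriv.1 (ih (n := ⊤))).2).of_le (by exact_mod_cast le_top)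

lemma hasDerivAt_iteratedDeriv_rho (j : ℕ) (s : ℝ) :
    HasDerivAt (iteratedDeriv j rho) (iteratedDeriv (j + 1) rho s) s := by
  rw [iteratedDeriv_succ]
  exact ((contDiff_iteratedDeriv_rho j (n := 1)).differentiable (by simp) s).hasDerivAt

lemma contDiff_piFun (l : ℝ) {n : ℕ∞} : ContDiff ℝ n (piFun l) :=
  contDiff_sigma.sub (contDiff_sigma.comp (contDiff_id.sub contDiff_const))

lemma hasDerivAt_piFun (l s : ℝ) : HasDerivAt (piFun l) (rho s - rho (s - l)) s :=
  (hasDerivAt_sigma s).sub ((hasDerivAt_sigma (s - l)).comp_sub_const s l)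

lemma piFun_eq_kappa {l s : ℝ} (h₁ : 1 ≤ s) (h₂ : s ≤ l - 1) : piFun l s = kappa := by
  rw [piFun, sigma_eq_kappa h₁, sigma_eq_zero (by linarith), sub_zero]

lemma piFun_eq_zero_of_le {l s : ℝ} (hl : 0 ≤ l) (h : s ≤ -1) : piFun l s = 0 := by
  rw [piFun, sigma_eq_zero h, sigma_eq_zero (by linarith), sub_zero]

lemma piFun_eq_zero_of_ge {l s : ℝ} (hl : 0 ≤ l) (h : l + 1 ≤ s) : piFun l s = 0 := by
  rw [piFun, sigma_eq_kappa (by linarith), sigma_eq_kappa (by linarith), sub_self]

lemma piFun_nonneg {l : ℝ} (hl : 0 ≤ l) (s : ℝ) : 0 ≤ piFun l s :=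
  sub_nonneg.2 (monotone_sigma (by linarith))

lemma piFun_le_kappa (l s : ℝ) : piFun l s ≤ kappa := by
  have := sigma_le_kappa s
  have := sigma_nonneg (s - l)
  unfold piFun; linarith

/-- `g` vanishes outside a bounded interval. -/
def BoundedSupport (g : ℝ → ℝ) : Prop := ∃ R : ℝ, ∀ s, R < |s| → g s = 0

lemma contDiff_shapeVal (S : ℕ ⊕ RatCode) {n : ℕ∞} : ContDiff ℝ n (shapeVal S) := by
  cases S with
  | inl j => exact contDiff_iteratedDeriv_rho j
  | inr l => exact contDiff_piFun _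

lemma contDiff_bumpVal (g : Bump) {n : ℕ∞} : ContDiff ℝ n (bumpVal g) := by
  unfold bumpVal
  exact (contDiff_id.pow _).mul ((contDiff_shapeVal _).comp
    ((contDiff_const.mul contDiff_id).sub contDiff_const))

lemma continuous_bumpVal (g : Bump) : Continuous (bumpVal g) :=
  (contDiff_bumpVal g (n := 0)).continuous

lemma boundedSupport_shapeVal (S : ℕ ⊕ RatCode) : BoundedSupport (shapeVal S) := by
  cases S with
  | inl j => exact ⟨1, fun s hs => iteratedDeriv_rho_eq_zero j hs⟩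
  | inr l =>
      refine ⟨|(ratVal l : ℝ)| + 1, fun s hs => ?_⟩
      have h1 := le_abs_self (ratVal l : ℝ)
      have h2 := neg_abs_le (ratVal l : ℝ)
      show piFun _ s = 0
      rcases lt_abs.1 hs with h | h
      · rw [piFun, sigma_eq_kappa (by linarith [abs_nonneg (ratVal l : ℝ)]),
          sigma_eq_kappa (by linarith), sub_self]
      · rw [piFun, sigma_eq_zero (by linarith [abs_nonneg (ratVal l : ℝ)]),
          sigma_eq_zero (by linarith), sub_self]

lemma boundedSupport_bumpVal {g : Bump} (ha : ratVal g.2.2.1 ≠ 0) :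
    BoundedSupport (bumpVal g) := by
  obtain ⟨R, hR⟩ := boundedSupport_shapeVal g.1
  set a := (ratVal g.2.2.1 : ℝ) with hadef
  set b := (ratVal g.2.2.2 : ℝ) with hbdef
  have ha' : 0 < |a| := abs_pos.2 (by rw [hadef]; exact_mod_cast ha)
  refine ⟨(R + |b|) / |a|, fun s hs => ?_⟩
  rw [div_lt_iff₀ ha'] at hs
  have hs' : R < |a * s - b| := by
    have h1 := abs_sub_abs_le_abs_sub (a * s) b
    rw [abs_mul] at h1
    nlinarith
  simp [bumpVal, ← hadef, ← hbdef, hR _ hs']

lemma Bump.Valid.boundedSupport {g : Bump} (hg : g.Valid) : BoundedSupport (bumpVal g) :=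
  boundedSupport_bumpVal hg.1

/-- A `rho`-bump with `0 < a` vanishes outside the interval from (b - 1)/a to (b + 1)/a. -/
lemma bumpVal_rho_eq_zero {k : ℕ} {a b : RatCode} {s : ℝ}
    (h : 1 ≤ |(ratVal a : ℝ) * s - (ratVal b : ℝ)|) :
    bumpVal (Sum.inl 0, k, a, b) s = 0 := by
  simp [bumpVal, shapeVal, rho_eq_zero h]

lemma bumpVal_pi_plateau {k : ℕ} {l a b : RatCode} {s : ℝ}
    (h₁ : 1 ≤ (ratVal a : ℝ) * s - (ratVal b : ℝ))
    (h₂ : (ratVal a : ℝ) * s - (ratVal b : ℝ) ≤ (ratVal l : ℝ) - 1) :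
    bumpVal (Sum.inr l, k, a, b) s = s ^ k * kappa := by
  simp [bumpVal, shapeVal, piFun_eq_kappa h₁ h₂]

lemma bumpVal_pi_eq_zero {k : ℕ} {l a b : RatCode} {s : ℝ} (hl : 0 ≤ ratVal l)
    (h : (ratVal a : ℝ) * s - (ratVal b : ℝ) ≤ -1 ∨
      (ratVal l : ℝ) + 1 ≤ (ratVal a : ℝ) * s - (ratVal b : ℝ)) :
    bumpVal (Sum.inr l, k, a, b) s = 0 := by
  have hl' : (0 : ℝ) ≤ (ratVal l : ℝ) := by exact_mod_cast hl
  rcases h with h | h
  · simp [bumpVal, shapeVal, piFun_eq_zero_of_le hl' h]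
  · simp [bumpVal, shapeVal, piFun_eq_zero_of_ge hl' h]

/-- The primitive of an affinely rescaled `rho`. -/
lemma hasDerivAt_sigma_affine (a b s : ℝ) :
    HasDerivAt (fun r => sigma (a * r - b)) (a * rho (a * s - b)) s := by
  have h := (hasDerivAt_sigma (a * s - b)).comp s (((hasDerivAt_id s).const_mul a).sub_const b)
  simpa [Function.comp_def, mul_comm] using h

section Periodization

/-- On a bounded set the periodization is a finite sum of translates. -/
lemma perVal_eq_sum {g : ℝ → ℝ} {S : ℝ} (hS : ∀ s, S < |s| → g s = 0) {z : ℝ} {N : ℕ}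
    (hN : S + |z| ≤ N) : perVal g z = ∑ m ∈ Finset.Icc (-(N : ℤ)) N, g (z + m) := by
  refine tsum_eq_sum fun m hm => hS _ ?_
  have hm' : (N : ℝ) + 1 ≤ |(m : ℝ)| := by
    rw [Finset.mem_Icc, not_and_or, not_le, not_le] at hm
    rcases hm with h | h
    · have : (m : ℝ) + 1 ≤ -(N : ℝ) := by exact_mod_cast Int.add_one_le_of_lt h
      rw [abs_of_neg (by linarith [Nat.cast_nonneg (α := ℝ) N])]; linarith
    · have : (N : ℝ) + 1 ≤ (m : ℝ) := by exact_mod_cast Int.add_one_le_of_lt h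
      exact this.trans (le_abs_self _)
  have h3 := abs_sub_abs_le_abs_sub (m : ℝ) (-z)
  rw [abs_neg, sub_neg_eq_add, add_comm (m : ℝ) z] at h3
  linarith

/-- Near every point the periodization is a finite sum of translates. -/
lemma perVal_eventually_eq_sum {g : ℝ → ℝ} {S : ℝ} (hS : ∀ s, S < |s| → g s = 0) (y : ℝ) {N : ℕ}
    (hN : S + |y| + 1 ≤ N) :
    ∀ᶠ z in 𝓝 y, perVal g z = ∑ m ∈ Finset.Icc (-(N : ℤ)) N, g (z + m) := by
  filter_upwards [Metric.ball_mem_nhds y one_pos] with z hz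
  rw [Metric.mem_ball, Real.dist_eq] at hz
  exact perVal_eq_sum hS (by linarith [abs_sub_abs_le_abs_sub z y])

lemma contDiff_perVal {g : ℝ → ℝ} {n : ℕ∞} (hg : BoundedSupport g) (h : ContDiff ℝ n g) :
    ContDiff ℝ n (perVal g) := by
  refine contDiff_iff_contDiffAt.2 fun y => ?_
  obtain ⟨R, hR⟩ := hg
  obtain ⟨N, hN⟩ := exists_nat_ge (R + |y| + 1)
  refine ContDiffAt.congr_of_eventuallyEq ?_ (perVal_eventually_eq_sum hR y hN)
  exact (ContDiff.sum fun m _ => h.comp (contDiff_id.add contDiff_const)).contDiffAt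

lemma contDiff_perVal_bump {g : Bump} (hg : g.Valid) {n : ℕ∞} :
    ContDiff ℝ n (perVal (bumpVal g)) :=
  contDiff_perVal hg.boundedSupport (contDiff_bumpVal g)

lemma hasDerivAt_perVal {g g' : ℝ → ℝ} (hg : BoundedSupport g) (hg' : BoundedSupport g')
    (h : ∀ s, HasDerivAt g (g' s) s) (y : ℝ) : HasDerivAt (perVal g) (perVal g' y) y := by
  obtain ⟨R, hR⟩ := hg
  obtain ⟨R', hR'⟩ := hg'
  obtain ⟨N, hN⟩ := exists_nat_ge (max R R' + |y| + 1)
  rw [perVal_eq_sum hR' (N := N) (by linarith [le_max_right R R'])]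
  refine HasDerivAt.congr_of_eventuallyEq ?_
    (perVal_eventually_eq_sum hR y (N := N) (by linarith [le_max_left R R']))
  exact HasDerivAt.fun_sum fun m _ => (h (y + m)).comp_add_const y m

lemma perVal_add_int (g : ℝ → ℝ) (y : ℝ) (m : ℤ) : perVal g (y + m) = perVal g y := by
  unfold perVal
  rw [← (Equiv.addLeft m).tsum_eq fun k : ℤ => g (y + k)]
  refine tsum_congr fun k => ?_
  simp [add_assoc]

lemma perVal_sub_int (g : ℝ → ℝ) (y : ℝ) (m : ℤ) : perVal g (y - m) = perVal g y := by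
  rw [← perVal_add_int g (y - m) m, sub_add_cancel]

lemma perVal_eq_single {g : ℝ → ℝ} {y : ℝ} (m₀ : ℤ)
    (h : ∀ m : ℤ, m ≠ m₀ → g (y + m) = 0) : perVal g y = g (y + m₀) :=
  tsum_eq_single m₀ h

lemma perVal_eq_self {g : ℝ → ℝ} {y : ℝ} (h : ∀ m : ℤ, m ≠ 0 → g (y + m) = 0) :
    perVal g y = g y := by
  simpa using perVal_eq_single 0 h

lemma perVal_eq_zero {g : ℝ → ℝ} {y : ℝ} (h : ∀ m : ℤ, g (y + m) = 0) : perVal g y = 0 := by
  simp [perVal, h]

/-- If `g` is supported in `[lo, hi]` then on the interval from hi - 1 to lo + 1 only the central translate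
counts. -/
lemma perVal_eq_of_support {g : ℝ → ℝ} {lo hi y : ℝ}
    (hsupp : ∀ s, s < lo ∨ hi < s → g s = 0) (h₁ : hi - 1 < y) (h₂ : y < lo + 1) :
    perVal g y = g y := by
  refine perVal_eq_self fun m hm => hsupp _ ?_
  rcases lt_or_gt_of_ne hm with h | h
  · have : (m : ℝ) ≤ -1 := by exact_mod_cast Int.le_sub_one_of_lt h
    left; linarith
  · have : (1 : ℝ) ≤ (m : ℝ) := by exact_mod_cast h
    right; linarith

/-- If `g` is supported in `[lo, hi] ⊆ (0, 1)` then in every period the periodization is the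
translate of `g`. -/
lemma perVal_eq_on_period {g : ℝ → ℝ} {lo hi : ℝ} (hlo : 0 < lo) (hhi : hi < 1)
    (hsupp : ∀ s, s < lo ∨ hi < s → g s = 0) (n : ℤ) {t : ℝ} (h₁ : (n : ℝ) ≤ t)
    (h₂ : t ≤ n + 1) : perVal g t = g (t - n) := by
  rw [← perVal_sub_int g t n]
  exact perVal_eq_of_support hsupp (by linarith) (by linarith)

end Periodization

end Vale.Agent.P113
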