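import Mathlib

/-!
Definitions for P113: admissible functions, machines, classical solutions, trajectories.
-/

namespace Vale.Agent.P113

open MeasureTheory

/-- A point of (the universal cover of) the torus. -/
abbrev V3 := Fin 3 → ℝ

/-- A rational number coded by three natural numbers `(p, n, d)`. -/
abbrev RatCode := ℕ × ℕ × ℕ

/-- The rational coded by `(p, n, d)` is `(p - n) / (d + 1)`. -/
def ratVal (r : RatCode) : ℚ := ((r.1 : ℚ) - (r.2.1 : ℚ)) / ((r.2.2 : ℚ) + 1)

/-- The basic profile `exp (-1/(1-s^2))` on `(-1,1)`, zero elsewhere. -/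
noncomputable def rho (s : ℝ) : ℝ := if |s| < 1 then Real.exp (-(1 / (1 - s ^ 2))) else 0

/-- `kappa` is the integral of `rho`. -/
noncomputable def kappa : ℝ := ∫ s : ℝ, rho s

/-- `sigma s` is the integral of `rho` over `(-∞, s]`. -/
noncomputable def sigma (s : ℝ) : ℝ := ∫ r in Set.Iic s, rho r

/-- `piFun l s = sigma s - sigma (s - l)`. -/
noncomputable def piFun (l s : ℝ) : ℝ := sigma s - sigma (s - l)

/-- A bump code `(shape, k, a, b)`: shape `inl j` is the `j`-th derivative of `rho`,
shape `inr l` is `piFun l`. -/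
abbrev Bump := (ℕ ⊕ RatCode) × ℕ × RatCode × RatCode

/-- The shape function of a bump code. -/
noncomputable def shapeVal : ℕ ⊕ RatCode → ℝ → ℝ
  | Sum.inl j => iteratedDeriv j rho
  | Sum.inr l => piFun (ratVal l : ℝ)

/-- The bump `s ↦ s^k * shape (a s - b)`. -/
noncomputable def bumpVal (g : Bump) (s : ℝ) : ℝ :=
  s ^ g.2.1 * shapeVal g.1 ((ratVal g.2.2.1 : ℝ) * s - (ratVal g.2.2.2 : ℝ))

/-- A bump code is valid if `a ≠ 0` and, for the second shape, `0 < l`. -/
def Bump.Valid (g : Bump) : Prop :=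
  ratVal g.2.2.1 ≠ 0 ∧ ∀ l, g.1 = Sum.inr l → 0 < ratVal l

/-- The 1-periodization. -/
noncomputable def perVal (g : ℝ → ℝ) (y : ℝ) : ℝ := ∑' m : ℤ, g (y + m)

/-- A factor in time: `(true, g)` stands for `P[g]`, `(false, g)` for `g`. -/
abbrev TimeFactor := Bool × Bump

/-- The value of a time factor. -/
noncomputable def timeFactorVal (a : TimeFactor) (t : ℝ) : ℝ :=
  if a.1 then perVal (bumpVal a.2) t else bumpVal a.2 t

/-- A coefficient code `(q, m, (n₁, n₂), rs)`. -/
abbrev Coef := RatCode × ℕ × (ℕ × ℕ) × List RatCode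

/-- The coefficient `q * nu^m * kappa^(n₁ - n₂) * ∏ log r`. -/
noncomputable def coefVal (nu : ℝ) (c : Coef) : ℝ :=
  (ratVal c.1 : ℝ) * nu ^ c.2.1 * kappa ^ ((c.2.2.1.1 : ℤ) - (c.2.2.1.2 : ℤ)) *
    (c.2.2.2.map fun r => Real.log (ratVal r : ℝ)).prod

/-- A term code `(c, theta, h₁, h₂, h₃)`: an empty list stands for the factor 1; the bumps
listed in the `hᵢ` are periodized. -/
abbrev Term := Coef × List TimeFactor × List Bump × List Bump × List Bump

/-- A product of periodized bumps. -/
noncomputable def spaceVal (l : List Bump) (y : ℝ) : ℝ :=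
  (l.map fun g => perVal (bumpVal g) y).prod

/-- The value `c * theta t * h₁ x₁ * h₂ x₂ * h₃ x₃` of a term. -/
noncomputable def termVal (nu : ℝ) (τ : Term) (t : ℝ) (x : V3) : ℝ :=
  coefVal nu τ.1 * (τ.2.1.map fun a => timeFactorVal a t).prod *
    spaceVal τ.2.2.1 (x 0) * spaceVal τ.2.2.2.1 (x 1) * spaceVal τ.2.2.2.2 (x 2)

/-- A term code is valid: valid bumps and positive `rᵢ`. -/
def Term.Valid (τ : Term) : Prop :=
  (∀ a ∈ τ.2.1, Bump.Valid a.2) ∧ (∀ g ∈ τ.2.2.1, Bump.Valid g) ∧
    (∀ g ∈ τ.2.2.2.1, Bump.Valid g) ∧ (∀ g ∈ τ.2.2.2.2, Bump.Valid g) ∧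
    ∀ r ∈ τ.1.2.2.2, 0 < ratVal r

/-- A term is periodic if its time factor is 1 or a product of periodizations only. -/
def Term.isPeriodic (τ : Term) : Bool := τ.2.1.all fun a => a.1

/-- An admissible force: one finite list of terms for each component. -/
abbrev Force := List Term × List Term × List Term

/-- The list of the `i`-th component. -/
def Force.component (F : Force) (i : Fin 3) : List Term := ![F.1, F.2.1, F.2.2] i

/-- The vector field that a force code denotes. -/
noncomputable def forceVal (nu : ℝ) (F : Force) (t : ℝ) (x : V3) : V3 :=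
  fun i => ((F.component i).map fun τ => termVal nu τ t x).sum

/-- Head moves. -/
inductive Move
  | left
  | right
  | stay

/-- The displacement of a move. -/
def Move.shift : Move → ℤ
  | .left => -1
  | .right => 1
  | .stay => 0

/-- The number of a move in the code of a machine. -/
def Move.toNat : Move → ℕ
  | .left => 0
  | .right => 1
  | .stay => 2

/-- A deterministic one-tape Turing machine with alphabet `Fin (symbols + 1)`, blank `0`,
and state set `Fin states`. -/
structure Machine where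
  symbols : ℕ
  states : ℕ
  start : Fin states
  halting : Fin states → Bool
  trans : Fin states → Fin (symbols + 1) → Fin states × Fin (symbols + 1) × Move

/-- A configuration: state, head position and two-sided tape. -/
structure Machine.Cfg (M : Machine) where
  state : Fin M.states
  pos : ℤ
  tape : ℤ → Fin (M.symbols + 1)

/-- One step (no change in a halting state). -/
def Machine.step (M : Machine) (c : M.Cfg) : M.Cfg :=
  if M.halting c.state then c
  else
    let r := M.trans c.state (c.tape c.pos)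
    { state := r.1
      pos := c.pos + r.2.2.shift
      tape := Function.update c.tape c.pos r.2.1 }

/-- The initial configuration: the word on an otherwise blank tape, head on its first cell. -/
def Machine.init (M : Machine) (w : List (Fin (M.symbols + 1))) : M.Cfg where
  state := M.start
  pos := 0
  tape := fun i => if 0 ≤ i then w.getD i.toNat 0 else 0

/-- `M` halts on `w` if it reaches a halting state after finitely many (possibly no) steps. -/
def Machine.Halts (M : Machine) (w : List (Fin (M.symbols + 1))) : Prop :=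
  ∃ n : ℕ, M.halting (M.step^[n] (M.init w)).state = true

/-- Codes of machines: symbols, states, start, halting flags, transition table (row by row). -/
abbrev MachineCode := ℕ × ℕ × ℕ × List Bool × List (List (ℕ × ℕ × ℕ))

/-- The code of a machine, given to the compiler. -/
def Machine.code (M : Machine) : MachineCode :=
  (M.symbols, M.states, M.start.val, List.ofFn M.halting,
    List.ofFn fun q => List.ofFn fun s =>
      ((M.trans q s).1.val, (M.trans q s).2.1.val, (M.trans q s).2.2.toNat))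

/-- `phi` is 1-periodic in each coordinate. -/
def Periodic3 {α : Type} (phi : V3 → α) : Prop :=
  ∀ (z : Fin 3 → ℤ) (x : V3), phi (fun i => x i + (z i : ℝ)) = phi x

/-- Classical solution of the forced Navier-Stokes equations on `[0,T] × T³` (functions on the
torus are periodic functions on `ℝ³`): `ut`, `du j`, `ddu j k`, `dp j` are the derivatives. -/
def IsClassicalSolution (nu : ℝ) (f : ℝ → V3 → V3) (T : ℝ) (u : ℝ → V3 → V3)
    (p : ℝ → V3 → ℝ) : Prop :=
  ∃ (ut : ℝ → V3 → V3) (du : Fin 3 → ℝ → V3 → V3) (ddu : Fin 3 → Fin 3 → ℝ → V3 → V3)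
    (dp : Fin 3 → ℝ → V3 → ℝ),
    (∀ t ∈ Set.Icc 0 T, Periodic3 (u t) ∧ Periodic3 (p t)) ∧
    ContinuousOn (fun z : ℝ × V3 => u z.1 z.2) (Set.Icc 0 T ×ˢ Set.univ) ∧
    ContinuousOn (fun z : ℝ × V3 => ut z.1 z.2) (Set.Icc 0 T ×ˢ Set.univ) ∧
    (∀ j, ContinuousOn (fun z : ℝ × V3 => du j z.1 z.2) (Set.Icc 0 T ×ˢ Set.univ)) ∧
    (∀ j k, ContinuousOn (fun z : ℝ × V3 => ddu j k z.1 z.2) (Set.Icc 0 T ×ˢ Set.univ)) ∧
    ContinuousOn (fun z : ℝ × V3 => p z.1 z.2) (Set.Icc 0 T ×ˢ Set.univ) ∧
    (∀ j, ContinuousOn (fun z : ℝ × V3 => dp j z.1 z.2) (Set.Icc 0 T ×ˢ Set.univ)) ∧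
    (∀ t ∈ Set.Icc 0 T, ∀ x,
      HasDerivWithinAt (fun s => u s x) (ut t x) (Set.Icc 0 T) t) ∧
    (∀ t ∈ Set.Icc 0 T, ∀ x j,
      HasDerivAt (fun s => u t (Function.update x j s)) (du j t x) (x j)) ∧
    (∀ t ∈ Set.Icc 0 T, ∀ x j k,
      HasDerivAt (fun s => du j t (Function.update x k s)) (ddu j k t x) (x k)) ∧
    (∀ t ∈ Set.Icc 0 T, ∀ x j,
      HasDerivAt (fun s => p t (Function.update x j s)) (dp j t x) (x j)) ∧
    (∀ t ∈ Set.Icc 0 T, ∀ x, ∑ j, du j t x j = 0) ∧
    (∀ t ∈ Set.Icc 0 T, ∀ x i,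
      ut t x i + ∑ j, u t x j * du j t x i =
        -dp i t x + nu * ∑ j, ddu j j t x i + f t x i) ∧
    ∀ t ∈ Set.Icc 0 T, ∫ x in Set.Icc (0 : V3) 1, p t x = 0

/-- A trajectory of `a`. -/
def IsTrajectory (u : ℝ → V3 → V3) (a : V3) (X : ℝ → V3) : Prop :=
  X 0 = a ∧ ∀ t : ℝ, 0 ≤ t → HasDerivWithinAt X (u t (X t)) (Set.Ici 0) t

/-- The point of the torus represented by `x` lies in the image of the open box `(lo, hi)`. -/
def InBox (lo hi : Fin 3 → ℚ) (x : V3) : Prop :=
  ∃ z : Fin 3 → ℤ, ∀ i, (lo i : ℝ) < x i + (z i : ℝ) ∧ x i + (z i : ℝ) < (hi i : ℝ)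

end Vale.Agent.P113
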