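import Vale.Agent.P113.Defs

/-!
Existence and uniqueness of trajectories of smooth periodic velocity fields.
-/

namespace Vale.Agent.P113

open Metric Set
open scoped NNReal

variable {u : ℝ → V3 → V3}

theorem lip_on_ball (hu : ContDiff ℝ 1 (fun z : ℝ × V3 => u z.1 z.2)) (a b : ℝ) (c : V3) (R : ℝ) :
    ∃ K : ℝ≥0, ∀ t ∈ Icc a b, LipschitzOnWith K (u t) (closedBall c R) := by
  obtain ⟨C, hC⟩ := ((isCompact_Icc (a := a) (b := b)).prod (isCompact_closedBall c R)).exists_bound_of_continuousOn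
    (hu.continuous_fderiv one_ne_zero).continuousOn
  refine ⟨C.toNNReal, fun t ht => ?_⟩
  have hconv : Convex ℝ (Icc a b ×ˢ closedBall c R) :=
    (convex_Icc a b).prod (convex_closedBall c R)
  have h := hconv.lipschitzOnWith_of_nnnorm_fderiv_le (C := C.toNNReal)
    (fun z _ => (hu.differentiable one_ne_zero) z)
    (fun z hz => by
      rw [← NNReal.coe_le_coe, coe_nnnorm]
      exact (hC z hz).trans (Real.le_coe_toNNReal C))
  intro x hx y hy
  have h' := h (x := (t, x)) ⟨ht, hx⟩ (y := (t, y)) ⟨ht, hy⟩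
  simpa [Prod.edist_eq] using h'

/-- Two solutions on a compact interval with equal initial values are equal there. -/
theorem trajectory_eqOn (hu : ContDiff ℝ 1 (fun z : ℝ × V3 => u z.1 z.2)) {a b : ℝ} {X Y : ℝ → V3}
    (hX : ∀ t ∈ Icc a b, HasDerivWithinAt X (u t (X t)) (Icc a b) t)
    (hY : ∀ t ∈ Icc a b, HasDerivWithinAt Y (u t (Y t)) (Icc a b) t)
    (h : X a = Y a) : EqOn X Y (Icc a b) := by
  have hXc : ContinuousOn X (Icc a b) := fun t ht => (hX t ht).continuousWithinAt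
  have hYc : ContinuousOn Y (Icc a b) := fun t ht => (hY t ht).continuousWithinAt
  obtain ⟨R, hR⟩ := (((isCompact_Icc (a := a) (b := b)).image_of_continuousOn hXc).union
    (isCompact_Icc.image_of_continuousOn hYc)).isBounded.subset_closedBall (0 : V3)
  obtain ⟨K, hK⟩ := lip_on_ball hu a b 0 R
  have key : ∀ Z : ℝ → V3, (∀ t ∈ Icc a b, HasDerivWithinAt Z (u t (Z t)) (Icc a b) t) →
      ∀ t ∈ Ico a b, HasDerivWithinAt Z (u t (Z t)) (Ici t) t := fun Z hZ t ht =>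
    (hZ t (Ico_subset_Icc_self ht)).mono_of_mem_nhdsWithin (Icc_mem_nhdsGE_of_mem ht)
  exact ODE_solution_unique_of_mem_Icc_right (s := fun _ => closedBall (0 : V3) R)
    (fun t ht => hK t (Ico_subset_Icc_self ht)) hXc (key X hX)
    (fun t ht => hR (Or.inl ⟨t, Ico_subset_Icc_self ht, rfl⟩)) hYc (key Y hY)
    (fun t ht => hR (Or.inr ⟨t, Ico_subset_Icc_self ht, rfl⟩)) h

theorem norm_bound (hu : Continuous (fun z : ℝ × V3 => u z.1 z.2))
    (hper : ∀ t, Periodic3 (u t)) (a b : ℝ) :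
    ∃ L : ℝ≥0, ∀ t ∈ Icc a b, ∀ x, ‖u t x‖ ≤ L := by
  obtain ⟨C, hC⟩ := ((isCompact_Icc (a := a) (b := b)).prod (isCompact_Icc (a := (0 : V3)) (b := 1))).exists_bound_of_continuousOn
    hu.continuousOn
  refine ⟨C.toNNReal, fun t ht x => ?_⟩
  have hx : (fun i => Int.fract (x i)) ∈ Icc (0 : V3) 1 :=
    ⟨fun i => Int.fract_nonneg _, fun i => (Int.fract_lt_one _).le⟩
  have e : u t x = u t (fun i => Int.fract (x i)) := by
    conv_lhs => rw [← hper t (fun i => -⌊x i⌋) x]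
    congr 1
    funext i
    push_cast
    rw [Int.fract]
    ring
  rw [e]
  exact (hC (t, _) ⟨ht, hx⟩).trans (Real.le_coe_toNNReal C)

theorem exists_trajectory (hu : ContDiff ℝ 1 (fun z : ℝ × V3 => u z.1 z.2))
    (hper : ∀ t, Periodic3 (u t)) (x₀ : V3) : ∃ X, IsTrajectory u x₀ X := by
  have loc : ∀ n : ℕ, ∃ X : ℝ → V3, X 0 = x₀ ∧
      ∀ t ∈ Icc (0 : ℝ) n, HasDerivWithinAt X (u t (X t)) (Icc (0 : ℝ) n) t := by
    intro n
    obtain ⟨L, hL⟩ := norm_bound hu.continuous hper 0 n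
    obtain ⟨K, hK⟩ := lip_on_ball hu 0 n x₀ ((L * (n : ℝ≥0) : ℝ≥0) : ℝ)
    have h : IsPicardLindelof u (tmin := 0) (tmax := (n : ℝ)) ⟨0, left_mem_Icc.2 n.cast_nonneg⟩
        x₀ (L * (n : ℝ≥0)) 0 L K :=
      { lipschitzOnWith := hK
        continuousOn := fun x _ =>
          (hu.continuous.comp (continuous_id.prodMk continuous_const)).continuousOn
        norm_le := fun t ht x _ => hL t ht x
        mul_max_le := by simp }
    exact h.exists_eq_forall_mem_Icc_hasDerivWithinAt₀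
  choose Z hZ0 hZ using loc
  have agree : ∀ m n : ℕ, m ≤ n → EqOn (Z m) (Z n) (Icc 0 (m : ℝ)) := by
    intro m n hmn
    have hs : Icc (0 : ℝ) m ⊆ Icc 0 n := Icc_subset_Icc_right (Nat.cast_le.2 hmn)
    exact trajectory_eqOn hu (hZ m) (fun t ht => (hZ n t (hs ht)).mono hs) (by rw [hZ0, hZ0])
  let X : ℝ → V3 := fun t => Z (⌈t⌉₊ + 1) t
  have hX : ∀ (N : ℕ) (t : ℝ), 0 ≤ t → t ≤ N → X t = Z N t := by
    intro N t h0 hN
    rcases le_total (⌈t⌉₊ + 1) N with h | h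
    · refine agree _ _ h ⟨h0, ?_⟩
      push_cast
      linarith [Nat.le_ceil t]
    · exact (agree _ _ h ⟨h0, hN⟩).symm
  refine ⟨X, hZ0 _, fun t ht => ?_⟩
  obtain ⟨N, hN⟩ := exists_nat_gt t
  have h1 := hZ N t ⟨ht, hN.le⟩
  rw [← hX N t ht hN.le] at h1
  have h2 : HasDerivWithinAt (Z N) (u t (X t)) (Ici 0) t :=
    h1.mono_of_mem_nhdsWithin (by
      rw [← Ici_inter_Iic]
      exact Filter.inter_mem self_mem_nhdsWithin (nhdsWithin_le_nhds (Iic_mem_nhds hN)))
  refine h2.congr_of_eventuallyEq ?_ (hX N t ht hN.le)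
  filter_upwards [self_mem_nhdsWithin, nhdsWithin_le_nhds (Iic_mem_nhds hN)] with s hs hs'
  exact hX N s hs hs'

/-- A trajectory coincides with any explicit solution on a later interval. -/
theorem IsTrajectory.eqOn (hu : ContDiff ℝ 1 (fun z : ℝ × V3 => u z.1 z.2)) {x₀ : V3}
    {X Y : ℝ → V3} (hX : IsTrajectory u x₀ X) {a b : ℝ} (ha : 0 ≤ a)
    (hY : ∀ t ∈ Icc a b, HasDerivWithinAt Y (u t (Y t)) (Icc a b) t)
    (h : X a = Y a) : EqOn X Y (Icc a b) :=
  trajectory_eqOn hu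
    (fun t ht => (hX.2 t (ha.trans ht.1)).mono fun _ hs => ha.trans hs.1) hY h

end Vale.Agent.P113
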