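import Vale.Agent.P113.Profile
import Vale.Agent.P113.Trajectory

/-!
The velocity field realises the step relation of the pieces.
-/

namespace Vale.Agent.P113

set_option linter.unusedSimpArgs false

open Finset

/-- The default piece used by the compiler for out of range indices. -/
def pieceAt (l : List Piece) (i : ℕ) : Piece := l.getD i ((0, 0), (0, 0), (0, 0), (0, 0))

/-- The nine normalised stage fields of one piece with slot `S`. -/
noncomputable def pieceField (S : Cell) (P : Piece) (k : ℕ) (x : V3) : V3 :=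
  if k = 0 then ![0, 0, linFun P.1 S (x 0) * boxFun P.2.1 0 (x 1)]
  else if k = 1 then ![linFun S S (x 2) - linFun S P.1 (x 2), 0, 0]
  else if k = 2 then ![0, 0, -linFun S S (x 0)]
  else if k = 3 then ![0, 0, boxFun S 0 (x 0) * linFun P.2.1 S (x 1)]
  else if k = 4 then ![0, linFun S P.2.2.2 (x 2) - linFun S P.2.1 (x 2), 0]
  else if k = 5 then ![0, 0, -(boxFun S 0 (x 0) * linFun P.2.2.2 S (x 1))]
  else if k = 6 then ![0, 0, linFun S S (x 0)]
  else if k = 7 then ![linFun S P.2.2.1 (x 2) - linFun S S (x 2), 0, 0]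
  else ![0, 0, -(linFun P.2.2.1 S (x 0) * boxFun P.2.2.2 0 (x 1))]

/-- The stage fields of all pieces. -/
noncomputable def stageField (l : List Piece) (k : ℕ) (x : V3) : V3 :=
  ∑ i ∈ range l.length, pieceField (slot l.length i) (pieceAt l i) k x

/-- The value of a list of terms. -/
noncomputable def listVal (nu : ℝ) (L : List Term) (t : ℝ) (x : V3) : ℝ :=
  (L.map fun τ => termVal nu τ t x).sum

theorem listVal_append (nu : ℝ) (L L' : List Term) (t : ℝ) (x : V3) :
    listVal nu (L ++ L') t x = listVal nu L t x + listVal nu L' t x := by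
  simp [listVal]

theorem list_sum_map_flatMap {α β : Type} (f : α → List β) (g : β → ℝ) (L : List α) :
    ((L.flatMap f).map g).sum = (L.map fun a => ((f a).map g).sum).sum := by
  induction L with
  | nil => simp
  | cons a L ih => simp [List.flatMap_cons, ih]

theorem list_sum_range (f : ℕ → ℝ) (n : ℕ) :
    ((List.range n).map f).sum = ∑ i ∈ range n, f i := by
  induction n with
  | zero => simp
  | succ n ih => simp [List.range_succ, sum_range_succ, ih]

theorem listVal_allPieces (nu : ℝ) (f : Cell → Piece → List Term) (l : List Piece) (t : ℝ) (x : V3) :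
    listVal nu (allPieces f l) t x =
      ∑ i ∈ range l.length, listVal nu (f (slot l.length i) (pieceAt l i)) t x := by
  simp only [listVal, allPieces]
  rw [list_sum_map_flatMap, list_sum_range]
  rfl

/-- Product of normalised periodized bumps. -/
noncomputable def spaceN (hs : List Bump) (y : ℝ) : ℝ :=
  (hs.map fun g => perVal (bumpVal g) y / kappa).prod

theorem spaceN_eq (hs : List Bump) (y : ℝ) : spaceN hs y = spaceVal hs y / kappa ^ hs.length := by
  induction hs with
  | nil => simp [spaceN, spaceVal]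
  | cons g hs ih =>
    simp only [spaceN, spaceVal, List.map_cons, List.prod_cons, List.length_cons] at ih ⊢
    rw [ih, pow_succ]
    ring

theorem termVal_normTerm (nu : ℝ) (per : Bool) (a b : ℕ) (q : RatCode) (h : Space) (t : ℝ)
    (x : V3) :
    termVal nu (normTerm per a b q h) t x = timeW per a b t * (ratVal q : ℝ) *
      spaceN h.1 (x 0) * spaceN h.2.1 (x 1) * spaceN h.2.2 (x 2) := by
  obtain ⟨p, n, d⟩ := q
  obtain ⟨h1, h2, h3⟩ := h
  have e : kappa ^ (((0 : ℕ) : ℤ) - ((1 + h1.length + h2.length + h3.length : ℕ) : ℤ)) =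
      (kappa * kappa ^ h1.length * kappa ^ h2.length * kappa ^ h3.length)⁻¹ := by
    rw [Nat.cast_zero, zero_sub, zpow_neg, zpow_natCast, pow_add, pow_add, pow_add, pow_one]
  simp only [termVal, normTerm, coefVal, timeW, List.map_nil, List.prod_nil, List.map_cons,
    spaceN_eq, ratVal_cast, pow_zero, mul_one]
  rw [e]
  push_cast
  simp only [mul_inv, div_eq_mul_inv, List.prod_cons, List.prod_nil, mul_one]
  ring

theorem listVal_stage (nu : ℝ) (k : ℕ) (l : List (RatCode × Bump)) (emb : Bump → Space)
    (t : ℝ) (x : V3) (y K : ℝ)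
    (h : ∀ g, spaceN (emb g).1 (x 0) * spaceN (emb g).2.1 (x 1) * spaceN (emb g).2.2 (x 2) =
      perVal (bumpVal g) y / kappa * K) :
    listVal nu (stageTerms k l emb) t x = timeW true 40 (stageB k) t * (monSum l y * K) := by
  induction l with
  | nil => simp [listVal, stageTerms, monSum]
  | cons e l ih =>
    simp only [listVal, stageTerms, monSum, List.map_cons, List.sum_cons] at ih ⊢
    rw [ih, termVal_normTerm]
    linear_combination (timeW true 40 (stageB k) t * (ratVal e.1 : ℝ)) * h e.2

theorem listVal_pieceX (nu : ℝ) (S : Cell) (P : Piece) (t : ℝ) (x : V3) :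
    listVal nu (pieceX S P) t x =
      timeW true 40 (stageB 1) t * (linFun S S (x 2) - linFun S P.1 (x 2)) +
      timeW true 40 (stageB 7) t * (linFun S P.2.2.1 (x 2) - linFun S S (x 2)) := by
  have hz : ∀ g, spaceN (embZ g).1 (x 0) * spaceN (embZ g).2.1 (x 1) * spaceN (embZ g).2.2 (x 2) =
      perVal (bumpVal g) (x 2) / kappa * 1 := fun g => by simp [spaceN, embZ]
  rw [pieceX, listVal_append, listVal_stage nu 1 _ _ t x _ _ hz,
    listVal_stage nu 7 _ _ t x _ _ hz, monSum_append, monSum_append, monSum_negMons,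
    monSum_negMons]
  simp only [linFun]
  ring

theorem listVal_pieceY (nu : ℝ) (S : Cell) (P : Piece) (t : ℝ) (x : V3) :
    listVal nu (pieceY S P) t x =
      timeW true 40 (stageB 4) t * (linFun S P.2.2.2 (x 2) - linFun S P.2.1 (x 2)) := by
  have hz : ∀ g, spaceN (embZ g).1 (x 0) * spaceN (embZ g).2.1 (x 1) * spaceN (embZ g).2.2 (x 2) =
      perVal (bumpVal g) (x 2) / kappa * 1 := fun g => by simp [spaceN, embZ]
  rw [pieceY, listVal_stage nu 4 _ _ t x _ _ hz, monSum_append, monSum_negMons]
  simp only [linFun]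
  ring

theorem listVal_pieceZ (nu : ℝ) (S : Cell) (P : Piece) (t : ℝ) (x : V3) :
    listVal nu (pieceZ S P) t x =
      timeW true 40 (stageB 0) t * (linFun P.1 S (x 0) * boxFun P.2.1 0 (x 1)) +
      timeW true 40 (stageB 2) t * -linFun S S (x 0) +
      timeW true 40 (stageB 3) t * (boxFun S 0 (x 0) * linFun P.2.1 S (x 1)) +
      timeW true 40 (stageB 5) t * -(boxFun S 0 (x 0) * linFun P.2.2.2 S (x 1)) +
      timeW true 40 (stageB 6) t * linFun S S (x 0) +
      timeW true 40 (stageB 8) t * -(linFun P.2.2.1 S (x 0) * boxFun P.2.2.2 0 (x 1)) := by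
  have hx : ∀ g, spaceN (embX g).1 (x 0) * spaceN (embX g).2.1 (x 1) * spaceN (embX g).2.2 (x 2) =
      perVal (bumpVal g) (x 0) / kappa * 1 := fun g => by simp [spaceN, embX]
  have hxb : ∀ c g, spaceN (embXbox c g).1 (x 0) * spaceN (embXbox c g).2.1 (x 1) *
      spaceN (embXbox c g).2.2 (x 2) = perVal (bumpVal g) (x 0) / kappa * boxFun c 0 (x 1) :=
    fun c g => by simp [spaceN, embXbox, boxFun]
  have hby : ∀ c g, spaceN (embBoxY c g).1 (x 0) * spaceN (embBoxY c g).2.1 (x 1) *
      spaceN (embBoxY c g).2.2 (x 2) = perVal (bumpVal g) (x 1) / kappa * boxFun c 0 (x 0) :=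
    fun c g => by simp [spaceN, embBoxY, boxFun]; ring
  rw [pieceZ, listVal_append, listVal_append, listVal_append, listVal_append, listVal_append,
    listVal_stage nu 0 _ _ t x _ _ (hxb _), listVal_stage nu 2 _ _ t x _ _ hx,
    listVal_stage nu 3 _ _ t x _ _ (hby _), listVal_stage nu 5 _ _ t x _ _ (hby _),
    listVal_stage nu 6 _ _ t x _ _ hx, listVal_stage nu 8 _ _ t x _ _ (hxb _),
    monSum_negMons, monSum_negMons, monSum_negMons]
  simp only [linFun]
  ring

/-- The loading displacement as a vector. -/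
noncomputable def loadVec (a : (ℕ × ℕ) × (ℕ × ℕ)) : ℕ → V3
  | 0 => ![(ratVal (fracQ a.1.1 a.1.2) : ℝ), 0, 0]
  | _ => ![0, (ratVal (fracQ a.2.1 a.2.2) : ℝ), 0]

theorem forceVal_velocity (nu : ℝ) (l : List Piece) (a : (ℕ × ℕ) × (ℕ × ℕ)) (t : ℝ) (x : V3) :
    forceVal nu (velocity (l, a)) t x =
      timeW false 16 2 t • loadVec a 0 + timeW false 16 4 t • loadVec a 1 +
        ∑ k ∈ range 9, timeW true 40 (stageB k) t • stageField l k x := by
  funext i
  simp only [Pi.add_apply, Pi.smul_apply, Finset.sum_apply, smul_eq_mul]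
  fin_cases i
  · change listVal nu (normTerm false 16 2 (fracQ a.1.1 a.1.2) ([], [], []) ::
      allPieces pieceX l) t x = _
    simp only [listVal, List.map_cons, List.sum_cons, termVal_normTerm]
    change _ + listVal nu (allPieces pieceX l) t x = _
    rw [listVal_allPieces]
    simp [listVal_pieceX, sum_add_distrib, stageField, pieceField, sum_range_succ, loadVec, spaceN,
      mul_sum, Finset.sum_apply]
  · change listVal nu (normTerm false 16 4 (fracQ a.2.1 a.2.2) ([], [], []) ::
      allPieces pieceY l) t x = _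
    simp only [listVal, List.map_cons, List.sum_cons, termVal_normTerm]
    change _ + listVal nu (allPieces pieceY l) t x = _
    rw [listVal_allPieces]
    simp [listVal_pieceY, stageField, pieceField, sum_range_succ, loadVec, spaceN,
      mul_sum, Finset.sum_apply]
  · change listVal nu (allPieces pieceZ l) t x = _
    rw [listVal_allPieces]
    simp only [listVal_pieceZ, sum_add_distrib]
    simp [stageField, pieceField, sum_range_succ, loadVec, mul_sum, Finset.sum_apply]

/-- Corner points of the motion in one step of the piece `P` with slot `S`. -/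
noncomputable def corner (S : Cell) (P : Piece) (u v : ℝ) : ℕ → V3
  | 0 => ![P.1.pt u, P.2.1.pt v, 0]
  | 1 => ![P.1.pt u, P.2.1.pt v, S.pt u]
  | 2 => ![S.pt u, P.2.1.pt v, S.pt u]
  | 3 => ![S.pt u, P.2.1.pt v, 0]
  | 4 => ![S.pt u, P.2.1.pt v, S.pt v]
  | 5 => ![S.pt u, P.2.2.2.pt v, S.pt v]
  | 6 => ![S.pt u, P.2.2.2.pt v, 0]
  | 7 => ![S.pt u, P.2.2.2.pt v, S.pt u]
  | 8 => ![P.2.2.1.pt u, P.2.2.2.pt v, S.pt u]
  | _ => ![P.2.2.1.pt u, P.2.2.2.pt v, 0]

theorem pairwise_getD {α : Type} {R : α → α → Prop} {l : List α} (d : α) (hp : l.Pairwise R)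
    {i j : ℕ} (hi : i < l.length) (hj : j < l.length) (hne : i ≠ j) :
    R (l.getD i d) (l.getD j d) ∨ R (l.getD j d) (l.getD i d) := by
  rw [List.getD_eq_getElem _ _ hi, List.getD_eq_getElem _ _ hj]
  rcases lt_or_gt_of_ne hne with h | h
  · exact Or.inl (List.pairwise_iff_getElem.1 hp i j hi hj h)
  · exact Or.inr (List.pairwise_iff_getElem.1 hp j i hj hi h)

/-- Hypotheses on a list of pieces. -/
structure GoodPieces (l : List Piece) : Prop where
  good : ∀ P ∈ l, P.Good
  src : l.Pairwise Piece.SrcSep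
  dst : l.Pairwise Piece.DstSep

theorem GoodPieces.at {l : List Piece} (h : GoodPieces l) {i : ℕ} (hi : i < l.length) :
    (pieceAt l i).Good := h.good _ (by rw [pieceAt, List.getD_eq_getElem _ _ hi]; exact List.getElem_mem hi)

theorem GoodPieces.src_avoid {l : List Piece} (h : GoodPieces l) {i j : ℕ} (hi : i < l.length)
    (hj : j < l.length) (hne : j ≠ i) :
    (pieceAt l j).1.Avoid (pieceAt l i).1 ∨ (pieceAt l j).2.1.Avoid (pieceAt l i).2.1 := by
  rcases pairwise_getD _ h.src hj hi hne with h' | h'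
  · exact h'.imp And.left And.left
  · exact h'.imp And.right And.right

theorem GoodPieces.dst_avoid {l : List Piece} (h : GoodPieces l) {i j : ℕ} (hi : i < l.length)
    (hj : j < l.length) (hne : j ≠ i) :
    (pieceAt l j).2.2.1.Avoid (pieceAt l i).2.2.1 ∨
      (pieceAt l j).2.2.2.Avoid (pieceAt l i).2.2.2 := by
  rcases pairwise_getD _ h.dst hj hi hne with h' | h'
  · exact h'.imp And.left And.left
  · exact h'.imp And.right And.right

theorem vec3_smul (s a b c : ℝ) : s • (![a, b, c] : V3) = ![s * a, s * b, s * c] := by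
  funext i; fin_cases i <;> simp

theorem vec3_sub (a b c a' b' c' : ℝ) :
    (![a, b, c] : V3) - ![a', b', c'] = ![a - a', b - b', c - c'] := by
  funext i; fin_cases i <;> simp

theorem vec3_add (a b c a' b' c' : ℝ) :
    (![a, b, c] : V3) + ![a', b', c'] = ![a + a', b + b', c + c'] := by
  funext i; fin_cases i <;> simp

theorem stage_moves (hb : ProfileFacts) {l : List Piece} (hl : GoodPieces l) {i : ℕ}
    (hi : i < l.length) {u v : ℝ} (hu : 0 ≤ u) (hu' : u ≤ 1) (hv : 0 ≤ v) (hv' : v ≤ 1)
    (k : ℕ) (hk : k < 9) (s : ℝ) :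
    let Q := corner (slot l.length i) (pieceAt l i) u v
    stageField l k (Q k + s • (Q (k + 1) - Q k)) = Q (k + 1) - Q k := by
  intro Q
  have hi' : i ∈ range l.length := mem_range.2 hi
  have gS := slot_good hi
  obtain ⟨gX, gY, gX', gY'⟩ := hl.at hi
  rw [stageField, sum_eq_single_of_mem i hi']
  · interval_cases k <;>
      simp [Q, corner, pieceField, vec3_smul, vec3_sub, vec3_add, linFun_in hb, boxFun_in hb,
        hu, hu', hv, hv', gS, gX, gY, gX', gY']
  · intro j hj hne
    have hj' := mem_range.1 hj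
    have gSj := slot_good hj'
    obtain ⟨gXj, gYj, gXj', gYj'⟩ := hl.at hj'
    have hS := slot_avoid (m := l.length) hne
    have eS : ∀ (c : Cell) (w : ℝ), 0 ≤ w → w ≤ 1 →
        linFun (slot l.length j) c ((slot l.length i).pt w) = 0 :=
      fun c w hw hw' => linFun_out hb gSj gS hS hw hw'
    have eB : boxFun (slot l.length j) 0 ((slot l.length i).pt u) = 0 :=
      boxFun_out hb gSj gS hS 0 hu hu'
    interval_cases k
    · rcases hl.src_avoid hi hj' hne with h | h
      · simp [Q, corner, pieceField, vec3_smul, vec3_sub, vec3_add, linFun_out hb gXj gX h hu hu']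
      · simp [Q, corner, pieceField, vec3_smul, vec3_sub, vec3_add, boxFun_out hb gYj gY h 0 hv hv']
    iterate 7 simp [Q, corner, pieceField, vec3_smul, vec3_sub, vec3_add, eS, eB, hu, hu', hv, hv']
    · rcases hl.dst_avoid hi hj' hne with h | h
      · simp [Q, corner, pieceField, vec3_smul, vec3_sub, vec3_add,
          linFun_out hb gXj' gX' h hu hu']
      · simp [Q, corner, pieceField, vec3_smul, vec3_sub, vec3_add,
          boxFun_out hb gYj' gY' h 0 hv hv']

end Vale.Agent.P113
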