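import Vale.Agent.P113.Defs

/-!
Interface between the machine side and the flow side.
-/

namespace Vale.Agent.P113

/-- A cell `(n, d)` is the interval `[n/d, (n+1)/d]`. -/
abbrev Cell := ℕ × ℕ

/-- Position with relative parameter `v` in a cell. -/
noncomputable def Cell.pt (c : Cell) (v : ℝ) : ℝ := ((c.1 : ℝ) + v) / (c.2 : ℝ)

/-- The closed cell. -/
def Cell.Mem (c : Cell) (x : ℝ) : Prop := ∃ v : ℝ, 0 ≤ v ∧ v ≤ 1 ∧ x = c.pt v

/-- A cell inside `[0, 4/5]` of length at most `1/3`. -/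
def Cell.Good (c : Cell) : Prop := 3 ≤ c.2 ∧ 5 * (c.1 + 1) ≤ 4 * c.2

/-- The second cell lies strictly outside the first one padded by a quarter of its length. -/
def Cell.Avoid (c c' : Cell) : Prop :=
  (4 * c.1 + 5) * c'.2 < 4 * c'.1 * c.2 ∨ 4 * (c'.1 + 1) * c.2 + c'.2 < 4 * c.1 * c'.2

/-- Mutual separation. -/
def Cell.Sep (c c' : Cell) : Prop := c.Avoid c' ∧ c'.Avoid c

/-- A piece: source x-cell, source y-cell, target x-cell, target y-cell; it maps the source
rectangle onto the target rectangle by the increasing affine map in each coordinate. -/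
abbrev Piece := Cell × Cell × Cell × Cell

/-- The source rectangles of two pieces are separated. -/
def Piece.SrcSep (P Q : Piece) : Prop := P.1.Sep Q.1 ∨ P.2.1.Sep Q.2.1

/-- The target rectangles of two pieces are separated. -/
def Piece.DstSep (P Q : Piece) : Prop := P.2.2.1.Sep Q.2.2.1 ∨ P.2.2.2.Sep Q.2.2.2

/-- All four cells are good. -/
def Piece.Good (P : Piece) : Prop :=
  P.1.Good ∧ P.2.1.Good ∧ P.2.2.1.Good ∧ P.2.2.2.Good

/-- The piecewise affine step relation of a list of pieces. -/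
def PieceStep (l : List Piece) (p p' : ℝ × ℝ) : Prop :=
  ∃ P ∈ l, ∃ u v : ℝ, 0 ≤ u ∧ u ≤ 1 ∧ 0 ≤ v ∧ v ≤ 1 ∧
    p = (P.1.pt u, P.2.1.pt v) ∧ p' = (P.2.2.1.pt u, P.2.2.2.pt v)

/-- Initial data: two fractions `(n, d)` with `d > 0`. -/
noncomputable def fracPoint (a : (ℕ × ℕ) × (ℕ × ℕ)) : ℝ × ℝ :=
  ((a.1.1 : ℝ) / (a.1.2 : ℝ), (a.2.1 : ℝ) / (a.2.2 : ℝ))

/-- What the machine side delivers. -/
structure MachineSide where
  pieces : MachineCode → List Piece
  start : MachineCode × List ℕ → (ℕ × ℕ) × (ℕ × ℕ)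
  pieces_computable : Computable pieces
  start_computable : Computable start
  good : ∀ M : Machine, ∀ P ∈ pieces M.code, P.Good
  src_sep : ∀ M : Machine, (pieces M.code).Pairwise Piece.SrcSep
  dst_sep : ∀ M : Machine, (pieces M.code).Pairwise Piece.DstSep
  start_den : ∀ a, 0 < (start a).1.2 ∧ 0 < (start a).2.2
  halts : ∀ (M : Machine) (w : List (Fin (M.symbols + 1))), M.Halts w →
    ∃ (n : ℕ) (p : ℕ → ℝ × ℝ), p 0 = fracPoint (start (M.code, w.map Fin.val)) ∧
      (∀ k < n, PieceStep (pieces M.code) (p k) (p (k + 1))) ∧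
      3 / 5 ≤ (p n).1 ∧ (p n).1 ≤ 4 / 5
  nonhalts : ∀ (M : Machine) (w : List (Fin (M.symbols + 1))), ¬ M.Halts w →
    ∃ p : ℕ → ℝ × ℝ, p 0 = fracPoint (start (M.code, w.map Fin.val)) ∧
      ∀ k, PieceStep (pieces M.code) (p k) (p (k + 1)) ∧ 0 ≤ (p k).1 ∧ (p k).1 ≤ 2 / 5

end Vale.Agent.P113
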