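import Vale.Agent.P113.MachinePieces

/-!
# Separation and position of the cells
-/

namespace Vale.Agent.P113

/-- `c'` lies above `c` with a gap of at least each of the two lengths. -/
def Cell.Below (c c' : Cell) : Prop :=
  (c.1 + 2) * c'.2 ≤ c'.1 * c.2 ∧ (c.1 + 1) * c'.2 + c.2 ≤ c'.1 * c.2

theorem Cell.Below.sep {c c' : Cell} (hd : 0 < c.2) (hd' : 0 < c'.2) (h : c.Below c') :
    c.Sep c' := by
  obtain ⟨h1, h2⟩ := h
  refine ⟨Or.inl ?_, Or.inr ?_⟩ <;> nlinarith

theorem Cell.Below.sep' {c c' : Cell} (hd : 0 < c.2) (hd' : 0 < c'.2) (h : c.Below c') :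
    c'.Sep c := ⟨(h.sep hd hd').2, (h.sep hd hd').1⟩

theorem wnum_lt {B : ℕ} : ∀ {w : List ℕ}, (∀ a ∈ w, 2 * a + 2 ≤ B) → wnum B w + 1 ≤ B ^ w.length
  | [], _ => by simp [wnum]
  | a :: w, h => by
    have ha : 2 * a + 2 ≤ B := h a (by simp)
    have hw := wnum_lt (w := w) fun b hb => h b (by simp [hb])
    have := Nat.mul_le_mul_right (B ^ w.length) ha
    rw [wnum, List.length_cons, pow_succ]
    nlinarith

theorem wcell_cons (D B c a : ℕ) (w : List ℕ) :
    wcell D B c (a :: w) = wcell (D * B) B (c * B + (2 * a + 1)) w := by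
  simp only [wcell, wnum, List.length_cons, pow_succ, Prod.mk.injEq]
  constructor <;> ring

theorem wcell_den_pos {D B : ℕ} (hD : 0 < D) (hB : 0 < B) (c : ℕ) (w : List ℕ) :
    0 < (wcell D B c w).2 := Nat.mul_pos hD (pow_pos hB _)

theorem wcell_below {D B c c' : ℕ} (hB : 0 < B) {u v : List ℕ} (hu : ∀ a ∈ u, 2 * a + 2 ≤ B)
    (h : c + 2 ≤ c') : (wcell D B c u).Below (wcell D B c' v) := by
  have h1 := wnum_lt hu
  have hP : 1 ≤ B ^ u.length := Nat.one_le_pow _ _ hB
  have hQ : 1 ≤ B ^ v.length := Nat.one_le_pow _ _ hB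
  simp only [Cell.Below, wcell]
  generalize B ^ u.length = P at *
  generalize B ^ v.length = Q at *
  generalize wnum B u = U at *
  generalize wnum B v = V at *
  have key : (c + 2) * P * (D * Q) ≤ (c' * Q + V) * (D * P) := by
    calc (c + 2) * P * (D * Q) ≤ c' * P * (D * Q) := by gcongr
      _ = c' * Q * (D * P) := by ring
      _ ≤ (c' * Q + V) * (D * P) := by gcongr; omega
  constructor
  · calc (c * P + U + 2) * (D * Q) ≤ (c + 2) * P * (D * Q) := by gcongr; nlinarith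
      _ ≤ _ := key
  · calc (c * P + U + 1) * (D * Q) + D * P ≤ (c + 1) * P * (D * Q) + D * P * Q :=
          Nat.add_le_add (by gcongr; nlinarith) (Nat.le_mul_of_pos_right _ hQ)
      _ = (c + 2) * P * (D * Q) := by ring
      _ ≤ _ := key

theorem wcell_sep_block {D B c c' : ℕ} (hD : 0 < D) (hB : 0 < B) {u v : List ℕ}
    (hu : ∀ a ∈ u, 2 * a + 2 ≤ B) (hv : ∀ a ∈ v, 2 * a + 2 ≤ B)
    (h : c + 2 ≤ c' ∨ c' + 2 ≤ c) : (wcell D B c u).Sep (wcell D B c' v) := by
  rcases h with h | h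
  · exact (wcell_below hB hu h).sep (wcell_den_pos hD hB _ _) (wcell_den_pos hD hB _ _)
  · exact (wcell_below hB hv h).sep' (wcell_den_pos hD hB _ _) (wcell_den_pos hD hB _ _)

theorem wcell_sep_incomp {B : ℕ} (hB : 0 < B) : ∀ (i : ℕ) {D c : ℕ}, 0 < D → ∀ {u v : List ℕ},
    (∀ a ∈ u, 2 * a + 2 ≤ B) → (∀ a ∈ v, 2 * a + 2 ≤ B) →
    (∃ a b, u[i]? = some a ∧ v[i]? = some b ∧ a ≠ b) →
    (wcell D B c u).Sep (wcell D B c v) := by
  intro i
  induction i with
  | zero =>
    intro D c hD u v hu hv h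
    obtain ⟨a, b, ha, hb, hne⟩ := h
    rcases u with _ | ⟨a', u⟩ <;> rcases v with _ | ⟨b', v⟩ <;> simp at ha hb
    subst ha hb
    rw [wcell_cons, wcell_cons]
    exact wcell_sep_block (Nat.mul_pos hD hB) hB (fun x hx => hu x (by simp [hx]))
      (fun x hx => hv x (by simp [hx])) (by omega)
  | succ i ih =>
    intro D c hD u v hu hv h
    obtain ⟨a, b, ha, hb, hne⟩ := h
    rcases u with _ | ⟨a', u⟩ <;> rcases v with _ | ⟨b', v⟩ <;> simp at ha hb
    rw [wcell_cons, wcell_cons]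
    by_cases he : a' = b'
    · subst he
      exact ih (Nat.mul_pos hD hB) (fun x hx => hu x (by simp [hx]))
        (fun x hx => hv x (by simp [hx])) ⟨a, b, ha, hb, hne⟩
    · exact wcell_sep_block (Nat.mul_pos hD hB) hB (fun x hx => hu x (by simp [hx]))
        (fun x hx => hv x (by simp [hx])) (by omega)

namespace Raw

variable (M : Raw)

theorem nE_pos : 0 < M.nE := by
  have := M.nQ_pos
  unfold nE; omega

theorem nK_pos : 0 < M.nK := Nat.lt_of_lt_of_le M.nA_pos M.nA_le_nK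

theorem nB_pos : 0 < M.nB := Nat.succ_pos _

theorem digit_le {w : List ℕ} (h : ∀ a ∈ w, a < M.nK) : ∀ a ∈ w, 2 * a + 2 ≤ M.nB := fun a ha => by
  have := h a ha
  unfold nB; omega

theorem ycell_good {w : List ℕ} (h : ∀ a ∈ w, a < M.nK) : (M.ycell w).Good := by
  have h1 := wnum_lt (M.digit_le h)
  have h2 : 1 ≤ M.nB ^ w.length := Nat.one_le_pow _ _ M.nB_pos
  simp only [ycell, wcell, Cell.Good]
  omega

theorem xcell_good {c : ℕ} {w : List ℕ} (hc : c ≤ 3 * M.nE) (h : ∀ a ∈ w, a < M.nK) :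
    (M.xcell c w).Good := by
  have h1 := wnum_lt (M.digit_le h)
  have h2 : 1 ≤ M.nB ^ w.length := Nat.one_le_pow _ _ M.nB_pos
  have hE := M.nE_pos
  have h3 : c * M.nB ^ w.length ≤ 3 * M.nE * M.nB ^ w.length := Nat.mul_le_mul_right _ hc
  have h4 : 1 * M.nB ^ w.length ≤ M.nE * M.nB ^ w.length := Nat.mul_le_mul_right _ hE
  have e1 : 5 * M.nE * M.nB ^ w.length = 5 * (M.nE * M.nB ^ w.length) := Nat.mul_assoc _ _ _
  have e2 : 3 * M.nE * M.nB ^ w.length = 3 * (M.nE * M.nB ^ w.length) := Nat.mul_assoc _ _ _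
  simp only [xcell, wcell, Cell.Good]
  omega

theorem block_le {c : ℕ} (h : M.GoodBlock c) : c ≤ 3 * M.nE ∧ M.nE ≤ c ∧ 2 ∣ c := by
  have he := M.nE_even
  have := M.nE_pos
  unfold GoodBlock at h
  omega

theorem pieces_good : ∀ P ∈ M.pieces, P.Good := by
  intro P hP
  simp only [pieces, List.mem_map] at hP
  obtain ⟨r, hr, rfl⟩ := hP
  obtain ⟨hc, hd, hs, ht, hu, hv⟩ := M.rule_wf hr
  exact ⟨M.xcell_good (by omega) (by simpa using hs), M.ycell_good (by simpa using ht),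
    M.xcell_good (M.block_le hd).1 hu, M.ycell_good hv⟩

theorem pieces_sep : M.pieces.Pairwise fun P Q => P.SrcSep Q ∧ P.DstSep Q := by
  rw [pieces, List.pairwise_map]
  refine M.rules_pairwise.imp_of_mem fun {r r'} hr hr' h => ?_
  obtain ⟨⟨_, _, hc⟩, hd, hs, ht, hu, hv⟩ := M.rule_wf hr
  obtain ⟨⟨_, _, hc'⟩, hd', hs', ht', hu', hv'⟩ := M.rule_wf hr'
  have hs1 : ∀ a ∈ [r.s], a < M.nK := by simpa using hs
  have ht1 : ∀ a ∈ [r.t], a < M.nK := by simpa using ht
  have hs2 : ∀ a ∈ [r'.s], a < M.nK := by simpa using hs'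
  have ht2 : ∀ a ∈ [r'.t], a < M.nK := by simpa using ht'
  have hD : 0 < 5 * M.nE := by have := M.nE_pos; omega
  constructor
  · simp only [Piece.SrcSep, ruleCells, xcell, ycell]
    by_cases he : r.c = r'.c
    · rcases h.1 with e | e | e
      · exact absurd he e
      · rw [he]
        exact Or.inl (wcell_sep_incomp M.nB_pos 0 hD (M.digit_le hs1) (M.digit_le hs2)
          ⟨r.s, r'.s, rfl, rfl, e⟩)
      · exact Or.inr (wcell_sep_incomp M.nB_pos 0 (by omega) (M.digit_le ht1) (M.digit_le ht2)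
          ⟨r.t, r'.t, rfl, rfl, e⟩)
    · exact Or.inl (wcell_sep_block hD M.nB_pos (M.digit_le hs1) (M.digit_le hs2) (by omega))
  · simp only [Piece.DstSep, ruleCells, xcell, ycell]
    by_cases he : r.d = r'.d
    · rcases h.2 with e | ⟨i, hi⟩ | ⟨i, hi⟩
      · exact absurd he e
      · rw [he]
        exact Or.inl (wcell_sep_incomp M.nB_pos i hD (M.digit_le hu) (M.digit_le hu') hi)
      · exact Or.inr (wcell_sep_incomp M.nB_pos i (by omega) (M.digit_le hv) (M.digit_le hv') hi)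
    · have e1 := (M.block_le hd).2.2
      have e2 := (M.block_le hd').2.2
      exact Or.inl (wcell_sep_block hD M.nB_pos (M.digit_le hu) (M.digit_le hu') (by omega))

theorem startPoint_den (w : List ℕ) : 0 < (M.startPoint w).1.2 ∧ 0 < (M.startPoint w).2.2 := by
  have h1 := M.nE_pos
  have h2 := M.nK_pos
  have h3 := M.nB_pos
  simp only [startPoint]
  constructor <;> positivity

end Raw

end Vale.Agent.P113
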