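import Vale.Agent.P113.MachineRules
import Mathlib.Computability.Primrec.List
import Mathlib.Computability.Partrec

/-!
# The finite list of affine pieces, computed with natural numbers only
-/

namespace Vale.Agent.P113

/-- The number of a word in base `B`, a letter `a` being the odd digit `2 * a + 1`. -/
def wnum (B : ℕ) : List ℕ → ℕ
  | [] => 0
  | a :: w => (2 * a + 1) * B ^ w.length + wnum B w

/-- The cell of the word `w` in block `c` out of `D` blocks. -/
def wcell (D B c : ℕ) (w : List ℕ) : Cell := (c * B ^ w.length + wnum B w, D * B ^ w.length)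

namespace Raw

variable (M : Raw)

/-- the base of the digit expansion -/
def nB : ℕ := 2 * M.nK + 1

/-- the cells of a block in the first coordinate -/
def xcell (c : ℕ) (w : List ℕ) : Cell := wcell (5 * M.nE) M.nB c w

/-- the cells in the second coordinate -/
def ycell (w : List ℕ) : Cell := wcell 3 M.nB 1 w

/-- the piece of a rule -/
def ruleCells (r : Rule) : Piece :=
  (M.xcell r.c [r.s], M.ycell [r.t], M.xcell r.d r.u, M.ycell r.v)

/-- all pieces; they depend on the machine only -/
def pieces : List Piece := M.rules.map M.ruleCells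

/-- the block of the initial control -/
def startBlock : ℕ := M.bQ (M.start % M.nQ)

/-- the input word as stack items -/
def inputWord (w : List ℕ) : List ℕ := w.map (· % M.nA)

/-- the point `(x, y)` encoding the input, each coordinate as a fraction `(num, den)` -/
def startPoint (w : List ℕ) : (ℕ × ℕ) × (ℕ × ℕ) :=
  ((M.startBlock * (2 * M.nK) + 1, 5 * M.nE * (2 * M.nK)),
    ((M.nB ^ w.length + wnum M.nB (M.inputWord w)) * (2 * M.nK) + 1,
      3 * M.nB ^ w.length * (2 * M.nK)))

/-- A machine as a tuple. -/
def equivTuple : Raw ≃ ℕ × ℕ × ℕ × List Bool × List (List (ℕ × ℕ × ℕ)) where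
  toFun M := (M.numStates, M.numSymbols, M.start, M.halting, M.table)
  invFun t := ⟨t.1, t.2.1, t.2.2.1, t.2.2.2.1, t.2.2.2.2⟩
  left_inv _ := rfl
  right_inv _ := rfl

instance : Primcodable Raw := Primcodable.ofEquiv _ equivTuple

end Raw

/-- A rule as a tuple. -/
def Rule.equivTuple : Rule ≃ ℕ × ℕ × ℕ × ℕ × List ℕ × List ℕ where
  toFun r := (r.c, r.s, r.t, r.d, r.u, r.v)
  invFun p := ⟨p.1, p.2.1, p.2.2.1, p.2.2.2.1, p.2.2.2.2.1, p.2.2.2.2.2⟩
  left_inv _ := rfl
  right_inv _ := rfl

instance : Primcodable Rule := Primcodable.ofEquiv _ Rule.equivTuple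

open Primrec

theorem primrec_natPow : Primrec₂ ((· ^ ·) : ℕ → ℕ → ℕ) := by
  refine (Primrec.nat_rec' Primrec.snd (Primrec.const 1)
    (Primrec.nat_mul.comp (Primrec.snd.comp Primrec.snd) (Primrec.fst.comp Primrec.fst)).to₂).to₂.of_eq
    fun a b => ?_
  induction b with
  | zero => rfl
  | succ b ih => simp only at *; rw [pow_succ, ← ih]

theorem primrec_wnum : Primrec₂ wnum := by
  show Primrec fun p : ℕ × List ℕ => wnum p.1 p.2
  refine (Primrec.list_rec (f := fun p : ℕ × List ℕ => p.2)
    (g := fun _ => (0 : ℕ))
    (h := fun p q => (2 * q.1 + 1) * p.1 ^ q.2.1.length + q.2.2)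
    Primrec.snd (Primrec.const 0) ?_).of_eq ?_
  · exact (Primrec.nat_add.comp (Primrec.nat_mul.comp
      (Primrec.succ.comp (Primrec.nat_mul.comp (Primrec.const 2) (Primrec.fst.comp Primrec.snd)))
      (primrec_natPow.comp (Primrec.fst.comp Primrec.fst)
        (Primrec.list_length.comp (Primrec.fst.comp (Primrec.snd.comp Primrec.snd)))))
      (Primrec.snd.comp (Primrec.snd.comp Primrec.snd))).to₂
  · rintro ⟨B, l⟩
    induction l with
    | nil => rfl
    | cons a t ih => simp only [wnum] at *; rw [ih]

theorem primrec_wcell : Primrec fun p : (ℕ × ℕ) × ℕ × List ℕ => wcell p.1.1 p.1.2 p.2.1 p.2.2 :=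
  have hB : Primrec fun p : (ℕ × ℕ) × ℕ × List ℕ => p.1.2 ^ p.2.2.length :=
    primrec_natPow.comp (snd.comp fst) (list_length.comp (snd.comp snd))
  Primrec.pair (nat_add.comp (nat_mul.comp (fst.comp snd) hB)
      (primrec_wnum.comp (snd.comp fst) (snd.comp snd)))
    (nat_mul.comp (fst.comp fst) hB)

namespace Raw

theorem primrec_numStates : Primrec numStates :=
  fst.comp (Primrec.of_equiv (e := equivTuple))

theorem primrec_numSymbols : Primrec numSymbols :=
  fst.comp (snd.comp (Primrec.of_equiv (e := equivTuple)))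

theorem primrec_start : Primrec start :=
  fst.comp (snd.comp (snd.comp (Primrec.of_equiv (e := equivTuple))))

theorem primrec_halting : Primrec halting :=
  fst.comp (snd.comp (snd.comp (snd.comp (Primrec.of_equiv (e := equivTuple)))))

theorem primrec_table : Primrec table :=
  snd.comp (snd.comp (snd.comp (snd.comp (Primrec.of_equiv (e := equivTuple)))))

theorem primrec_nQ : Primrec nQ := succ.comp primrec_numStates

theorem primrec_nA : Primrec nA := succ.comp primrec_numSymbols

theorem primrec_nH : Primrec nH := nat_mul.comp primrec_nQ primrec_nA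

theorem primrec_nK : Primrec nK := nat_add.comp primrec_nA primrec_nH

theorem primrec_nB : Primrec nB := succ.comp (nat_mul.comp (const 2) primrec_nK)

theorem primrec_nE : Primrec nE :=
  nat_mul.comp (const 2) (nat_add.comp primrec_nQ (nat_mul.comp (const 2) primrec_nH))

theorem primrecPred_isHalt : PrimrecPred fun p : Raw × ℕ => p.1.IsHalt p.2 :=
  (Primrec.eq.comp ((list_getD false).comp (primrec_halting.comp fst) snd) (const true)).of_eq
    fun _ => Iff.rfl

variable {α : Type*} [Primcodable α] {m : α → Raw} {f g : α → ℕ}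

theorem primrec_isHalt (hm : Primrec m) (hf : Primrec f) :
    PrimrecPred fun a => (m a).IsHalt (f a) :=
  primrecPred_isHalt.comp (hm.pair hf)

theorem primrec_entry (hm : Primrec m) (hf : Primrec f) (hg : Primrec g) :
    Primrec fun a => (m a).entry (f a) (g a) :=
  (list_getD ((0 : ℕ), (0 : ℕ), (0 : ℕ))).comp
    ((list_getD ([] : List (ℕ × ℕ × ℕ))).comp (primrec_table.comp hm) hf) hg

theorem primrec_nextState (hm : Primrec m) (hf : Primrec f) (hg : Primrec g) :
    Primrec fun a => (m a).nextState (f a) (g a) :=
  nat_mod.comp (fst.comp (primrec_entry hm hf hg)) (primrec_nQ.comp hm)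

theorem primrec_writeSym (hm : Primrec m) (hf : Primrec f) (hg : Primrec g) :
    Primrec fun a => (m a).writeSym (f a) (g a) :=
  nat_mod.comp (fst.comp (snd.comp (primrec_entry hm hf hg))) (primrec_nA.comp hm)

theorem primrec_moveDir (hm : Primrec m) (hf : Primrec f) (hg : Primrec g) :
    Primrec fun a => (m a).moveDir (f a) (g a) :=
  nat_mod.comp (snd.comp (snd.comp (primrec_entry hm hf hg))) (const 3)

theorem primrec_bQ (hm : Primrec m) (hf : Primrec f) : Primrec fun a => (m a).bQ (f a) :=
  Primrec.ite (primrec_isHalt hm hf) (nat_mul.comp (const 3) (primrec_nE.comp hm))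
    (nat_add.comp (primrec_nE.comp hm) (nat_mul.comp (const 2) hf))

theorem primrec_bR (hm : Primrec m) (hf : Primrec f) : Primrec fun a => (m a).bR (f a) :=
  nat_add.comp (primrec_nE.comp hm)
    (nat_mul.comp (const 2) (nat_add.comp (primrec_nQ.comp hm) hf))

theorem primrec_bL (hm : Primrec m) (hf : Primrec f) : Primrec fun a => (m a).bL (f a) :=
  nat_add.comp (primrec_nE.comp hm)
    (nat_mul.comp (const 2)
      (nat_add.comp (nat_add.comp (primrec_nQ.comp hm) (primrec_nH.comp hm)) hf))

theorem primrec_jQ (hm : Primrec m) (hf : Primrec f) : Primrec fun a => (m a).jQ (f a) :=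
  nat_div.comp hf (primrec_nA.comp hm)

theorem primrec_jA (hm : Primrec m) (hf : Primrec f) : Primrec fun a => (m a).jA (f a) :=
  nat_mod.comp hf (primrec_nA.comp hm)

theorem primrec_jNext (hm : Primrec m) (hf : Primrec f) : Primrec fun a => (m a).jNext (f a) :=
  primrec_nextState hm (primrec_jQ hm hf) (primrec_jA hm hf)

theorem primrec_jWr (hm : Primrec m) (hf : Primrec f) : Primrec fun a => (m a).jWr (f a) :=
  primrec_writeSym hm (primrec_jQ hm hf) (primrec_jA hm hf)

theorem primrec_hItem (hm : Primrec m) (hf : Primrec f) : Primrec fun a => (m a).hItem (f a) :=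
  nat_add.comp (primrec_nA.comp hm) hf

theorem primrec_mkRule {c s t d : α → ℕ} {u v : α → List ℕ} (hc : Primrec c) (hs : Primrec s)
    (ht : Primrec t) (hd : Primrec d) (hu : Primrec u) (hv : Primrec v) :
    Primrec fun a => (⟨c a, s a, t a, d a, u a, v a⟩ : Rule) :=
  (Primrec.of_equiv_symm (e := Rule.equivTuple)).comp
    (hc.pair (hs.pair (ht.pair (hd.pair (hu.pair hv)))))

theorem primrec_one (hf : Primrec f) : Primrec fun a => [f a] :=
  list_cons.comp hf (const [])

theorem primrec_two (hf : Primrec f) (hg : Primrec g) : Primrec fun a => [f a, g a] :=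
  list_cons.comp hf (primrec_one hg)

theorem primrec_loopL {s t : α → ℕ} (hm : Primrec m) (hf : Primrec f) (hs : Primrec s)
    (ht : Primrec t) : Primrec fun a =>
      if s a < (m a).nA then (⟨(m a).bL (f a), s a, t a, (m a).bQ ((m a).jNext (f a)), [],
        [s a, (m a).hItem (f a), t a]⟩ : Rule)
      else ⟨(m a).bL (f a), s a, t a, (m a).bL (f a), [], [s a, t a]⟩ :=
  Primrec.ite (nat_lt.comp hs (primrec_nA.comp hm))
    (primrec_mkRule (primrec_bL hm hf) hs ht (primrec_bQ hm (primrec_jNext hm hf)) (const [])
      (list_cons.comp hs (primrec_two (primrec_hItem hm hf) ht)))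
    (primrec_mkRule (primrec_bL hm hf) hs ht (primrec_bL hm hf) (const []) (primrec_two hs ht))

theorem primrec_loopR {s t : α → ℕ} (hm : Primrec m) (hf : Primrec f) (hs : Primrec s)
    (ht : Primrec t) : Primrec fun a =>
      if t a < (m a).nA then (⟨(m a).bR (f a), s a, t a, (m a).bQ ((m a).jNext (f a)),
        [s a], [t a, (m a).hItem (f a)]⟩ : Rule)
      else ⟨(m a).bR (f a), s a, t a, (m a).bR (f a), [t a, s a], []⟩ :=
  Primrec.ite (nat_lt.comp ht (primrec_nA.comp hm))
    (primrec_mkRule (primrec_bR hm hf) hs ht (primrec_bQ hm (primrec_jNext hm hf))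
      (primrec_one hs) (primrec_two ht (primrec_hItem hm hf)))
    (primrec_mkRule (primrec_bR hm hf) hs ht (primrec_bR hm hf) (primrec_two ht hs) (const []))

theorem primrec_rangeK (hm : Primrec m) : Primrec fun a => List.range (m a).nK :=
  list_range.comp (primrec_nK.comp hm)

theorem primrec_leftStart : Primrec₂ leftStart :=
  list_map (primrec_rangeK fst) (primrec_mkRule
    (primrec_bQ (fst.comp fst) (primrec_jQ (fst.comp fst) (snd.comp fst))) snd
    (primrec_jA (fst.comp fst) (snd.comp fst)) (primrec_bL (fst.comp fst) (snd.comp fst))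
    (primrec_one snd) (primrec_one (primrec_jWr (fst.comp fst) (snd.comp fst)))).to₂

theorem primrec_rightStart : Primrec₂ rightStart :=
  list_map (primrec_rangeK fst) (primrec_mkRule
    (primrec_bQ (fst.comp fst) (primrec_jQ (fst.comp fst) (snd.comp fst))) snd
    (primrec_jA (fst.comp fst) (snd.comp fst)) (primrec_bR (fst.comp fst) (snd.comp fst))
    (primrec_two (primrec_jWr (fst.comp fst) (snd.comp fst)) snd) (const [])).to₂

theorem primrec_stayStep : Primrec₂ stayStep :=
  list_map (primrec_rangeK fst) (primrec_mkRule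
    (primrec_bQ (fst.comp fst) (primrec_jQ (fst.comp fst) (snd.comp fst))) snd
    (primrec_jA (fst.comp fst) (snd.comp fst))
    (primrec_bQ (fst.comp fst) (primrec_jNext (fst.comp fst) (snd.comp fst)))
    (primrec_one snd) (primrec_two (primrec_jWr (fst.comp fst) (snd.comp fst))
      (primrec_hItem (fst.comp fst) (snd.comp fst)))).to₂

theorem primrec_leftLoop : Primrec₂ leftLoop :=
  list_flatMap (primrec_rangeK fst) (list_map (primrec_rangeK (fst.comp fst))
    (primrec_loopL (fst.comp (fst.comp fst)) (snd.comp (fst.comp fst)) (snd.comp fst) snd).to₂).to₂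

theorem primrec_rightLoop : Primrec₂ rightLoop :=
  list_flatMap (primrec_rangeK fst) (list_map (primrec_rangeK (fst.comp fst))
    (primrec_loopR (fst.comp (fst.comp fst)) (snd.comp (fst.comp fst)) (snd.comp fst) snd).to₂).to₂

theorem primrec_group : Primrec₂ group := by
  have hd : Primrec fun p : Raw × ℕ => p.1.moveDir (p.1.jQ p.2) (p.1.jA p.2) :=
    primrec_moveDir fst (primrec_jQ fst snd) (primrec_jA fst snd)
  exact Primrec.ite (primrec_isHalt fst (primrec_jQ fst snd)) (const [])
    (Primrec.ite (Primrec.eq.comp hd (const 0))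
      (list_append.comp primrec_leftStart primrec_leftLoop)
      (Primrec.ite (Primrec.eq.comp hd (const 1))
        (list_append.comp primrec_rightStart primrec_rightLoop) primrec_stayStep))

theorem primrec_rules : Primrec rules :=
  list_flatMap (list_range.comp primrec_nH) primrec_group

theorem primrec_xcell {c : α → ℕ} {u : α → List ℕ} (hm : Primrec m) (hc : Primrec c)
    (hu : Primrec u) : Primrec fun a => (m a).xcell (c a) (u a) :=
  primrec_wcell.comp (((nat_mul.comp (const 5) (primrec_nE.comp hm)).pair
    (primrec_nB.comp hm)).pair (hc.pair hu))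

theorem primrec_ycell {u : α → List ℕ} (hm : Primrec m)
    (hu : Primrec u) : Primrec fun a => (m a).ycell (u a) :=
  primrec_wcell.comp (((const 3).pair (primrec_nB.comp hm)).pair ((const 1).pair hu))

theorem primrec_ruleFields (hm : Primrec m) {c sv tv d : α → ℕ} {u v : α → List ℕ}
    (hc : Primrec c) (hs : Primrec sv) (ht : Primrec tv) (hd : Primrec d) (hu : Primrec u)
    (hv : Primrec v) :
    Primrec fun a => (m a).ruleCells ⟨c a, sv a, tv a, d a, u a, v a⟩ :=
  (primrec_xcell hm hc (primrec_one hs)).pair ((primrec_ycell hm (primrec_one ht)).pair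
    ((primrec_xcell hm hd hu).pair (primrec_ycell hm hv)))

theorem primrec_pieces : Primrec pieces := by
  have t : Primrec fun p : Raw × Rule => Rule.equivTuple p.2 :=
    (Primrec.of_equiv (e := Rule.equivTuple)).comp snd
  have e := primrec_ruleFields (m := fun p : Raw × Rule => p.1) fst (fst.comp t)
    (fst.comp (snd.comp t)) (fst.comp (snd.comp (snd.comp t)))
    (fst.comp (snd.comp (snd.comp (snd.comp t))))
    (fst.comp (snd.comp (snd.comp (snd.comp (snd.comp t)))))
    (snd.comp (snd.comp (snd.comp (snd.comp (snd.comp t)))))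
  have e' : Primrec₂ ruleCells := e.of_eq fun p => rfl
  exact list_map primrec_rules e'

theorem primrec_startPoint : Primrec₂ startPoint := by
  have hK : Primrec fun p : Raw × List ℕ => 2 * p.1.nK :=
    nat_mul.comp (const 2) (primrec_nK.comp fst)
  have hB : Primrec fun p : Raw × List ℕ => p.1.nB ^ p.2.length :=
    primrec_natPow.comp (primrec_nB.comp fst) (list_length.comp snd)
  have hb : Primrec fun p : Raw × List ℕ => p.1.startBlock :=
    primrec_bQ fst (nat_mod.comp (primrec_start.comp fst) (primrec_nQ.comp fst))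
  have hw : Primrec fun p : Raw × List ℕ => p.1.inputWord p.2 :=
    list_map snd (nat_mod.comp snd (primrec_nA.comp (fst.comp fst))).to₂
  exact ((succ.comp (nat_mul.comp hb hK)).pair
      (nat_mul.comp (nat_mul.comp (const 5) (primrec_nE.comp fst)) hK)).pair
    ((succ.comp (nat_mul.comp
        (nat_add.comp hB (primrec_wnum.comp (primrec_nB.comp fst) hw)) hK)).pair
      (nat_mul.comp (nat_mul.comp (const 3) hB) hK))

theorem primrec_ofCode : Primrec ofCode :=
  (Primrec.of_equiv_symm (e := equivTuple)).comp ((fst.comp snd).pair (fst.pair (snd.comp snd)))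

theorem computable_pieces : Computable pieces := primrec_pieces.to_comp

theorem computable_startPoint : Computable₂ startPoint := primrec_startPoint.to_comp

end Raw

end Vale.Agent.P113
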