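import Vale.Agent.P113.Interface

/-!
# Totalised access to machine codes
-/

namespace Vale.Agent.P113

/-- A machine code read as a total machine; out of range data are replaced by default values.
There is one spare state, so that the number of states is positive for every code. -/
structure Raw where
  numStates : ℕ
  numSymbols : ℕ
  start : ℕ
  halting : List Bool
  table : List (List (ℕ × ℕ × ℕ))

namespace Raw

/-- read a code -/
def ofCode (c : MachineCode) : Raw := ⟨c.2.1, c.1, c.2.2.1, c.2.2.2.1, c.2.2.2.2⟩

variable (M : Raw)

/-- number of states -/
def nQ : ℕ := M.numStates + 1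

/-- number of symbols -/
def nA : ℕ := M.numSymbols + 1

/-- `q` is a halting state -/
def IsHalt (q : ℕ) : Prop := M.halting.getD q false = true

instance (q : ℕ) : Decidable (M.IsHalt q) :=
  inferInstanceAs (Decidable (M.halting.getD q false = true))

/-- table entry -/
def entry (q a : ℕ) : ℕ × ℕ × ℕ := (M.table.getD q []).getD a (0, 0, 0)

/-- new state -/
def nextState (q a : ℕ) : ℕ := (M.entry q a).1 % M.nQ

/-- written symbol -/
def writeSym (q a : ℕ) : ℕ := (M.entry q a).2.1 % M.nA

/-- movement: `0` left, `1` right, `2` stay -/
def moveDir (q a : ℕ) : ℕ := (M.entry q a).2.2 % 3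

end Raw

end Vale.Agent.P113
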