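import Vale.Agent.P113.MachineRaw
import Mathlib.Logic.Relation
import Mathlib.Data.List.Nodup

/-!
# A backward deterministic two-stack system simulating a machine

Stack items are tape symbols (`< nA`) or history items `nA + j`, where `j = q * nA + a` names
the machine transition `(q, a)`. A rule acts on the two top items only.
-/

namespace Vale.Agent.P113

/-- In block `c`, with `s` on top of the left and `t` on top of the right stack, go to block `d`,
replacing `s` by the word `u` and `t` by the word `v`. -/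
structure Rule where
  c : ℕ
  s : ℕ
  t : ℕ
  d : ℕ
  u : List ℕ
  v : List ℕ

/-- Two words differ at a position where both are defined. -/
def Incomp (u v : List ℕ) : Prop :=
  ∃ i : ℕ, ∃ a b : ℕ, u[i]? = some a ∧ v[i]? = some b ∧ a ≠ b

namespace Raw

variable (M : Raw)

/-- number of history items -/
def nH : ℕ := M.nQ * M.nA

/-- number of stack items -/
def nK : ℕ := M.nA + M.nH

/-- first block used by running controls -/
def nE : ℕ := 2 * (M.nQ + 2 * M.nH)

/-- block of the control at state `q` -/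
def bQ (q : ℕ) : ℕ := if M.IsHalt q then 3 * M.nE else M.nE + 2 * q

/-- block of the control that searches right after transition `j` -/
def bR (j : ℕ) : ℕ := M.nE + 2 * (M.nQ + j)

/-- block of the control that searches left after transition `j` -/
def bL (j : ℕ) : ℕ := M.nE + 2 * (M.nQ + M.nH + j)

/-- the state of transition `j` -/
def jQ (j : ℕ) : ℕ := j / M.nA

/-- the symbol of transition `j` -/
def jA (j : ℕ) : ℕ := j % M.nA

/-- the target state of transition `j` -/
def jNext (j : ℕ) : ℕ := M.nextState (M.jQ j) (M.jA j)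

/-- the symbol written by transition `j` -/
def jWr (j : ℕ) : ℕ := M.writeSym (M.jQ j) (M.jA j)

/-- the history item of transition `j` -/
def hItem (j : ℕ) : ℕ := M.nA + j

/-- first step of transition `j` when it moves left -/
def leftStart (j : ℕ) : List Rule :=
  (List.range M.nK).map fun s => ⟨M.bQ (M.jQ j), s, M.jA j, M.bL j, [s], [M.jWr j]⟩

/-- first step of transition `j` when it moves right -/
def rightStart (j : ℕ) : List Rule :=
  (List.range M.nK).map fun s => ⟨M.bQ (M.jQ j), s, M.jA j, M.bR j, [M.jWr j, s], []⟩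

/-- the only step of transition `j` when it does not move -/
def stayStep (j : ℕ) : List Rule :=
  (List.range M.nK).map fun s =>
    ⟨M.bQ (M.jQ j), s, M.jA j, M.bQ (M.jNext j), [s], [M.jWr j, M.hItem j]⟩

/-- the search loop of transition `j` when it moves left -/
def leftLoop (j : ℕ) : List Rule :=
  (List.range M.nK).flatMap fun s => (List.range M.nK).map fun t =>
    if s < M.nA then ⟨M.bL j, s, t, M.bQ (M.jNext j), [], [s, M.hItem j, t]⟩
    else ⟨M.bL j, s, t, M.bL j, [], [s, t]⟩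

/-- the search loop of transition `j` when it moves right -/
def rightLoop (j : ℕ) : List Rule :=
  (List.range M.nK).flatMap fun s => (List.range M.nK).map fun t =>
    if t < M.nA then ⟨M.bR j, s, t, M.bQ (M.jNext j), [s], [t, M.hItem j]⟩
    else ⟨M.bR j, s, t, M.bR j, [t, s], []⟩

/-- all rules belonging to transition `j` -/
def group (j : ℕ) : List Rule :=
  if M.IsHalt (M.jQ j) then []
  else if M.moveDir (M.jQ j) (M.jA j) = 0 then M.leftStart j ++ M.leftLoop j
  else if M.moveDir (M.jQ j) (M.jA j) = 1 then M.rightStart j ++ M.rightLoop j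
  else M.stayStep j

/-- all rules -/
def rules : List Rule := (List.range M.nH).flatMap M.group

/-! ## Elementary facts -/

theorem nA_pos : 0 < M.nA := Nat.succ_pos _

theorem nQ_pos : 0 < M.nQ := Nat.succ_pos _

theorem nA_le_nK : M.nA ≤ M.nK := Nat.le_add_right _ _

theorem nextState_lt (q a : ℕ) : M.nextState q a < M.nQ := Nat.mod_lt _ M.nQ_pos

theorem writeSym_lt (q a : ℕ) : M.writeSym q a < M.nA := Nat.mod_lt _ M.nA_pos

theorem moveDir_cases (q a : ℕ) :
    M.moveDir q a = 0 ∨ M.moveDir q a = 1 ∨ M.moveDir q a = 2 := by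
  have : M.moveDir q a < 3 := Nat.mod_lt _ (by omega)
  omega

theorem jA_lt (j : ℕ) : M.jA j < M.nA := Nat.mod_lt _ M.nA_pos

theorem jWr_lt (j : ℕ) : M.jWr j < M.nA := M.writeSym_lt _ _

theorem jNext_lt (j : ℕ) : M.jNext j < M.nQ := M.nextState_lt _ _

theorem jQ_lt {j : ℕ} (hj : j < M.nH) : M.jQ j < M.nQ := by
  rw [jQ, Nat.div_lt_iff_lt_mul M.nA_pos]
  exact hj

theorem jIdx_lt {q a : ℕ} (hq : q < M.nQ) (ha : a < M.nA) : q * M.nA + a < M.nH := by
  unfold nH
  calc q * M.nA + a < q * M.nA + M.nA := by omega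
    _ = (q + 1) * M.nA := by rw [Nat.succ_mul]
    _ ≤ M.nQ * M.nA := Nat.mul_le_mul_right _ hq

theorem jQ_jIdx {q a : ℕ} (ha : a < M.nA) : M.jQ (q * M.nA + a) = q := by
  rw [jQ, Nat.mul_comm, Nat.mul_add_div M.nA_pos, Nat.div_eq_of_lt ha]
  omega

theorem jA_jIdx {q a : ℕ} (ha : a < M.nA) : M.jA (q * M.nA + a) = a := by
  rw [jA, Nat.mul_comm, Nat.mul_add_mod, Nat.mod_eq_of_lt ha]

theorem eq_of_jQ_jA {i j : ℕ} (h₁ : M.jQ i = M.jQ j) (h₂ : M.jA i = M.jA j) : i = j := by
  rw [← Nat.div_add_mod i M.nA, ← Nat.div_add_mod j M.nA]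
  unfold jQ at h₁; unfold jA at h₂
  rw [h₁, h₂]

theorem bQ_cases {q : ℕ} :
    (¬M.IsHalt q ∧ M.bQ q = M.nE + 2 * q) ∨ (M.IsHalt q ∧ M.bQ q = 3 * M.nE) := by
  unfold bQ
  split_ifs with h
  · exact Or.inr ⟨h, rfl⟩
  · exact Or.inl ⟨h, rfl⟩

/-- A block that a rule may enter: a running block or the halting block. -/
def GoodBlock (c : ℕ) : Prop :=
  (M.nE ≤ c ∧ c + 2 ≤ 2 * M.nE ∧ 2 ∣ c) ∨ c = 3 * M.nE

theorem nE_even : 2 ∣ M.nE := ⟨_, rfl⟩

theorem goodBlock_bQ {q : ℕ} (hq : q < M.nQ) : M.GoodBlock (M.bQ q) := by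
  have he := M.nE_even
  have hE : M.nE = 2 * (M.nQ + 2 * M.nH) := rfl
  unfold GoodBlock
  rcases M.bQ_cases (q := q) with ⟨_, h⟩ | ⟨_, h⟩ <;> rw [h] <;> omega

theorem runBlock_bQ {q : ℕ} (hq : q < M.nQ) (hh : ¬M.IsHalt q) : M.bQ q + 2 ≤ 2 * M.nE := by
  have hE : M.nE = 2 * (M.nQ + 2 * M.nH) := rfl
  rw [bQ, if_neg hh]
  omega

theorem bR_spec {j : ℕ} (hj : j < M.nH) : M.nE ≤ M.bR j ∧ M.bR j + 2 ≤ 2 * M.nE ∧ 2 ∣ M.bR j := by
  have hE : M.nE = 2 * (M.nQ + 2 * M.nH) := rfl
  unfold bR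
  omega

theorem bL_spec {j : ℕ} (hj : j < M.nH) : M.nE ≤ M.bL j ∧ M.bL j + 2 ≤ 2 * M.nE ∧ 2 ∣ M.bL j := by
  have hE : M.nE = 2 * (M.nQ + 2 * M.nH) := rfl
  unfold bL
  omega

/-- The possible rules of transition `j`. -/
inductive Shape (j : ℕ) : Rule → Prop
  | lStart (s : ℕ) : s < M.nK → ¬M.IsHalt (M.jQ j) → M.moveDir (M.jQ j) (M.jA j) = 0 →
      Shape j ⟨M.bQ (M.jQ j), s, M.jA j, M.bL j, [s], [M.jWr j]⟩
  | rStart (s : ℕ) : s < M.nK → ¬M.IsHalt (M.jQ j) → M.moveDir (M.jQ j) (M.jA j) = 1 →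
      Shape j ⟨M.bQ (M.jQ j), s, M.jA j, M.bR j, [M.jWr j, s], []⟩
  | stay (s : ℕ) : s < M.nK → ¬M.IsHalt (M.jQ j) → M.moveDir (M.jQ j) (M.jA j) = 2 →
      Shape j ⟨M.bQ (M.jQ j), s, M.jA j, M.bQ (M.jNext j), [s], [M.jWr j, M.hItem j]⟩
  | lExit (s t : ℕ) : s < M.nK → t < M.nK → s < M.nA → M.moveDir (M.jQ j) (M.jA j) = 0 →
      Shape j ⟨M.bL j, s, t, M.bQ (M.jNext j), [], [s, M.hItem j, t]⟩
  | lSkip (s t : ℕ) : s < M.nK → t < M.nK → ¬s < M.nA → M.moveDir (M.jQ j) (M.jA j) = 0 →
      Shape j ⟨M.bL j, s, t, M.bL j, [], [s, t]⟩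
  | rExit (s t : ℕ) : s < M.nK → t < M.nK → t < M.nA → M.moveDir (M.jQ j) (M.jA j) = 1 →
      Shape j ⟨M.bR j, s, t, M.bQ (M.jNext j), [s], [t, M.hItem j]⟩
  | rSkip (s t : ℕ) : s < M.nK → t < M.nK → ¬t < M.nA → M.moveDir (M.jQ j) (M.jA j) = 1 →
      Shape j ⟨M.bR j, s, t, M.bR j, [t, s], []⟩

theorem shape_of_mem_group {j : ℕ} {r : Rule} (h : r ∈ M.group j) : M.Shape j r := by
  simp only [group, leftStart, rightStart, stayStep, leftLoop, rightLoop] at h
  split_ifs at h with hh h0 h1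
  · simp at h
  · simp only [List.mem_append, List.mem_map, List.mem_range, List.mem_flatMap] at h
    rcases h with ⟨s, hs, rfl⟩ | ⟨s, hs, t, ht, rfl⟩
    · exact .lStart s hs hh h0
    · by_cases hst : s < M.nA
      · rw [if_pos hst]; exact .lExit s t hs ht hst h0
      · rw [if_neg hst]; exact .lSkip s t hs ht hst h0
  · simp only [List.mem_append, List.mem_map, List.mem_range, List.mem_flatMap] at h
    rcases h with ⟨s, hs, rfl⟩ | ⟨s, hs, t, ht, rfl⟩
    · exact .rStart s hs hh h1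
    · by_cases hst : t < M.nA
      · rw [if_pos hst]; exact .rExit s t hs ht hst h1
      · rw [if_neg hst]; exact .rSkip s t hs ht hst h1
  · simp only [List.mem_map, List.mem_range] at h
    rcases h with ⟨s, hs, rfl⟩
    exact .stay s hs hh (by rcases M.moveDir_cases (M.jQ j) (M.jA j) with e | e | e <;> omega)

theorem shape_of_mem_rules {r : Rule} (h : r ∈ M.rules) : ∃ j < M.nH, M.Shape j r := by
  simp only [rules, List.mem_flatMap, List.mem_range] at h
  obtain ⟨j, hj, h⟩ := h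
  exact ⟨j, hj, M.shape_of_mem_group h⟩

/-- Source cells of two rules are different. -/
def SrcSep (r r' : Rule) : Prop := r.c ≠ r'.c ∨ r.s ≠ r'.s ∨ r.t ≠ r'.t

/-- Target cells of two rules are different. -/
def DstSep (r r' : Rule) : Prop := r.d ≠ r'.d ∨ Incomp r.u r'.u ∨ Incomp r.v r'.v

theorem incomp_cons {a b : ℕ} (h : a ≠ b) (u v : List ℕ) : Incomp (a :: u) (b :: v) :=
  ⟨0, a, b, rfl, rfl, h⟩

theorem incomp_snd {a b : ℕ} (h : a ≠ b) (x y : ℕ) (u v : List ℕ) :
    Incomp (x :: a :: u) (y :: b :: v) :=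
  ⟨1, a, b, rfl, rfl, h⟩

/-- The source of a rule determines its transition. -/
theorem shape_src {j : ℕ} {r : Rule} (h : M.Shape j r) :
    (r.c = M.nE + 2 * M.jQ j ∧ r.t = M.jA j) ∨ r.c = M.bR j ∨ r.c = M.bL j := by
  cases h
  case lStart hh _ => exact Or.inl ⟨if_neg hh, rfl⟩
  case rStart hh _ => exact Or.inl ⟨if_neg hh, rfl⟩
  case stay hh _ => exact Or.inl ⟨if_neg hh, rfl⟩
  case lExit => exact Or.inr (Or.inr rfl)
  case lSkip => exact Or.inr (Or.inr rfl)
  case rExit => exact Or.inr (Or.inl rfl)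
  case rSkip => exact Or.inr (Or.inl rfl)

/-- The target of a rule determines its transition. -/
theorem shape_dst {j : ℕ} {r : Rule} (h : M.Shape j r) :
    r.d = M.bR j ∨ r.d = M.bL j ∨
      (r.d = M.bQ (M.jNext j) ∧ ∃ x l, r.v = x :: M.hItem j :: l) := by
  cases h
  case lStart => exact Or.inr (Or.inl rfl)
  case lSkip => exact Or.inr (Or.inl rfl)
  case rStart => exact Or.inl rfl
  case rSkip => exact Or.inl rfl
  all_goals exact Or.inr (Or.inr ⟨rfl, _, _, rfl⟩)

/-- Rules of distinct transitions have distinct sources and distinct targets. -/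
theorem sep_of_ne {i j : ℕ} (hi : i < M.nH) (hj : j < M.nH) (hne : i ≠ j) {r r' : Rule}
    (hr : M.Shape i r) (hr' : M.Shape j r') : SrcSep r r' ∧ DstSep r r' := by
  have hE : M.nE = 2 * (M.nQ + 2 * M.nH) := rfl
  have q1 := M.jQ_lt hi
  have q2 := M.jQ_lt hj
  have n1 := M.jNext_lt i
  have n2 := M.jNext_lt j
  constructor
  · by_contra hc
    obtain ⟨e1, -, e3⟩ : r.c = r'.c ∧ r.s = r'.s ∧ r.t = r'.t := by
      simp only [SrcSep, ne_eq, not_or, not_not] at hc
      exact hc
    rcases M.shape_src hr with ⟨a, a'⟩ | a | a <;>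
      rcases M.shape_src hr' with ⟨b, b'⟩ | b | b <;>
      (try simp only [bR, bL] at *) <;>
      first
        | omega
        | exact hne (M.eq_of_jQ_jA (by omega) (by omega))
  · have d1 := M.bQ_cases (q := M.jNext i)
    have d2 := M.bQ_cases (q := M.jNext j)
    have hh : M.hItem i ≠ M.hItem j := by unfold hItem; omega
    rcases M.shape_dst hr with a | a | ⟨a, x, l, hv⟩ <;>
      rcases M.shape_dst hr' with b | b | ⟨b, y, m, hw⟩ <;>
      (try simp only [bR, bL] at *) <;>
      first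
        | exact Or.inl (by omega)
        | exact Or.inr (Or.inr (by rw [hv, hw]; exact incomp_snd hh _ _ _ _))

/-- The rules of one transition have distinct sources and distinct targets. -/
theorem group_pairwise {j : ℕ} (hj : j < M.nH) :
    (M.group j).Pairwise fun r r' => SrcSep r r' ∧ DstSep r r' := by
  have hE : M.nE = 2 * (M.nQ + 2 * M.nH) := rfl
  have q1 := M.jQ_lt hj
  have n1 := M.jNext_lt j
  have c1 := M.bQ_cases (q := M.jQ j)
  have d1 := M.bQ_cases (q := M.jNext j)
  have hw := M.jWr_lt j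
  have hnd : (List.range M.nK).Pairwise (· ≠ ·) := List.nodup_range
  simp only [group, leftStart, rightStart, stayStep, leftLoop, rightLoop]
  split_ifs with hh h0 h1
  · simp
  · rw [List.pairwise_append]
    refine ⟨?_, ?_, ?_⟩
    · rw [List.pairwise_map]
      exact hnd.imp fun {a b} h => ⟨Or.inr (Or.inl h), Or.inr (Or.inl (incomp_cons h _ _))⟩
    · rw [List.pairwise_flatMap]
      refine ⟨fun s _ => ?_, hnd.imp fun {s s'} h x hx y hy => ?_⟩
      · rw [List.pairwise_map]
        refine hnd.imp fun {t t'} h => ?_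
        split_ifs
        · exact ⟨Or.inr (Or.inr h), Or.inr (Or.inr ⟨2, t, t', rfl, rfl, h⟩)⟩
        · exact ⟨Or.inr (Or.inr h), Or.inr (Or.inr (incomp_snd h _ _ _ _))⟩
      · simp only [List.mem_map, List.mem_range] at hx hy
        obtain ⟨t, _, rfl⟩ := hx
        obtain ⟨t', _, rfl⟩ := hy
        split_ifs <;> exact ⟨Or.inr (Or.inl h), Or.inr (Or.inr (incomp_cons h _ _))⟩
    · intro x hx y hy
      simp only [List.mem_map, List.mem_range, List.mem_flatMap] at hx hy
      obtain ⟨a, _, rfl⟩ := hx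
      obtain ⟨s, _, t, _, rfl⟩ := hy
      refine ⟨?_, ?_⟩ <;> split_ifs <;> simp only [SrcSep, DstSep, bR, bL] <;>
        first
          | exact Or.inl (by omega)
          | exact Or.inr (Or.inr (incomp_cons (by omega) _ _))
  · rw [List.pairwise_append]
    refine ⟨?_, ?_, ?_⟩
    · rw [List.pairwise_map]
      exact hnd.imp fun {a b} h => ⟨Or.inr (Or.inl h), Or.inr (Or.inl (incomp_snd h _ _ _ _))⟩
    · rw [List.pairwise_flatMap]
      refine ⟨fun s _ => ?_, hnd.imp fun {s s'} h x hx y hy => ?_⟩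
      · rw [List.pairwise_map]
        refine hnd.imp fun {t t'} h => ?_
        refine ⟨?_, ?_⟩ <;> split_ifs <;> simp only [SrcSep, DstSep, bR, bL] <;>
          first
            | exact Or.inr (Or.inr h)
            | exact Or.inl (by omega)
            | exact Or.inr (Or.inl (incomp_cons h _ _))
            | exact Or.inr (Or.inr (incomp_cons h _ _))
      · simp only [List.mem_map, List.mem_range] at hx hy
        obtain ⟨t, _, rfl⟩ := hx
        obtain ⟨t', _, rfl⟩ := hy
        refine ⟨?_, ?_⟩ <;> split_ifs <;> simp only [SrcSep, DstSep, bR, bL] <;>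
          first
            | exact Or.inr (Or.inl h)
            | exact Or.inl (by omega)
            | exact Or.inr (Or.inl (incomp_cons h _ _))
            | exact Or.inr (Or.inl (incomp_snd h _ _ _ _))
    · intro x hx y hy
      simp only [List.mem_map, List.mem_range, List.mem_flatMap] at hx hy
      obtain ⟨a, _, rfl⟩ := hx
      obtain ⟨s, _, t, _, rfl⟩ := hy
      refine ⟨?_, ?_⟩ <;> split_ifs <;> simp only [SrcSep, DstSep, bR, bL] <;>
        first
          | exact Or.inl (by omega)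
          | exact Or.inr (Or.inl (incomp_cons (by omega) _ _))
  · rw [List.pairwise_map]
    exact hnd.imp fun {a b} h => ⟨Or.inr (Or.inl h), Or.inr (Or.inl (incomp_cons h _ _))⟩

theorem rules_pairwise : M.rules.Pairwise fun r r' => SrcSep r r' ∧ DstSep r r' := by
  rw [rules, List.pairwise_flatMap]
  refine ⟨fun j hj => M.group_pairwise (List.mem_range.1 hj), ?_⟩
  have hnd : (List.range M.nH).Pairwise (· ≠ ·) := List.nodup_range
  refine (List.pairwise_iff_forall_sublist.2 fun {i j} hs x hx y hy => ?_)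
  have hi : i < M.nH := List.mem_range.1 (hs.subset (by simp))
  have hj : j < M.nH := List.mem_range.1 (hs.subset (by simp))
  exact M.sep_of_ne hi hj (List.pairwise_iff_forall_sublist.1 hnd hs)
    (M.shape_of_mem_group hx) (M.shape_of_mem_group hy)

/-- Well-formedness of every rule. -/
theorem rule_wf {r : Rule} (h : r ∈ M.rules) :
    (M.nE ≤ r.c ∧ r.c + 2 ≤ 2 * M.nE ∧ 2 ∣ r.c) ∧ M.GoodBlock r.d ∧ r.s < M.nK ∧ r.t < M.nK ∧
      (∀ a ∈ r.u, a < M.nK) ∧ (∀ a ∈ r.v, a < M.nK) := by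
  obtain ⟨j, hj, hs⟩ := M.shape_of_mem_rules h
  have hw : M.jWr j < M.nK := Nat.lt_of_lt_of_le (M.jWr_lt j) M.nA_le_nK
  have ha : M.jA j < M.nK := Nat.lt_of_lt_of_le (M.jA_lt j) M.nA_le_nK
  have hi : M.hItem j < M.nK := Nat.add_lt_add_left hj _
  have hR := M.bR_spec hj
  have hL := M.bL_spec hj
  have hn := M.goodBlock_bQ (M.jNext_lt j)
  have hq : ¬M.IsHalt (M.jQ j) →
      M.nE ≤ M.bQ (M.jQ j) ∧ M.bQ (M.jQ j) + 2 ≤ 2 * M.nE ∧ 2 ∣ M.bQ (M.jQ j) := fun hh => by
    have hE : M.nE = 2 * (M.nQ + 2 * M.nH) := rfl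
    have hql := M.jQ_lt hj
    rw [bQ, if_neg hh]
    omega
  cases hs <;> simp_all [GoodBlock]

end Raw

end Vale.Agent.P113
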