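import Vale.Agent.P113.MachineGeometry

/-!
# The two-stack system follows the machine, and the pieces follow the two-stack system
-/

namespace Vale.Agent.P113

/-- The number in `[0,1]` of a padded stack. -/
noncomputable def rxi (B : ℕ) : List ℕ → ℝ
  | [] => 1 / ((B : ℝ) - 1)
  | a :: w => (2 * (a : ℝ) + 1 + rxi B w) / (B : ℝ)

theorem rxi_pad {B : ℕ} (hB : 1 < B) (L : List ℕ) :
    rxi B L = rxi B (L.headD 0 :: L.tail) := by
  rcases L with _ | ⟨a, l⟩
  · have h1 : (1 : ℝ) < B := by exact_mod_cast hB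
    have h2 : (B : ℝ) - 1 ≠ 0 := sub_ne_zero.2 h1.ne'
    simp only [List.headD_nil, List.tail_nil, rxi, Nat.cast_zero]
    field_simp
    ring
  · rfl

theorem rxi_append {B : ℕ} (hB : 0 < B) : ∀ u l : List ℕ,
    rxi B (u ++ l) = ((wnum B u : ℝ) + rxi B l) / (B : ℝ) ^ u.length
  | [], l => by simp [wnum]
  | a :: u, l => by
    have hB' : (B : ℝ) ≠ 0 := by positivity
    rw [List.cons_append, rxi, rxi_append hB u l, wnum, List.length_cons]
    push_cast
    field_simp
    ring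

theorem rxi_mem {B : ℕ} (hB : 2 < B) : ∀ {L : List ℕ}, (∀ a ∈ L, 2 * a + 2 ≤ B) →
    0 ≤ rxi B L ∧ rxi B L ≤ 1
  | [], _ => by
    have : (2 : ℝ) < B := by exact_mod_cast hB
    refine ⟨div_nonneg zero_le_one (by linarith), ?_⟩
    rw [rxi, div_le_one (by linarith)]
    linarith
  | a :: L, h => by
    obtain ⟨h0, h1⟩ := rxi_mem hB (L := L) fun b hb => h b (by simp [hb])
    have hb : (2 : ℝ) < B := by exact_mod_cast hB
    have ha : 2 * (a : ℝ) + 2 ≤ B := by exact_mod_cast h a (by simp)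
    have ha0 : (0 : ℝ) ≤ a := Nat.cast_nonneg a
    refine ⟨div_nonneg (by linarith) (by linarith), ?_⟩
    rw [rxi, div_le_one (by linarith)]
    linarith

theorem wcell_pt (D B c : ℕ) (hB : 0 < B) (u l : List ℕ) :
    (wcell D B c u).pt (rxi B l) = ((c : ℝ) + rxi B (u ++ l)) / (D : ℝ) := by
  have hB' : (B : ℝ) ≠ 0 := by positivity
  rw [rxi_append hB]
  simp only [Cell.pt, wcell, Nat.cast_add, Nat.cast_mul, Nat.cast_pow]
  rw [div_eq_div_iff_comm]
  rcases eq_or_ne (D : ℝ) 0 with hD | hD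
  · simp [hD]
  · field_simp
    ring

/-- A configuration of the two-stack system. -/
structure SCfg where
  c : ℕ
  L : List ℕ
  R : List ℕ

namespace Raw

variable (M : Raw)

/-- One step of the two-stack system. -/
def AStep (X Y : SCfg) : Prop :=
  ∃ r ∈ M.rules, r.c = X.c ∧ r.s = X.L.headD 0 ∧ r.t = X.R.headD 0 ∧
    Y = ⟨r.d, r.u ++ X.L.tail, r.v ++ X.R.tail⟩

/-- All items are in range. -/
def SValid (X : SCfg) : Prop := (∀ a ∈ X.L, a < M.nK) ∧ ∀ a ∈ X.R, a < M.nK

/-- The `i`-th tape symbol of a stack, history items being skipped. -/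
def sym (L : List ℕ) (i : ℕ) : ℕ := (L.filter fun a => decide (a < M.nA)).getD i 0

theorem sym_hist {h : ℕ} (hh : ¬h < M.nA) (L : List ℕ) (i : ℕ) : M.sym (h :: L) i = M.sym L i := by
  simp [sym, List.filter_cons, hh]

theorem sym_cons {a : ℕ} (ha : a < M.nA) (L : List ℕ) : M.sym (a :: L) 0 = a := by
  simp [sym, List.filter_cons, ha]

theorem sym_cons_succ {a : ℕ} (ha : a < M.nA) (L : List ℕ) (i : ℕ) :
    M.sym (a :: L) (i + 1) = M.sym L i := by
  simp [sym, List.filter_cons, ha]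

theorem sym_pad (L : List ℕ) (i : ℕ) : M.sym (L.headD 0 :: L.tail) i = M.sym L i := by
  rcases L with _ | ⟨a, l⟩
  · rcases i with _ | i <;> simp [sym, M.nA_pos]
  · rfl

theorem sym_congr {a : ℕ} {L L' : List ℕ} (h : ∀ i, M.sym L i = M.sym L' i) (i : ℕ) :
    M.sym (a :: L) i = M.sym (a :: L') i := by
  by_cases ha : a < M.nA
  · rcases i with _ | i
    · rw [M.sym_cons ha, M.sym_cons ha]
    · rw [M.sym_cons_succ ha, M.sym_cons_succ ha, h]
  · rw [M.sym_hist ha, M.sym_hist ha, h]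

theorem headD_lt {L : List ℕ} (h : ∀ a ∈ L, a < M.nK) : L.headD 0 < M.nK := by
  rcases L with _ | ⟨a, l⟩
  · exact M.nK_pos
  · exact h a (by simp)

theorem tail_lt {L : List ℕ} (h : ∀ a ∈ L, a < M.nK) : ∀ a ∈ L.tail, a < M.nK :=
  fun a ha => h a (List.mem_of_mem_tail ha)

theorem astep_valid {X Y : SCfg} (h : M.AStep X Y) (hX : M.SValid X) : M.SValid Y := by
  obtain ⟨r, hr, -, -, -, rfl⟩ := h
  obtain ⟨-, -, -, -, hu, hv⟩ := M.rule_wf hr
  constructor <;> intro a ha <;> rcases List.mem_append.1 ha with h | h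
  · exact hu a h
  · exact M.tail_lt hX.1 a h
  · exact hv a h
  · exact M.tail_lt hX.2 a h

theorem transGen_valid {X Y : SCfg} (h : Relation.TransGen M.AStep X Y) (hX : M.SValid X) :
    M.SValid Y := by
  induction h with
  | single h => exact M.astep_valid h hX
  | tail _ h ih => exact M.astep_valid h ih

theorem mem_rules {j : ℕ} (hj : j < M.nH) {r : Rule} (h : r ∈ M.group j) : r ∈ M.rules :=
  List.mem_flatMap.2 ⟨j, List.mem_range.2 hj, h⟩

theorem hItem_ge (j : ℕ) : ¬M.hItem j < M.nA := Nat.not_lt.2 (Nat.le_add_right _ _)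

theorem hItem_lt {j : ℕ} (hj : j < M.nH) : M.hItem j < M.nK := Nat.add_lt_add_left hj _

section Loops

variable {j : ℕ} (hj : j < M.nH) (hh : ¬M.IsHalt (M.jQ j))

include hj hh

theorem leftLoop_step (h0 : M.moveDir (M.jQ j) (M.jA j) = 0) {L R : List ℕ}
    (hL : ∀ a ∈ L, a < M.nK) (hR : ∀ a ∈ R, a < M.nK) :
    M.AStep ⟨M.bL j, L, R⟩
      (if L.headD 0 < M.nA then
        ⟨M.bQ (M.jNext j), L.tail, L.headD 0 :: M.hItem j :: R.headD 0 :: R.tail⟩
      else ⟨M.bL j, L.tail, L.headD 0 :: R.headD 0 :: R.tail⟩) := by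
  refine ⟨if L.headD 0 < M.nA then
      ⟨M.bL j, L.headD 0, R.headD 0, M.bQ (M.jNext j), [], [L.headD 0, M.hItem j, R.headD 0]⟩
    else ⟨M.bL j, L.headD 0, R.headD 0, M.bL j, [], [L.headD 0, R.headD 0]⟩,
    M.mem_rules hj ?_, ?_, ?_, ?_, ?_⟩
  · rw [group, if_neg hh, if_pos h0]
    refine List.mem_append_right _ (List.mem_flatMap.2 ⟨_, List.mem_range.2 (M.headD_lt hL), ?_⟩)
    exact List.mem_map.2 ⟨_, List.mem_range.2 (M.headD_lt hR), rfl⟩
  all_goals split_ifs <;> rfl

theorem rightLoop_step (h1 : M.moveDir (M.jQ j) (M.jA j) = 1) {L R : List ℕ}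
    (hL : ∀ a ∈ L, a < M.nK) (hR : ∀ a ∈ R, a < M.nK) :
    M.AStep ⟨M.bR j, L, R⟩
      (if R.headD 0 < M.nA then
        ⟨M.bQ (M.jNext j), L.headD 0 :: L.tail, R.headD 0 :: M.hItem j :: R.tail⟩
      else ⟨M.bR j, R.headD 0 :: L.headD 0 :: L.tail, R.tail⟩) := by
  refine ⟨if R.headD 0 < M.nA then
      ⟨M.bR j, L.headD 0, R.headD 0, M.bQ (M.jNext j), [L.headD 0], [R.headD 0, M.hItem j]⟩
    else ⟨M.bR j, L.headD 0, R.headD 0, M.bR j, [R.headD 0, L.headD 0], []⟩,
    M.mem_rules hj ?_, ?_, ?_, ?_, ?_⟩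
  · rw [group, if_neg hh, if_neg (by omega), if_pos h1]
    refine List.mem_append_right _ (List.mem_flatMap.2 ⟨_, List.mem_range.2 (M.headD_lt hL), ?_⟩)
    exact List.mem_map.2 ⟨_, List.mem_range.2 (M.headD_lt hR), rfl⟩
  all_goals split_ifs <;> rfl

theorem rightSearch (h1 : M.moveDir (M.jQ j) (M.jA j) = 1) : ∀ (R L : List ℕ),
    (∀ a ∈ L, a < M.nK) → (∀ a ∈ R, a < M.nK) → ∃ L' R',
      Relation.TransGen M.AStep ⟨M.bR j, L, R⟩ ⟨M.bQ (M.jNext j), L', R'⟩ ∧
      R'.headD 0 < M.nA ∧ ∀ i, M.sym L' i = M.sym L i ∧ M.sym R' i = M.sym R i := by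
  intro R
  induction R with
  | nil =>
    intro L hL hR
    have hs := M.rightLoop_step hj hh h1 hL hR
    rw [if_pos (by simpa using M.nA_pos)] at hs
    refine ⟨_, _, .single hs, by simpa using M.nA_pos, fun i => ⟨M.sym_pad L i, ?_⟩⟩
    simp only [List.tail_nil, List.headD_nil]
    rw [M.sym_congr (fun i => M.sym_hist (M.hItem_ge j) [] i)]
    exact M.sym_pad [] i
  | cons x xs ih =>
    intro L hL hR
    have hs := M.rightLoop_step hj hh h1 hL hR
    simp only [List.headD_cons, List.tail_cons] at hs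
    by_cases hx : x < M.nA
    · simp only [hx, ite_true] at hs
      exact ⟨_, _, .single hs, by simpa using hx,
        fun i => ⟨M.sym_pad L i, M.sym_congr (fun i => M.sym_hist (M.hItem_ge j) xs i) i⟩⟩
    · simp only [hx, ite_false] at hs
      obtain ⟨L', R', ht, hd, hc⟩ := ih (x :: L.headD 0 :: L.tail)
        (by
          intro a ha
          rcases List.mem_cons.1 ha with rfl | ha
          · exact hR _ (by simp)
          rcases List.mem_cons.1 ha with rfl | ha
          · exact M.headD_lt hL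
          · exact M.tail_lt hL a ha)
        (fun a ha => hR a (by simp [ha]))
      refine ⟨L', R', .head hs ht, hd, fun i => ⟨?_, ?_⟩⟩
      · rw [(hc i).1, M.sym_hist hx, M.sym_pad]
      · rw [(hc i).2, M.sym_hist hx]

theorem leftSearch (h0 : M.moveDir (M.jQ j) (M.jA j) = 0) : ∀ (L R : List ℕ),
    (∀ a ∈ L, a < M.nK) → (∀ a ∈ R, a < M.nK) → ∃ L' R',
      Relation.TransGen M.AStep ⟨M.bL j, L, R⟩ ⟨M.bQ (M.jNext j), L', R'⟩ ∧
      R'.headD 0 < M.nA ∧ M.sym R' 0 = M.sym L 0 ∧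
      ∀ i, M.sym L' i = M.sym L (i + 1) ∧ M.sym R' (i + 1) = M.sym R i := by
  intro L
  induction L with
  | nil =>
    intro R hL hR
    have hs := M.leftLoop_step hj hh h0 hL hR
    simp only [List.headD_nil, List.tail_nil, if_pos M.nA_pos] at hs
    refine ⟨_, _, .single hs, by simpa using M.nA_pos, ?_, fun i => ⟨by simp [sym], ?_⟩⟩
    · rw [M.sym_cons M.nA_pos]
      simp [sym]
    · rw [M.sym_cons_succ M.nA_pos, M.sym_hist (M.hItem_ge j), M.sym_pad]
  | cons x xs ih =>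
    intro R hL hR
    have hs := M.leftLoop_step hj hh h0 hL hR
    simp only [List.headD_cons, List.tail_cons] at hs
    by_cases hx : x < M.nA
    · simp only [hx, ite_true] at hs
      refine ⟨_, _, .single hs, by simpa using hx, ?_, fun i => ⟨?_, ?_⟩⟩
      · rw [M.sym_cons hx, M.sym_cons hx]
      · rw [M.sym_cons_succ hx]
      · rw [M.sym_cons_succ hx, M.sym_hist (M.hItem_ge j), M.sym_pad]
    · simp only [hx, ite_false] at hs
      obtain ⟨L', R', ht, hd, h00, hc⟩ := ih (x :: R.headD 0 :: R.tail)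
        (fun a ha => hL a (by simp [ha]))
        (by
          intro a ha
          rcases List.mem_cons.1 ha with rfl | ha
          · exact hL _ (by simp)
          rcases List.mem_cons.1 ha with rfl | ha
          · exact M.headD_lt hR
          · exact M.tail_lt hR a ha)
      refine ⟨L', R', .head hs ht, hd, ?_, fun i => ⟨?_, ?_⟩⟩
      · rw [h00, M.sym_hist hx]
      · rw [(hc i).1, M.sym_hist hx]
      · rw [(hc i).2, M.sym_hist hx, M.sym_pad]

end Loops

/-- The point of a configuration. -/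
noncomputable def point (X : SCfg) : ℝ × ℝ :=
  (((X.c : ℝ) + rxi M.nB X.L) / ((5 * M.nE : ℕ) : ℝ), ((1 : ℕ) + rxi M.nB X.R) / ((3 : ℕ) : ℝ))

theorem two_lt_nB : 2 < M.nB := by
  have := M.nK_pos
  unfold nB; omega

theorem pieceStep_of_aStep {X Y : SCfg} (h : M.AStep X Y) (hX : M.SValid X) :
    PieceStep M.pieces (M.point X) (M.point Y) := by
  obtain ⟨r, hr, hc, hs, ht, rfl⟩ := h
  have hu := rxi_mem M.two_lt_nB (M.digit_le (M.tail_lt hX.1))
  have hv := rxi_mem M.two_lt_nB (M.digit_le (M.tail_lt hX.2))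
  refine ⟨M.ruleCells r, List.mem_map_of_mem hr, rxi M.nB X.L.tail, rxi M.nB X.R.tail,
    hu.1, hu.2, hv.1, hv.2, ?_, ?_⟩
  · simp only [point, ruleCells, xcell, ycell, wcell_pt _ _ _ M.nB_pos, hc, hs, ht,
      List.singleton_append]
    rw [← rxi_pad (by have := M.two_lt_nB; omega), ← rxi_pad (by have := M.two_lt_nB; omega)]
  · simp only [point, ruleCells, xcell, ycell, wcell_pt _ _ _ M.nB_pos]

theorem point_fst_mem {X : SCfg} (hX : M.SValid X) {a b : ℕ} (ha : a * M.nE ≤ X.c)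
    (hb : X.c + 1 ≤ b * M.nE) :
    (a : ℝ) / 5 ≤ (M.point X).1 ∧ (M.point X).1 ≤ (b : ℝ) / 5 := by
  obtain ⟨h0, h1⟩ := rxi_mem M.two_lt_nB (M.digit_le hX.1)
  have hE : (1 : ℝ) ≤ M.nE := by exact_mod_cast M.nE_pos
  have ha' : (a : ℝ) * M.nE ≤ X.c := by exact_mod_cast ha
  have hb' : (X.c : ℝ) + 1 ≤ b * M.nE := by exact_mod_cast hb
  simp only [point, Nat.cast_mul, Nat.cast_ofNat]
  constructor
  · rw [div_le_div_iff₀ (by norm_num) (by linarith)]
    linarith
  · rw [div_le_div_iff₀ (by linarith) (by norm_num)]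
    linarith

theorem point_start (w : List ℕ) :
    M.point ⟨M.startBlock, [], M.inputWord w⟩ = fracPoint (M.startPoint w) := by
  have hB : M.nB = 2 * M.nK + 1 := rfl
  have hK : (M.nK : ℝ) ≠ 0 := by exact_mod_cast M.nK_pos.ne'
  have hE : (M.nE : ℝ) ≠ 0 := by exact_mod_cast M.nE_pos.ne'
  have e0 : rxi M.nB [] = 1 / (2 * (M.nK : ℝ)) := by
    rw [rxi, hB]; push_cast; ring
  have e1 := rxi_append M.nB_pos (M.inputWord w) []
  rw [List.append_nil, e0, show (M.inputWord w).length = w.length from List.length_map _] at e1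
  have hP : (M.nB : ℝ) ^ w.length ≠ 0 := pow_ne_zero _ (by exact_mod_cast M.nB_pos.ne')
  simp only [point, fracPoint, startPoint, e0, e1, Nat.cast_add, Nat.cast_mul, Nat.cast_pow,
    Nat.cast_ofNat, Nat.cast_one, Prod.mk.injEq]
  constructor <;> (field_simp; try ring)

end Raw

/-! ## The simulation -/

variable (M : Machine)

/-- The raw machine of a machine. -/
def Machine.raw : Raw := Raw.ofCode M.code

theorem Machine.raw_nA : M.raw.nA = M.symbols + 1 := rfl

theorem Machine.raw_nQ : M.raw.nQ = M.states + 1 := rfl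

theorem Machine.raw_isHalt (q : Fin M.states) : M.raw.IsHalt q.val ↔ M.halting q = true := by
  simp [Raw.IsHalt, Machine.raw, Raw.ofCode, Machine.code]

theorem Machine.raw_entry (q : Fin M.states) (s : Fin (M.symbols + 1)) :
    M.raw.entry q.val s.val =
      ((M.trans q s).1.val, (M.trans q s).2.1.val, (M.trans q s).2.2.toNat) := by
  simp only [Raw.entry, Machine.raw, Raw.ofCode, Machine.code, List.getD_eq_getElem?_getD,
    List.getElem?_ofFn, q.isLt, s.isLt, dite_true, Option.getD_some, Fin.eta]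

/-- The two-stack configuration `X` represents the machine configuration `C`. -/
def Rep (C : M.Cfg) (X : SCfg) : Prop :=
  X.c = M.raw.bQ C.state.val ∧ M.raw.SValid X ∧ X.R.headD 0 < M.raw.nA ∧
    (∀ i : ℕ, M.raw.sym X.L i = (C.tape (C.pos - 1 - i)).val) ∧
    ∀ i : ℕ, M.raw.sym X.R i = (C.tape (C.pos + i)).val

theorem rep_init (w : List (Fin (M.symbols + 1))) :
    Rep M (M.init w) ⟨M.raw.startBlock, [], M.raw.inputWord (w.map Fin.val)⟩ := by
  have he : M.raw.inputWord (w.map Fin.val) = w.map Fin.val := by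
    simp only [Raw.inputWord, List.map_map, Machine.raw_nA]
    refine List.map_congr_left fun a _ => ?_
    exact Nat.mod_eq_of_lt a.isLt
  have hlt : ∀ a ∈ w.map Fin.val, a < M.raw.nA := by
    intro a ha
    obtain ⟨b, _, rfl⟩ := List.mem_map.1 ha
    exact b.isLt
  have hq : M.raw.start % M.raw.nQ = M.start.val :=
    Nat.mod_eq_of_lt (Nat.lt_succ_of_lt M.start.isLt)
  refine ⟨?_, ⟨by simp, fun a ha => ?_⟩, ?_, fun i => ?_, fun i => ?_⟩
  · simp only [Raw.startBlock, hq]; rfl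
  · rw [he] at ha
    exact Nat.lt_of_lt_of_le (hlt a ha) M.raw.nA_le_nK
  · simp only [he]
    rcases w with _ | ⟨a, l⟩
    · exact M.raw.nA_pos
    · exact a.isLt
  · have : ¬(0 : ℤ) ≤ 0 - 1 - i := by omega
    simp [Raw.sym, Machine.init, show ¬(i : ℤ) ≤ -1 by omega]
  · simp only [he, Raw.sym, Machine.init, zero_add, Int.natCast_nonneg, if_true, Int.toNat_natCast]
    rw [List.filter_eq_self.2 (fun a ha => by simpa using hlt a ha)]
    exact List.getD_map (f := Fin.val) (l := w) (d := (0 : Fin (M.symbols + 1))) ..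

theorem update_val (C : M.Cfg) (b : Fin (M.symbols + 1)) (z : ℤ) :
    (Function.update C.tape C.pos b z).val = if z = C.pos then b.val else (C.tape z).val := by
  rw [Function.update_apply]
  split_ifs <;> rfl

/-- One machine step is realised by finitely many steps of the two-stack system. -/
theorem simulate {C : M.Cfg} {X : SCfg} (h : Rep M C X) (hC : ¬M.halting C.state = true) :
    ∃ Y, Relation.TransGen M.raw.AStep X Y ∧ Rep M (M.step C) Y := by
  obtain ⟨hc, hX, hhd, hL, hR⟩ := h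
  obtain ⟨c, L, R⟩ := X
  dsimp only at hc hX hhd hL hR
  subst hc
  obtain ⟨hLK, hRK⟩ := hX
  dsimp only at hLK hRK
  set q := C.state with hqdef
  set a := C.tape C.pos with hadef
  have hh : ¬M.raw.IsHalt q.val := fun e => hC ((M.raw_isHalt q).1 e)
  have hqn : q.val < M.raw.nQ := Nat.lt_succ_of_lt q.isLt
  have ha : a.val < M.raw.nA := a.isLt
  have hj := M.raw.jIdx_lt hqn ha
  have hjQ : M.raw.jQ (q.val * M.raw.nA + a.val) = q.val := M.raw.jQ_jIdx ha
  have hjA : M.raw.jA (q.val * M.raw.nA + a.val) = a.val := M.raw.jA_jIdx ha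
  generalize q.val * M.raw.nA + a.val = j at hj hjQ hjA
  have hhj : ¬M.raw.IsHalt (M.raw.jQ j) := by rw [hjQ]; exact hh
  have hnext : M.raw.jNext j = (M.trans q a).1.val := by
    rw [Raw.jNext, hjQ, hjA, Raw.nextState, M.raw_entry]
    exact Nat.mod_eq_of_lt (Nat.lt_succ_of_lt (M.trans q a).1.isLt)
  have hwr : M.raw.jWr j = (M.trans q a).2.1.val := by
    rw [Raw.jWr, hjQ, hjA, Raw.writeSym, M.raw_entry]
    exact Nat.mod_eq_of_lt (M.trans q a).2.1.isLt
  have hdir : M.raw.moveDir (M.raw.jQ j) (M.raw.jA j) = (M.trans q a).2.2.toNat % 3 := by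
    rw [hjQ, hjA, Raw.moveDir, M.raw_entry]
  have htop : R.headD 0 = a.val := by
    have e : M.raw.sym (R.headD 0 :: R.tail) 0 = R.headD 0 := M.raw.sym_cons hhd _
    rw [M.raw.sym_pad, hR 0] at e
    rw [← e, hadef]
    simp
  have hRt : ∀ i : ℕ, M.raw.sym R.tail i = (C.tape (C.pos + (i + 1 : ℕ))).val := fun i => by
    rw [← hR (i + 1), ← M.raw.sym_pad R (i + 1), M.raw.sym_cons_succ hhd]
  have hwlt : M.raw.jWr j < M.raw.nA := M.raw.jWr_lt j
  have hwK : M.raw.jWr j < M.raw.nK := Nat.lt_of_lt_of_le hwlt M.raw.nA_le_nK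
  have hL1 : ∀ x ∈ L.headD 0 :: L.tail, x < M.raw.nK := by
    intro x hx
    rcases List.mem_cons.1 hx with rfl | hx
    · exact M.raw.headD_lt hLK
    · exact M.raw.tail_lt hLK x hx
  have hstep : M.step C = ⟨(M.trans q a).1, C.pos + (M.trans q a).2.2.shift,
      Function.update C.tape C.pos (M.trans q a).2.1⟩ := by
    rw [Machine.step, if_neg hC]
  rcases hmv : (M.trans q a).2.2 with _ | _ | _ <;> rw [hmv] at hdir hstep <;>
    simp only [Move.toNat, Move.shift] at hdir hstep <;> norm_num at hdir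
  · -- left
    have s1 : M.raw.AStep ⟨M.raw.bQ q.val, L, R⟩
        ⟨M.raw.bL j, L.headD 0 :: L.tail, M.raw.jWr j :: R.tail⟩ := by
      refine ⟨⟨M.raw.bQ (M.raw.jQ j), L.headD 0, M.raw.jA j, M.raw.bL j, [L.headD 0],
        [M.raw.jWr j]⟩, M.raw.mem_rules hj ?_, by rw [hjQ], rfl, by rw [hjA]; exact htop.symm, rfl⟩
      rw [Raw.group, if_neg hhj, if_pos hdir]
      exact List.mem_append_left _
        (List.mem_map.2 ⟨_, List.mem_range.2 (M.raw.headD_lt hLK), rfl⟩)
    obtain ⟨L', R', ht, hd', h0, hi⟩ := M.raw.leftSearch hj hhj hdir _ (M.raw.jWr j :: R.tail) hL1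
      (List.forall_mem_cons.2 ⟨hwK, M.raw.tail_lt hRK⟩)
    have hY := (Relation.TransGen.head s1 ht)
    refine ⟨_, hY, ?_⟩
    have hv : M.raw.SValid ⟨M.raw.bQ (M.raw.jNext j), L', R'⟩ :=
      M.raw.transGen_valid hY ⟨hLK, hRK⟩
    rw [hstep]
    refine ⟨by rw [hnext], hv, hd', fun i => ?_, fun i => ?_⟩
    · simp only [(hi i).1, M.raw.sym_pad, hL, update_val, Nat.cast_add, Nat.cast_one]
      rw [if_neg (by omega)]
      congr 2; ring
    · rcases i with _ | _ | i
      · simp only [h0, M.raw.sym_pad, hL, update_val, Nat.cast_zero]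
        rw [if_neg (by omega)]
        congr 2
      · simp only [(hi 0).2, M.raw.sym_cons hwlt, update_val, Nat.zero_add, Nat.cast_one]
        rw [if_pos (by ring), hwr]
      · simp only [(hi (i + 1)).2, M.raw.sym_cons_succ hwlt, hRt, update_val, Nat.cast_add,
          Nat.cast_one]
        rw [if_neg (by omega)]
        congr 2; ring
  · -- right
    have s1 : M.raw.AStep ⟨M.raw.bQ q.val, L, R⟩
        ⟨M.raw.bR j, M.raw.jWr j :: L.headD 0 :: L.tail, R.tail⟩ := by
      refine ⟨⟨M.raw.bQ (M.raw.jQ j), L.headD 0, M.raw.jA j, M.raw.bR j,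
        [M.raw.jWr j, L.headD 0], []⟩, M.raw.mem_rules hj ?_, by rw [hjQ], rfl,
        by rw [hjA]; exact htop.symm, rfl⟩
      rw [Raw.group, if_neg hhj, if_neg (by omega), if_pos hdir]
      exact List.mem_append_left _
        (List.mem_map.2 ⟨_, List.mem_range.2 (M.raw.headD_lt hLK), rfl⟩)
    obtain ⟨L', R', ht, hd', hi⟩ := M.raw.rightSearch hj hhj hdir R.tail
      (M.raw.jWr j :: L.headD 0 :: L.tail) (List.forall_mem_cons.2 ⟨hwK, hL1⟩)
      (M.raw.tail_lt hRK)
    have hY := (Relation.TransGen.head s1 ht)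
    refine ⟨_, hY, ?_⟩
    have hv : M.raw.SValid ⟨M.raw.bQ (M.raw.jNext j), L', R'⟩ :=
      M.raw.transGen_valid hY ⟨hLK, hRK⟩
    rw [hstep]
    refine ⟨by rw [hnext], hv, hd', fun i => ?_, fun i => ?_⟩
    · rcases i with _ | i
      · simp only [(hi 0).1, M.raw.sym_cons hwlt, update_val, Nat.cast_zero]
        rw [if_pos (by ring), hwr]
      · simp only [(hi (i + 1)).1, M.raw.sym_cons_succ hwlt, M.raw.sym_pad, hL, update_val,
          Nat.cast_add, Nat.cast_one]
        rw [if_neg (by omega)]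
        congr 2; ring
    · simp only [(hi i).2, hRt, update_val, Nat.cast_add, Nat.cast_one]
      rw [if_neg (by omega)]
      congr 2; ring
  · -- stay
    have s1 : M.raw.AStep ⟨M.raw.bQ q.val, L, R⟩ ⟨M.raw.bQ (M.raw.jNext j),
        L.headD 0 :: L.tail, M.raw.jWr j :: M.raw.hItem j :: R.tail⟩ := by
      refine ⟨⟨M.raw.bQ (M.raw.jQ j), L.headD 0, M.raw.jA j, M.raw.bQ (M.raw.jNext j),
        [L.headD 0], [M.raw.jWr j, M.raw.hItem j]⟩, M.raw.mem_rules hj ?_, by rw [hjQ], rfl,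
        by rw [hjA]; exact htop.symm, rfl⟩
      rw [Raw.group, if_neg hhj, if_neg (by omega), if_neg (by omega)]
      exact List.mem_map.2 ⟨_, List.mem_range.2 (M.raw.headD_lt hLK), rfl⟩
    refine ⟨_, .single s1, ?_⟩
    rw [hstep]
    refine ⟨by rw [hnext], M.raw.astep_valid s1 ⟨hLK, hRK⟩, hwlt, fun i => ?_, fun i => ?_⟩
    · simp only [M.raw.sym_pad, hL, update_val]
      rw [if_neg (by omega)]
      congr 2; ring
    · rcases i with _ | i
      · simp only [M.raw.sym_cons hwlt, update_val, Nat.cast_zero]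
        rw [if_pos (by ring), hwr]
      · simp only [M.raw.sym_cons_succ hwlt, M.raw.sym_hist (M.raw.hItem_ge j), hRt, update_val,
          Nat.cast_add, Nat.cast_one]
        rw [if_neg (by omega)]
        congr 2; ring

/-- A chain of two-stack steps gives a finite orbit of the pieces. -/
theorem orbit_of_chain {X Y : SCfg} (h : Relation.ReflTransGen M.raw.AStep X Y)
    (hX : M.raw.SValid X) :
    M.raw.SValid Y ∧ ∃ (n : ℕ) (p : ℕ → ℝ × ℝ), p 0 = M.raw.point X ∧ p n = M.raw.point Y ∧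
      ∀ k < n, PieceStep M.raw.pieces (p k) (p (k + 1)) := by
  induction h with
  | refl => exact ⟨hX, 0, fun _ => M.raw.point X, rfl, rfl, fun k hk => absurd hk (by omega)⟩
  | @tail Z W _ hs ih =>
    obtain ⟨hZ, n, p, h0, hn, hp⟩ := ih
    refine ⟨M.raw.astep_valid hs hZ, n + 1,
      fun k => if k ≤ n then p k else M.raw.point W, by simp [h0], by simp, fun k hk => ?_⟩
    rcases Nat.lt_succ_iff_lt_or_eq.1 hk with h | h
    · simp [Nat.le_of_lt h, Nat.succ_le_of_lt h, hp k h]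
    · subst h
      simp [hn, M.raw.pieceStep_of_aStep hs hZ]

theorem reach_halt : ∀ (n : ℕ) (C : M.Cfg) (X : SCfg), Rep M C X →
    M.halting (M.step^[n] C).state = true →
    ∃ Y, Relation.ReflTransGen M.raw.AStep X Y ∧ Y.c = 3 * M.raw.nE := by
  intro n
  induction n with
  | zero =>
    intro C X h hn
    exact ⟨X, .refl, h.1.trans (if_pos ((M.raw_isHalt _).2 hn))⟩
  | succ n ih =>
    intro C X h hn
    by_cases hC : M.halting C.state = true
    · exact ⟨X, .refl, by rw [h.1, Raw.bQ, if_pos ((M.raw_isHalt _).2 hC)]⟩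
    · obtain ⟨Y, hY, hR⟩ := simulate M h hC
      rw [Function.iterate_succ_apply] at hn
      obtain ⟨Z, hZ, hc⟩ := ih _ _ hR hn
      exact ⟨Z, hY.to_reflTransGen.trans hZ, hc⟩

/-- Two-stack configurations on the way of a non-halting run. -/
def Running (X : SCfg) : Prop :=
  M.raw.SValid X ∧ ∃ (C : M.Cfg) (Y : SCfg), Relation.ReflTransGen M.raw.AStep X Y ∧ Rep M C Y ∧
    ∀ n, ¬M.halting (M.step^[n] C).state = true

theorem Running.next {X : SCfg} (h : Running M X) :
    ∃ X', M.raw.AStep X X' ∧ Running M X' := by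
  obtain ⟨hX, C, Y, hY, hR, hn⟩ := h
  rcases hY.cases_head with rfl | ⟨X', hs, hY'⟩
  · obtain ⟨Z, hZ, hR'⟩ := simulate M hR (hn 0)
    obtain ⟨X', hs, hZ'⟩ := Relation.TransGen.head'_iff.1 hZ
    refine ⟨X', hs, M.raw.astep_valid hs hX, _, Z, hZ', hR', fun n => ?_⟩
    rw [← Function.iterate_succ_apply]
    exact hn (n + 1)
  · exact ⟨X', hs, M.raw.astep_valid hs hX, C, Y, hY', hR, hn⟩

theorem Raw.halts_orbit (w : List (Fin (M.symbols + 1))) (h : M.Halts w) :
    ∃ (n : ℕ) (p : ℕ → ℝ × ℝ), p 0 = fracPoint (M.raw.startPoint (w.map Fin.val)) ∧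
      (∀ k < n, PieceStep M.raw.pieces (p k) (p (k + 1))) ∧
      3 / 5 ≤ (p n).1 ∧ (p n).1 ≤ 4 / 5 := by
  obtain ⟨n, hn⟩ := h
  obtain ⟨Y, hY, hc⟩ := reach_halt M n _ _ (rep_init M w) hn
  obtain ⟨hv, m, p, h0, hm, hp⟩ := orbit_of_chain M hY (rep_init M w).2.1
  refine ⟨m, p, by rw [h0, M.raw.point_start], hp, ?_⟩
  rw [hm]
  have := M.raw.nE_pos
  simpa using M.raw.point_fst_mem hv (a := 3) (b := 4) (by omega) (by omega)

theorem Raw.nonhalts_orbit (w : List (Fin (M.symbols + 1))) (h : ¬M.Halts w) :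
    ∃ p : ℕ → ℝ × ℝ, p 0 = fracPoint (M.raw.startPoint (w.map Fin.val)) ∧
      ∀ k, PieceStep M.raw.pieces (p k) (p (k + 1)) ∧ 0 ≤ (p k).1 ∧ (p k).1 ≤ 2 / 5 := by
  have h0 : Running M ⟨M.raw.startBlock, [], M.raw.inputWord (w.map Fin.val)⟩ :=
    ⟨(rep_init M w).2.1, _, _, .refl, rep_init M w, fun n hn => h ⟨n, hn⟩⟩
  choose f hf using fun X : {X : SCfg // Running M X} => Running.next M X.2
  let g : {X : SCfg // Running M X} → {X : SCfg // Running M X} := fun X => ⟨f X, (hf X).2⟩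
  refine ⟨fun k => M.raw.point (g^[k] ⟨_, h0⟩).1, by simp [M.raw.point_start], fun k => ?_⟩
  simp only [Function.iterate_succ_apply']
  generalize g^[k] ⟨_, h0⟩ = X
  refine ⟨M.raw.pieceStep_of_aStep (hf X).1 X.2.1, ?_⟩
  obtain ⟨r, hr, hc, -⟩ := (hf X).1
  have hb := (M.raw.rule_wf hr).1
  simpa using M.raw.point_fst_mem X.2.1 (a := 0) (b := 2) (by omega) (by omega)

end Vale.Agent.P113
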