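import Vale.Agent.P113.Defs

/-!
The statement proved for P113.
-/

namespace Vale.Agent.P113

set_option synthInstance.maxSize 2048

/-- A force compiler with fixed start point, box and time `T0`, detecting halting for every
viscosity. -/
def DetectsHalting (astar lo hi : Fin 3 → ℚ) (T0 : ℝ) (C : MachineCode × List ℕ → Force) : Prop :=
  ∀ (M : Machine) (w : List (Fin (M.symbols + 1))),
    let F := C (M.code, w.map Fin.val)
    (∀ i, ∀ τ ∈ F.component i, τ.Valid) ∧
    (∀ i, ∀ τ ∈ F.component i, τ.isPeriodic = false →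
      ∀ (nu : ℝ) (t : ℝ), T0 ≤ t → ∀ x, termVal nu τ t x = 0) ∧
    (∀ (w' : List (Fin (M.symbols + 1))) (i : Fin 3),
      (F.component i).filter Term.isPeriodic =
        ((C (M.code, w'.map Fin.val)).component i).filter Term.isPeriodic) ∧
    ∀ nu : ℝ, 0 < nu →
      ((∀ n : ℕ, ContDiff ℝ n fun z : ℝ × V3 => forceVal nu F z.1 z.2) ∧
        ∀ t, Periodic3 (forceVal nu F t)) ∧
      ∃ (u : ℝ → V3 → V3) (p : ℝ → V3 → ℝ),
        (∀ n : ℕ, ContDiff ℝ n fun z : ℝ × V3 => u z.1 z.2) ∧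
        (∀ n : ℕ, ContDiff ℝ n fun z : ℝ × V3 => p z.1 z.2) ∧
        (∀ x, u 0 x = 0) ∧
        (∀ T : ℝ, 0 < T → IsClassicalSolution nu (forceVal nu F) T u p) ∧
        (∀ T : ℝ, 0 < T → ∀ (v : ℝ → V3 → V3) (q : ℝ → V3 → ℝ),
          IsClassicalSolution nu (forceVal nu F) T v q → (∀ x, v 0 x = 0) →
            ∀ t ∈ Set.Icc 0 T, ∀ x, v t x = u t x ∧ q t x = p t x) ∧
        (∃ X, IsTrajectory u (fun i => (astar i : ℝ)) X) ∧
        ∀ X, IsTrajectory u (fun i => (astar i : ℝ)) X →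
          ((∃ t : ℝ, 0 ≤ t ∧ InBox lo hi (X t)) ↔ M.Halts w)

/-- The main statement: a single computable compiler works for all viscosities. -/
def MainStatement : Prop :=
  ∃ (astar lo hi : Fin 3 → ℚ) (T0 : ℝ) (C : MachineCode × List ℕ → Force),
    (∀ i, lo i < hi i) ∧ Computable C ∧ DetectsHalting astar lo hi T0 C

end Vale.Agent.P113
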