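import Vale.Agent.P113.Defs

/-!
Motion through consecutive straight segments driven by successive stages.
-/

namespace Vale.Agent.P113

open Finset

/-- Data of successive stages: speeds `th`, clocks `Th`. -/
structure Stages (N : ℕ) where
  th : ℕ → ℝ → ℝ
  Th : ℕ → ℝ → ℝ
  deriv : ∀ k, k < N → ∀ t, HasDerivAt (Th k) (th k t) t
  mem : ∀ k, k < N → ∀ t, 0 ≤ Th k t ∧ Th k t ≤ 1
  order : ∀ j k, j < k → k < N → ∀ t, Th j t = 1 ∨ Th k t = 0
  before : ∀ j k, j < k → k < N → ∀ t, th k t ≠ 0 → Th j t = 1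
  after : ∀ j k, j < k → k < N → ∀ t, th j t ≠ 0 → Th k t = 0
  excl : ∀ j k, j < N → k < N → j ≠ k → ∀ t, th k t ≠ 0 → th j t = 0

variable {N : ℕ}

/-- The broken line through `Q` driven by the clocks. -/
def Stages.curve (S : Stages N) (Q : ℕ → V3) (t : ℝ) : V3 :=
  Q 0 + ∑ k ∈ range N, S.Th k t • (Q (k + 1) - Q k)

theorem Stages.hasDerivAt_curve (S : Stages N) (Q : ℕ → V3) (t : ℝ) :
    HasDerivAt (S.curve Q) (∑ k ∈ range N, S.th k t • (Q (k + 1) - Q k)) t :=
  (HasDerivAt.fun_sum fun k hk => (S.deriv k (mem_range.1 hk) t).smul_const _).const_add _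

theorem sum_telescope (Q : ℕ → V3) : ∀ k, Q 0 + ∑ j ∈ range k, (Q (j + 1) - Q j) = Q k := by
  intro k
  rw [sum_range_sub]
  abel

theorem Stages.curve_eq (S : Stages N) (Q : ℕ → V3) (t : ℝ) {k : ℕ} (hk : k < N)
    (h1 : ∀ j, j < k → S.Th j t = 1) (h0 : ∀ j, k < j → j < N → S.Th j t = 0) :
    S.curve Q t = Q k + S.Th k t • (Q (k + 1) - Q k) := by
  obtain ⟨m, rfl⟩ : ∃ m, N = (k + 1) + m := ⟨N - (k + 1), by omega⟩
  rw [Stages.curve, sum_range_add, sum_range_succ]
  have e1 : ∑ j ∈ range k, S.Th j t • (Q (j + 1) - Q j) = ∑ j ∈ range k, (Q (j + 1) - Q j) :=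
    sum_congr rfl fun j hj => by rw [h1 j (mem_range.1 hj), one_smul]
  have e2 : ∑ x ∈ range m, S.Th (k + 1 + x) t • (Q (k + 1 + x + 1) - Q (k + 1 + x)) = 0 :=
    sum_eq_zero fun j hj => by
      rw [h0 (k + 1 + j) (by omega) (by have := mem_range.1 hj; omega), zero_smul]
  rw [e1, e2, add_zero, ← add_assoc, sum_telescope]

/-- The curve solves the equation of a field which realises each segment during its stage. -/
theorem Stages.curve_solves (S : Stages N) (Q : ℕ → V3) (F : ℕ → V3 → V3)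
    (hF : ∀ k, k < N → ∀ s : ℝ, 0 ≤ s → s ≤ 1 →
      F k (Q k + s • (Q (k + 1) - Q k)) = Q (k + 1) - Q k) (t : ℝ) :
    HasDerivAt (S.curve Q) (∑ k ∈ range N, S.th k t • F k (S.curve Q t)) t := by
  refine (S.hasDerivAt_curve Q t).congr_deriv (sum_congr rfl fun k hk => ?_)
  have hk' := mem_range.1 hk
  by_cases hth : S.th k t = 0
  · rw [hth, zero_smul, zero_smul]
  · rw [S.curve_eq Q t hk' (fun j hj => S.before j k hj hk' t hth)
      (fun j hj hjN => S.after k j hj hjN t hth),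
      hF k hk' _ (S.mem k hk' t).1 (S.mem k hk' t).2]

/-- The curve is always on one of the segments. -/
theorem Stages.curve_mem (S : Stages N) (Q : ℕ → V3) (hN : 0 < N) (t : ℝ) :
    ∃ k, k < N ∧ ∃ s : ℝ, 0 ≤ s ∧ s ≤ 1 ∧ S.curve Q t = Q k + s • (Q (k + 1) - Q k) := by
  by_cases h : ∃ k, k < N ∧ S.Th k t ≠ 1
  · let k := Nat.find h
    obtain ⟨hk, hne⟩ := Nat.find_spec h
    refine ⟨k, hk, S.Th k t, (S.mem k hk t).1, (S.mem k hk t).2, S.curve_eq Q t hk ?_ ?_⟩
    · intro j hj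
      by_contra hj'
      exact Nat.find_min h hj ⟨hj.trans hk, hj'⟩
    · intro j hj hjN
      exact (S.order k j hj hjN t).resolve_left hne
  · push Not at h
    refine ⟨N - 1, by omega, S.Th (N - 1) t, (S.mem _ (by omega) t).1, (S.mem _ (by omega) t).2,
      S.curve_eq Q t (by omega) (fun j hj => h j (by omega)) (fun j hj hjN => by omega)⟩

theorem Stages.curve_of_zero (S : Stages N) (Q : ℕ → V3) (t : ℝ)
    (h : ∀ k, k < N → S.Th k t = 0) : S.curve Q t = Q 0 := by
  rw [Stages.curve, sum_eq_zero (fun k hk => by rw [h k (mem_range.1 hk), zero_smul]), add_zero]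

theorem Stages.curve_of_one (S : Stages N) (Q : ℕ → V3) (t : ℝ)
    (h : ∀ k, k < N → S.Th k t = 1) : S.curve Q t = Q N := by
  rw [Stages.curve, sum_congr rfl (fun k hk => by rw [h k (mem_range.1 hk), one_smul]),
    sum_telescope]

end Vale.Agent.P113
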