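import Vale.Agent.P113.Interface

/-!
The velocity compiler: eleven shear stages (two for loading, nine for one step of the machine).
-/

namespace Vale.Agent.P113

set_option synthInstance.maxSize 2048

/-- The rational `n / d` for `0 < d`. -/
def fracQ (n d : ℕ) : RatCode := (n, 0, d - 1)

/-- Negation of a coded rational. -/
def negQ (q : RatCode) : RatCode := (q.2.1, q.1, q.2.2)

/-- The bump `s ^ k * pi_10 (8 d s - (8 n - 1))` belonging to the cell `(n, d)`. -/
def cellBump (c : Cell) (k : ℕ) : Bump := (Sum.inr (10, 0, 0), k, (8 * c.2, 0, 0), (8 * c.1, 1, 0))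

/-- Monomials of the affine map taking the cell `c` onto the cell `c'`. -/
def linMons (c c' : Cell) : List (RatCode × Bump) :=
  [((c'.1, c.1, c'.2 - 1), cellBump c 0), ((c.2, 0, c'.2 - 1), cellBump c 1)]

/-- Change of sign of all monomials. -/
def negMons (l : List (RatCode × Bump)) : List (RatCode × Bump) :=
  l.map fun e => (negQ e.1, e.2)

/-- Spatial parts of a term. -/
abbrev Space := List Bump × List Bump × List Bump

/-- A term with time profile `rho (a t - b)` of unit integral and normalised space bumps. -/
def normTerm (per : Bool) (a b : ℕ) (q : RatCode) (h : Space) : Term :=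
  (((a * q.1, a * q.2.1, q.2.2), 0, (0, 1 + h.1.length + h.2.1.length + h.2.2.length), []),
    [(per, (Sum.inl 0, 0, (a, 0, 0), (b, 0, 0)))], h)

/-- Time centre numerator of the periodic stage `k`. -/
def stageB (k : ℕ) : ℕ := 2 * (11 + k)

/-- The periodic terms of stage `k` with monomials `l`. -/
def stageTerms (k : ℕ) (l : List (RatCode × Bump)) (emb : Bump → Space) : List Term :=
  l.map fun e => normTerm true 40 (stageB k) e.1 (emb e.2)

/-- The private cell number `i` among `m`. -/
def slot (m i : ℕ) : Cell := (2 * i + 1, 4 * (m + 1))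

/-- A function of `z` only. -/
def embZ (g : Bump) : Space := ([], [], [g])

/-- A function of `x` only. -/
def embX (g : Bump) : Space := ([g], [], [])

/-- A function of `x` times the box of `c` in `y`. -/
def embXbox (c : Cell) (g : Bump) : Space := ([g], [cellBump c 0], [])

/-- The box of `c` in `x` times a function of `y`. -/
def embBoxY (c : Cell) (g : Bump) : Space := ([cellBump c 0], [g], [])

/-- Terms of the first component contributed by a piece. -/
def pieceX (S : Cell) (P : Piece) : List Term :=
  stageTerms 1 (linMons S S ++ negMons (linMons S P.1)) embZ ++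
    stageTerms 7 (linMons S P.2.2.1 ++ negMons (linMons S S)) embZ

/-- Terms of the second component contributed by a piece. -/
def pieceY (S : Cell) (P : Piece) : List Term :=
  stageTerms 4 (linMons S P.2.2.2 ++ negMons (linMons S P.2.1)) embZ

/-- Terms of the third component contributed by a piece. -/
def pieceZ (S : Cell) (P : Piece) : List Term :=
  stageTerms 0 (linMons P.1 S) (embXbox P.2.1) ++
  stageTerms 2 (negMons (linMons S S)) embX ++
  stageTerms 3 (linMons P.2.1 S) (embBoxY S) ++
  stageTerms 5 (negMons (linMons P.2.2.2 S)) (embBoxY S) ++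
  stageTerms 6 (linMons S S) embX ++
  stageTerms 8 (negMons (linMons P.2.2.1 S)) (embXbox P.2.2.2)

/-- All pieces, each with its slot. -/
def allPieces (f : Cell → Piece → List Term) (l : List Piece) : List Term :=
  (List.range l.length).flatMap fun i =>
    f (slot l.length i) (l.getD i ((0, 0), (0, 0), (0, 0), (0, 0)))

/-- The velocity field. -/
def velocity (e : List Piece × ((ℕ × ℕ) × (ℕ × ℕ))) : Force :=
  (normTerm false 16 2 (fracQ e.2.1.1 e.2.1.2) ([], [], []) :: allPieces pieceX e.1,
    normTerm false 16 4 (fracQ e.2.2.1 e.2.2.2) ([], [], []) :: allPieces pieceY e.1,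
    allPieces pieceZ e.1)

theorem primrec_fracQ : Primrec₂ fracQ :=
  (Primrec.fst.pair ((Primrec.const 0).pair (Primrec.pred.comp Primrec.snd))).to₂

theorem primrec_negQ : Primrec negQ :=
  ((Primrec.fst.comp Primrec.snd).pair (Primrec.fst.pair (Primrec.snd.comp Primrec.snd)))

theorem primrec_cellBump : Primrec₂ cellBump := by
  have h8 : Primrec fun n : ℕ => (8 * n : ℕ) := Primrec.nat_mul.comp (Primrec.const 8) Primrec.id
  exact ((Primrec.const (Sum.inr ((10, 0, 0) : RatCode))).pair (Primrec.snd.pair
    (((h8.comp (Primrec.snd.comp Primrec.fst)).pair (Primrec.const (0, 0))).pair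
      ((h8.comp (Primrec.fst.comp Primrec.fst)).pair (Primrec.const (1, 0)))))).to₂

theorem primrec_linMons : Primrec₂ linMons := by
  have c1 : Primrec fun p : Cell × Cell => p.1.1 := Primrec.fst.comp Primrec.fst
  have c2 : Primrec fun p : Cell × Cell => p.1.2 := Primrec.snd.comp Primrec.fst
  have d1 : Primrec fun p : Cell × Cell => p.2.1 := Primrec.fst.comp Primrec.snd
  have d2 : Primrec fun p : Cell × Cell => p.2.2 - 1 :=
    Primrec.pred.comp (Primrec.snd.comp Primrec.snd)
  have b : ∀ k, Primrec fun p : Cell × Cell => cellBump p.1 k := fun k =>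
    primrec_cellBump.comp Primrec.fst (Primrec.const k)
  exact (Primrec.list_cons.comp ((d1.pair (c1.pair d2)).pair (b 0))
    (Primrec.list_cons.comp ((c2.pair ((Primrec.const 0).pair d2)).pair (b 1))
      (Primrec.const []))).to₂

theorem primrec_negMons : Primrec negMons :=
  Primrec.list_map Primrec.id
    ((primrec_negQ.comp (Primrec.fst.comp Primrec.snd)).pair (Primrec.snd.comp Primrec.snd)).to₂

theorem primrec_normTerm (per : Bool) (a b : ℕ) : Primrec₂ (normTerm per a b) := by
  have hmul : Primrec fun n : ℕ => (a * n : ℕ) := Primrec.nat_mul.comp (Primrec.const a) Primrec.id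
  have hl : Primrec fun h : Space => 1 + h.1.length + h.2.1.length + h.2.2.length :=
    Primrec.nat_add.comp (Primrec.nat_add.comp
      (Primrec.nat_add.comp (Primrec.const 1) (Primrec.list_length.comp Primrec.fst))
      (Primrec.list_length.comp (Primrec.fst.comp Primrec.snd)))
      (Primrec.list_length.comp (Primrec.snd.comp Primrec.snd))
  exact ((((hmul.comp (Primrec.fst.comp Primrec.fst)).pair
      ((hmul.comp (Primrec.fst.comp (Primrec.snd.comp Primrec.fst))).pair
        (Primrec.snd.comp (Primrec.snd.comp Primrec.fst)))).pair ((Primrec.const 0).pair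
      (((Primrec.const 0).pair (hl.comp Primrec.snd)).pair (Primrec.const [])))).pair
    ((Primrec.const [(per, ((Sum.inl 0, 0, (a, 0, 0), (b, 0, 0)) : Bump))]).pair
      Primrec.snd)).to₂

theorem primrec_stageTerms {α : Type} [Primcodable α] (k : ℕ) {l : α → List (RatCode × Bump)}
    {emb : α → Bump → Space} (hl : Primrec l) (he : Primrec₂ emb) :
    Primrec fun a => stageTerms k (l a) (emb a) :=
  Primrec.list_map hl ((primrec_normTerm true 40 (stageB k)).comp
    (Primrec.fst.comp Primrec.snd)
    (he.comp Primrec.fst (Primrec.snd.comp Primrec.snd))).to₂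

theorem primrec_embZ : Primrec embZ :=
  (Primrec.const []).pair ((Primrec.const []).pair
    (Primrec.list_cons.comp Primrec.id (Primrec.const [])))

theorem primrec_embX : Primrec embX :=
  (Primrec.list_cons.comp Primrec.id (Primrec.const [])).pair (Primrec.const ([], []))

theorem primrec_embXbox : Primrec₂ embXbox :=
  ((Primrec.list_cons.comp Primrec.snd (Primrec.const [])).pair
    ((Primrec.list_cons.comp (primrec_cellBump.comp Primrec.fst (Primrec.const 0))
      (Primrec.const [])).pair (Primrec.const []))).to₂

theorem primrec_embBoxY : Primrec₂ embBoxY :=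
  ((Primrec.list_cons.comp (primrec_cellBump.comp Primrec.fst (Primrec.const 0))
    (Primrec.const [])).pair
    ((Primrec.list_cons.comp Primrec.snd (Primrec.const [])).pair (Primrec.const []))).to₂

theorem primrec₂_const_left {α β γ : Type} [Primcodable α] [Primcodable β] [Primcodable γ]
    {f : β → γ} (hf : Primrec f) : Primrec₂ fun (_ : α) (b : β) => f b :=
  (hf.comp Primrec.snd).to₂

theorem primrec_linMons' {α : Type} [Primcodable α] {c c' : α → Cell}
    (hc : Primrec c) (hc' : Primrec c') : Primrec fun a => linMons (c a) (c' a) :=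
  primrec_linMons.comp hc hc'

theorem primrec_negLinMons {α : Type} [Primcodable α] {c c' : α → Cell}
    (hc : Primrec c) (hc' : Primrec c') : Primrec fun a => negMons (linMons (c a) (c' a)) :=
  primrec_negMons.comp (primrec_linMons.comp hc hc')

theorem primrec_embXbox' {α : Type} [Primcodable α] {c : α → Cell} (hc : Primrec c) :
    Primrec₂ fun a g => embXbox (c a) g :=
  Primrec.to₂ (primrec_embXbox.comp (hc.comp Primrec.fst) Primrec.snd)

theorem primrec_embBoxY' {α : Type} [Primcodable α] {c : α → Cell} (hc : Primrec c) :
    Primrec₂ fun a g => embBoxY (c a) g :=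
  Primrec.to₂ (primrec_embBoxY.comp (hc.comp Primrec.fst) Primrec.snd)

theorem primrec_srcX : Primrec fun p : Cell × Piece => p.2.1 := Primrec.fst.comp Primrec.snd

theorem primrec_srcY : Primrec fun p : Cell × Piece => p.2.2.1 :=
  Primrec.fst.comp (Primrec.snd.comp Primrec.snd)

theorem primrec_dstX : Primrec fun p : Cell × Piece => p.2.2.2.1 :=
  Primrec.fst.comp (Primrec.snd.comp (Primrec.snd.comp Primrec.snd))

theorem primrec_dstY : Primrec fun p : Cell × Piece => p.2.2.2.2 :=
  Primrec.snd.comp (Primrec.snd.comp (Primrec.snd.comp Primrec.snd))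

theorem primrec_pieceX : Primrec₂ pieceX := by
  have eZ : Primrec₂ fun (_ : Cell × Piece) (g : Bump) => embZ g :=
    primrec₂_const_left primrec_embZ
  have h1 := primrec_stageTerms 1 (Primrec.list_append.comp
    (primrec_linMons' Primrec.fst Primrec.fst) (primrec_negLinMons Primrec.fst primrec_srcX)) eZ
  have h7 := primrec_stageTerms 7 (Primrec.list_append.comp
    (primrec_linMons' Primrec.fst primrec_dstX) (primrec_negLinMons Primrec.fst Primrec.fst)) eZ
  have h : Primrec fun p : Cell × Piece => pieceX p.1 p.2 :=
    ((Primrec.list_append.comp h1 h7)).of_eq fun p => by rw [pieceX]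
  exact h

theorem primrec_pieceY : Primrec₂ pieceY := by
  have eZ : Primrec₂ fun (_ : Cell × Piece) (g : Bump) => embZ g :=
    primrec₂_const_left primrec_embZ
  have h4 := primrec_stageTerms 4 (Primrec.list_append.comp
    (primrec_linMons' Primrec.fst primrec_dstY) (primrec_negLinMons Primrec.fst primrec_srcY)) eZ
  have h : Primrec fun p : Cell × Piece => pieceY p.1 p.2 :=
    (h4).of_eq fun p => by rw [pieceY]
  exact h

theorem primrec_pieceZ : Primrec₂ pieceZ := by
  have eX : Primrec₂ fun (_ : Cell × Piece) (g : Bump) => embX g :=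
    primrec₂_const_left primrec_embX
  have h0 := primrec_stageTerms 0 (primrec_linMons' primrec_srcX Primrec.fst)
    (primrec_embXbox' primrec_srcY)
  have h2 := primrec_stageTerms 2 (primrec_negLinMons Primrec.fst Primrec.fst) eX
  have h3 := primrec_stageTerms 3 (primrec_linMons' primrec_srcY Primrec.fst)
    (primrec_embBoxY' Primrec.fst)
  have h5 := primrec_stageTerms 5 (primrec_negLinMons primrec_dstY Primrec.fst)
    (primrec_embBoxY' Primrec.fst)
  have h6 := primrec_stageTerms 6 (primrec_linMons' Primrec.fst Primrec.fst) eX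
  have h8 := primrec_stageTerms 8 (primrec_negLinMons primrec_dstX Primrec.fst)
    (primrec_embXbox' primrec_dstY)
  have h : Primrec fun p : Cell × Piece => pieceZ p.1 p.2 :=
    ((Primrec.list_append.comp (Primrec.list_append.comp (Primrec.list_append.comp
    (Primrec.list_append.comp (Primrec.list_append.comp h0 h2) h3) h5) h6) h8)).of_eq fun p => by rw [pieceZ]
  exact h

theorem primrec_allPieces {f : Cell → Piece → List Term} (hf : Primrec₂ f) :
    Primrec (allPieces f) := by
  refine Primrec.list_flatMap (Primrec.list_range.comp Primrec.list_length) ?_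
  unfold Primrec₂
  have hlen : Primrec fun p : List Piece × ℕ => p.1.length := Primrec.list_length.comp Primrec.fst
  exact hf.comp
    ((Primrec.nat_add.comp (Primrec.nat_mul.comp (Primrec.const 2) Primrec.snd)
      (Primrec.const 1)).pair
      (Primrec.nat_mul.comp (Primrec.const 4) (Primrec.succ.comp hlen)))
    ((Primrec.list_getD ((0, 0), (0, 0), (0, 0), (0, 0))).comp Primrec.fst Primrec.snd)

theorem primrec_velocity : Primrec velocity := by
  have hx := primrec_pieceX
  have hy := primrec_pieceY
  have hz := primrec_pieceZ
  have a : Primrec fun e : List Piece × ((ℕ × ℕ) × (ℕ × ℕ)) => fracQ e.2.1.1 e.2.1.2 :=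
    primrec_fracQ.comp (Primrec.fst.comp (Primrec.fst.comp Primrec.snd))
      (Primrec.snd.comp (Primrec.fst.comp Primrec.snd))
  have b : Primrec fun e : List Piece × ((ℕ × ℕ) × (ℕ × ℕ)) => fracQ e.2.2.1 e.2.2.2 :=
    primrec_fracQ.comp (Primrec.fst.comp (Primrec.snd.comp Primrec.snd))
      (Primrec.snd.comp (Primrec.snd.comp Primrec.snd))
  exact (Primrec.list_cons.comp
      ((primrec_normTerm false 16 2).comp a (Primrec.const ([], [], [])))
      ((primrec_allPieces hx).comp Primrec.fst)).pair
    ((Primrec.list_cons.comp
      ((primrec_normTerm false 16 4).comp b (Primrec.const ([], [], [])))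
      ((primrec_allPieces hy).comp Primrec.fst)).pair ((primrec_allPieces hz).comp Primrec.fst))

end Vale.Agent.P113
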