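import Vale.Agent.P113.Bumps
import Vale.Agent.P113.Velocity
import Vale.Agent.P113.StageMotion

/-!
Values of the normalised profiles on cells, and of the clocks.
-/

namespace Vale.Agent.P113

open Finset

/-- The elementary facts about the profile `rho` that the motion needs. -/
structure ProfileFacts : Prop where
  kappa_pos : 0 < kappa
  sigma_deriv : ∀ s, HasDerivAt sigma (rho s) s
  sigma_low : ∀ s, s ≤ -1 → sigma s = 0
  sigma_high : ∀ s, 1 ≤ s → sigma s = kappa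
  sigma_nonneg : ∀ s, 0 ≤ sigma s
  sigma_le : ∀ s, sigma s ≤ kappa
  rho_low : ∀ s, s ≤ -1 → rho s = 0
  rho_high : ∀ s, 1 ≤ s → rho s = 0

theorem ratVal_cast (p n d : ℕ) :
    (ratVal (p, n, d) : ℝ) = ((p : ℝ) - (n : ℝ)) / ((d : ℝ) + 1) := by
  simp [ratVal]

theorem ratVal_negQ (q : RatCode) : (ratVal (negQ q) : ℝ) = -(ratVal q : ℝ) := by
  obtain ⟨p, n, d⟩ := q
  simp only [negQ, ratVal_cast]
  ring

theorem ratVal_den (p n d : ℕ) (hd : 0 < d) :
    (ratVal (p, n, d - 1) : ℝ) = ((p : ℝ) - (n : ℝ)) / (d : ℝ) := by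
  rw [ratVal_cast, Nat.cast_sub hd]
  simp

theorem bumpVal_cellBump (c : Cell) (k : ℕ) (s : ℝ) :
    bumpVal (cellBump c k) s = s ^ k * piFun 10 (8 * (c.2 : ℝ) * s - (8 * (c.1 : ℝ) - 1)) := by
  simp [bumpVal, cellBump, shapeVal, ratVal_cast]

theorem bumpVal_rho (a b : ℕ) (s : ℝ) :
    bumpVal (Sum.inl 0, 0, (a, 0, 0), (b, 0, 0)) s = rho ((a : ℝ) * s - (b : ℝ)) := by
  simp [bumpVal, shapeVal, ratVal_cast]

theorem profileFacts : ProfileFacts where
  kappa_pos := kappa_pos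
  sigma_deriv := hasDerivAt_sigma
  sigma_low := fun _ h => sigma_eq_zero h
  sigma_high := fun _ h => sigma_eq_kappa h
  sigma_nonneg := sigma_nonneg
  sigma_le := sigma_le_kappa
  rho_low := fun s h => rho_eq_zero (by rw [abs_of_nonpos (by linarith)]; linarith)
  rho_high := fun s h => rho_eq_zero (by rw [abs_of_nonneg (by linarith)]; linarith)

theorem piFun_ten_eq (hb : ProfileFacts) {s : ℝ} (h1 : 1 ≤ s) (h2 : s ≤ 9) :
    piFun 10 s = kappa := by
  rw [piFun, hb.sigma_high s h1, hb.sigma_low (s - 10) (by linarith), sub_zero]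

theorem piFun_ten_zero (hb : ProfileFacts) {s : ℝ} (h : s ≤ -1 ∨ 11 ≤ s) : piFun 10 s = 0 := by
  rcases h with h | h
  · rw [piFun, hb.sigma_low s h, hb.sigma_low (s - 10) (by linarith), sub_zero]
  · rw [piFun, hb.sigma_high s (by linarith), hb.sigma_high (s - 10) (by linarith), sub_self]

/-- Normalised periodized monomial on a cell. -/
noncomputable def boxFun (c : Cell) (k : ℕ) (x : ℝ) : ℝ :=
  perVal (bumpVal (cellBump c k)) x / kappa

theorem Cell.Good.den_pos {c : Cell} (hc : c.Good) : (0 : ℝ) < (c.2 : ℝ) := by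
  have := hc.1
  exact_mod_cast show 0 < c.2 by omega

theorem Cell.Good.pt_mem {c : Cell} (hc : c.Good) {v : ℝ} (hv : 0 ≤ v) (hv' : v ≤ 1) :
    0 ≤ c.pt v ∧ c.pt v ≤ 4 / 5 := by
  have h2 := hc.den_pos
  have h3 : 5 * ((c.1 : ℝ) + 1) ≤ 4 * (c.2 : ℝ) := by exact_mod_cast hc.2
  have h4 : (0 : ℝ) ≤ (c.1 : ℝ) := Nat.cast_nonneg _
  refine ⟨div_nonneg (by linarith) h2.le, ?_⟩
  rw [Cell.pt, div_le_iff₀ h2]
  linarith

theorem boxFun_eq_center (hb : ProfileFacts) {c : Cell} (hc : c.Good) (k : ℕ) {x : ℝ}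
    (h0 : 0 ≤ x) (h1 : x ≤ 4 / 5) :
    boxFun c k x = x ^ k * piFun 10 (8 * (c.2 : ℝ) * x - (8 * (c.1 : ℝ) - 1)) / kappa := by
  rw [boxFun, perVal_eq_single 0]
  · rw [bumpVal_cellBump]
    simp
  · intro m hm
    rw [bumpVal_cellBump]
    have hd := hc.den_pos
    have h2 : (3 : ℝ) ≤ (c.2 : ℝ) := by exact_mod_cast hc.1
    have h3 : 5 * ((c.1 : ℝ) + 1) ≤ 4 * (c.2 : ℝ) := by exact_mod_cast hc.2
    have h4 : (0 : ℝ) ≤ (c.1 : ℝ) := Nat.cast_nonneg _
    rw [piFun_ten_zero hb, mul_zero]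
    rcases lt_or_gt_of_ne hm with h | h
    · left
      have hm' : (m : ℝ) ≤ -1 := by exact_mod_cast (show m ≤ -1 by omega)
      have : 8 * (c.2 : ℝ) * (x + m) ≤ 8 * (c.2 : ℝ) * (-1 / 5) :=
        mul_le_mul_of_nonneg_left (by linarith) (by linarith)
      linarith
    · right
      have hm' : (1 : ℝ) ≤ (m : ℝ) := by exact_mod_cast (show 1 ≤ m by omega)
      have : 8 * (c.2 : ℝ) * 1 ≤ 8 * (c.2 : ℝ) * (x + m) :=
        mul_le_mul_of_nonneg_left (by linarith) (by linarith)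
      linarith

theorem boxFun_in (hb : ProfileFacts) {c : Cell} (hc : c.Good) (k : ℕ) {v : ℝ} (hv : 0 ≤ v)
    (hv' : v ≤ 1) : boxFun c k (c.pt v) = c.pt v ^ k := by
  obtain ⟨h0, h1⟩ := hc.pt_mem hv hv'
  rw [boxFun_eq_center hb hc k h0 h1]
  have e : 8 * (c.2 : ℝ) * c.pt v - (8 * (c.1 : ℝ) - 1) = 8 * v + 1 := by
    have := hc.den_pos.ne'
    rw [Cell.pt]
    field_simp
    ring
  rw [e, piFun_ten_eq hb (by linarith) (by linarith)]
  have := hb.kappa_pos.ne'
  field_simp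

theorem boxFun_out (hb : ProfileFacts) {c c' : Cell} (hc : c.Good) (hc' : c'.Good)
    (h : c.Avoid c') (k : ℕ) {v : ℝ} (hv : 0 ≤ v) (hv' : v ≤ 1) :
    boxFun c k (c'.pt v) = 0 := by
  obtain ⟨h0, h1⟩ := hc'.pt_mem hv hv'
  rw [boxFun_eq_center hb hc k h0 h1, piFun_ten_zero hb, mul_zero, zero_div]
  have hd := hc.den_pos
  have hd' := hc'.den_pos
  rcases h with h | h
  · right
    have h' : (4 * (c.1 : ℝ) + 5) * (c'.2 : ℝ) < 4 * (c'.1 : ℝ) * (c.2 : ℝ) := by exact_mod_cast h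
    have e : 8 * (c.2 : ℝ) * c'.pt v = 8 * (c.2 : ℝ) * ((c'.1 : ℝ) + v) / (c'.2 : ℝ) := by
      rw [Cell.pt]; ring
    have : 8 * (c.1 : ℝ) + 10 ≤ 8 * (c.2 : ℝ) * ((c'.1 : ℝ) + v) / (c'.2 : ℝ) := by
      rw [le_div_iff₀ hd']
      nlinarith [mul_nonneg hd.le hv]
    linarith
  · left
    have h' : 4 * ((c'.1 : ℝ) + 1) * (c.2 : ℝ) + (c'.2 : ℝ) < 4 * (c.1 : ℝ) * (c'.2 : ℝ) := by
      exact_mod_cast h
    have e : 8 * (c.2 : ℝ) * c'.pt v = 8 * (c.2 : ℝ) * ((c'.1 : ℝ) + v) / (c'.2 : ℝ) := by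
      rw [Cell.pt]; ring
    have : 8 * (c.2 : ℝ) * ((c'.1 : ℝ) + v) / (c'.2 : ℝ) ≤ 8 * (c.1 : ℝ) - 2 := by
      rw [div_le_iff₀ hd']
      nlinarith [mul_nonneg hd.le (sub_nonneg.2 hv')]
    linarith

/-- The normalised value of a list of monomials. -/
noncomputable def monSum (l : List (RatCode × Bump)) (x : ℝ) : ℝ :=
  (l.map fun e => (ratVal e.1 : ℝ) * (perVal (bumpVal e.2) x / kappa)).sum

theorem monSum_append (l l' : List (RatCode × Bump)) (x : ℝ) :
    monSum (l ++ l') x = monSum l x + monSum l' x := by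
  simp [monSum]

theorem monSum_negMons (l : List (RatCode × Bump)) (x : ℝ) :
    monSum (negMons l) x = -monSum l x := by
  induction l with
  | nil => simp [monSum, negMons]
  | cons e l ih =>
    simp only [monSum, negMons, List.map_cons, List.sum_cons] at ih ⊢
    rw [ih, ratVal_negQ]
    ring

/-- The normalised affine profile from one cell to another. -/
noncomputable def linFun (c c' : Cell) (x : ℝ) : ℝ := monSum (linMons c c') x

theorem linFun_eq (c c' : Cell) (x : ℝ) :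
    linFun c c' x = (ratVal (c'.1, c.1, c'.2 - 1) : ℝ) * boxFun c 0 x +
      (ratVal (c.2, 0, c'.2 - 1) : ℝ) * boxFun c 1 x := by
  simp [linFun, monSum, linMons, boxFun]

theorem linFun_in (hb : ProfileFacts) {c c' : Cell} (hc : c.Good) (hc' : c'.Good) {v : ℝ}
    (hv : 0 ≤ v) (hv' : v ≤ 1) : linFun c c' (c.pt v) = c'.pt v := by
  rw [linFun_eq, boxFun_in hb hc 0 hv hv', boxFun_in hb hc 1 hv hv',
    ratVal_den _ _ _ (by have := hc'.1; omega), ratVal_den _ _ _ (by have := hc'.1; omega)]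
  have := hc.den_pos.ne'
  have := hc'.den_pos.ne'
  simp only [Cell.pt, pow_zero, pow_one, mul_one, Nat.cast_zero, sub_zero]
  field_simp
  ring

theorem linFun_out (hb : ProfileFacts) {c c' d : Cell} (hc : c.Good) (hd : d.Good)
    (h : c.Avoid d) {v : ℝ} (hv : 0 ≤ v) (hv' : v ≤ 1) : linFun c c' (d.pt v) = 0 := by
  rw [linFun_eq, boxFun_out hb hc hd h 0 hv hv', boxFun_out hb hc hd h 1 hv hv']
  ring

theorem slot_good {m i : ℕ} (hi : i < m) : (slot m i).Good :=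
  ⟨by simp only [slot]; omega, by simp only [slot]; omega⟩

theorem slot_avoid {m i j : ℕ} (h : j ≠ i) : (slot m j).Avoid (slot m i) := by
  rcases lt_or_gt_of_ne h with h | h
  · exact Or.inl (by simp only [slot]; nlinarith)
  · exact Or.inr (by simp only [slot]; nlinarith)

theorem slot_pt_le {m i : ℕ} (hi : i < m) {v : ℝ} (hv' : v ≤ 1) :
    (slot m i).pt v ≤ 1 / 2 := by
  have h : (i : ℝ) + 1 ≤ (m : ℝ) := by exact_mod_cast hi
  simp only [Cell.pt, slot]
  push_cast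
  rw [div_le_iff₀ (by positivity)]
  linarith

/-- Time weight of a stage with profile `rho (a t - b)`, normalised to unit integral. -/
noncomputable def timeW (per : Bool) (a b : ℕ) (t : ℝ) : ℝ :=
  (a : ℝ) / kappa * timeFactorVal (per, (Sum.inl 0, 0, (a, 0, 0), (b, 0, 0))) t

/-- Speed of a clock started at time `c`. -/
noncomputable def clockSpeed (a : ℕ) (c : ℝ) (b : ℕ) (t : ℝ) : ℝ :=
  (a : ℝ) / kappa * rho ((a : ℝ) * (t - c) - (b : ℝ))

/-- The consecutive clocks with common speed `a` and centres `b k`. -/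
noncomputable def clockStages (hb : ProfileFacts) {N : ℕ} (a : ℕ) (c : ℝ) (b : ℕ → ℕ)
    (hsep : ∀ j k, j < k → k < N → b j + 2 ≤ b k) : Stages N where
  th k := clockSpeed a c (b k)
  Th k t := sigma ((a : ℝ) * (t - c) - (b k : ℝ)) / kappa
  deriv k _ t := by
    have h1 : HasDerivAt (fun t => (a : ℝ) * (t - c) - (b k : ℝ)) (a : ℝ) t := by
      simpa using ((((hasDerivAt_id t).sub_const c).const_mul (a : ℝ)).sub_const (b k : ℝ))
    exact (((hb.sigma_deriv _).comp t h1).div_const kappa).congr_deriv (by rw [clockSpeed]; ring)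
  mem k _ t := ⟨div_nonneg (hb.sigma_nonneg _) hb.kappa_pos.le,
    (div_le_one hb.kappa_pos).2 (hb.sigma_le _)⟩
  order j k hjk hk t := by
    have h : (b j : ℝ) + 2 ≤ (b k : ℝ) := by exact_mod_cast hsep j k hjk hk
    rcases le_total 1 ((a : ℝ) * (t - c) - (b j : ℝ)) with h' | h'
    · left; rw [hb.sigma_high _ h', div_self hb.kappa_pos.ne']
    · right; rw [hb.sigma_low _ (by linarith), zero_div]
  before j k hjk hk t ht := by
    have h : (b j : ℝ) + 2 ≤ (b k : ℝ) := by exact_mod_cast hsep j k hjk hk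
    by_contra h'
    apply ht
    have : ¬ 1 ≤ (a : ℝ) * (t - c) - (b j : ℝ) := fun h'' =>
      h' (by rw [hb.sigma_high _ h'', div_self hb.kappa_pos.ne'])
    rw [clockSpeed, hb.rho_low _ (by linarith), mul_zero]
  after j k hjk hk t ht := by
    have h : (b j : ℝ) + 2 ≤ (b k : ℝ) := by exact_mod_cast hsep j k hjk hk
    by_contra h'
    apply ht
    have : ¬ (a : ℝ) * (t - c) - (b k : ℝ) ≤ -1 := fun h'' =>
      h' (by rw [hb.sigma_low _ h'', zero_div])
    rw [clockSpeed, hb.rho_high _ (by linarith), mul_zero]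
  excl j k hj hk hne t ht := by
    rcases lt_or_gt_of_ne hne with hjk | hjk
    · have h : (b j : ℝ) + 2 ≤ (b k : ℝ) := by exact_mod_cast hsep j k hjk hk
      rw [clockSpeed]
      rw [clockSpeed] at ht
      have : ¬ (a : ℝ) * (t - c) - (b k : ℝ) ≤ -1 := fun h'' =>
        ht (by rw [hb.rho_low _ h'', mul_zero])
      rw [hb.rho_high _ (by linarith), mul_zero]
    · have h : (b k : ℝ) + 2 ≤ (b j : ℝ) := by exact_mod_cast hsep k j hjk hj
      rw [clockSpeed]
      rw [clockSpeed] at ht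
      have : ¬ 1 ≤ (a : ℝ) * (t - c) - (b k : ℝ) := fun h'' =>
        ht (by rw [hb.rho_high _ h'', mul_zero])
      rw [hb.rho_low _ (by linarith), mul_zero]

theorem clock_zero (hb : ProfileFacts) {N : ℕ} (a : ℕ) (c : ℝ) (b : ℕ → ℕ)
    (hsep : ∀ j k, j < k → k < N → b j + 2 ≤ b k) {k : ℕ} {t : ℝ}
    (h : (a : ℝ) * (t - c) - (b k : ℝ) ≤ -1) : (clockStages hb a c b hsep).Th k t = 0 := by
  simp [clockStages, hb.sigma_low _ h]

theorem clock_one (hb : ProfileFacts) {N : ℕ} (a : ℕ) (c : ℝ) (b : ℕ → ℕ)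
    (hsep : ∀ j k, j < k → k < N → b j + 2 ≤ b k) {k : ℕ} {t : ℝ}
    (h : 1 ≤ (a : ℝ) * (t - c) - (b k : ℝ)) : (clockStages hb a c b hsep).Th k t = 1 := by
  simp [clockStages, hb.sigma_high _ h, hb.kappa_pos.ne']

theorem stageB_bounds {k : ℕ} (hk : k < 9) : 22 ≤ stageB k ∧ stageB k ≤ 38 := by
  simp only [stageB]; omega

theorem timeW_periodic (hb : ProfileFacts) {k : ℕ} (hk : k < 9) (n : ℕ) {t : ℝ}
    (h0 : (n : ℝ) + 1 / 2 ≤ t) (h1 : t ≤ (n : ℝ) + 3 / 2) :
    timeW true 40 (stageB k) t = clockSpeed 40 (n : ℝ) (stageB k) t := by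
  obtain ⟨hb1, hb2⟩ := stageB_bounds hk
  have hb1' : (22 : ℝ) ≤ (stageB k : ℝ) := by exact_mod_cast hb1
  have hb2' : (stageB k : ℝ) ≤ 38 := by exact_mod_cast hb2
  rw [timeW, clockSpeed, timeFactorVal, if_pos rfl, perVal_eq_single (-(n : ℤ))]
  · rw [bumpVal_rho]
    simp [sub_eq_add_neg]
  · intro m hm
    rw [bumpVal_rho]
    rcases lt_or_gt_of_ne hm with h | h
    · have hm' : (m : ℝ) ≤ -(n : ℝ) - 1 := by
        exact_mod_cast (show m ≤ -(n : ℤ) - 1 by omega)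
      exact hb.rho_low _ (by push_cast; linarith)
    · have hm' : -(n : ℝ) + 1 ≤ (m : ℝ) := by
        exact_mod_cast (show -(n : ℤ) + 1 ≤ m by omega)
      exact hb.rho_high _ (by push_cast; linarith)

theorem timeW_periodic_zero (hb : ProfileFacts) {k : ℕ} (hk : k < 9) {t : ℝ}
    (h0 : 0 ≤ t) (h1 : t ≤ 1 / 2) : timeW true 40 (stageB k) t = 0 := by
  obtain ⟨hb1, hb2⟩ := stageB_bounds hk
  have hb1' : (22 : ℝ) ≤ (stageB k : ℝ) := by exact_mod_cast hb1
  have hb2' : (stageB k : ℝ) ≤ 38 := by exact_mod_cast hb2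
  rw [timeW, timeFactorVal, if_pos rfl, perVal_eq_single 0, bumpVal_rho,
    hb.rho_low _ (by push_cast; linarith), mul_zero]
  intro m hm
  rw [bumpVal_rho]
  rcases lt_or_gt_of_ne hm with h | h
  · have hm' : (m : ℝ) ≤ -1 := by exact_mod_cast (show m ≤ -1 by omega)
    exact hb.rho_low _ (by push_cast; linarith)
  · have hm' : (1 : ℝ) ≤ (m : ℝ) := by exact_mod_cast (show 1 ≤ m by omega)
    exact hb.rho_high _ (by push_cast; linarith)

theorem timeW_load (a b : ℕ) (t : ℝ) : timeW false a b t = clockSpeed a 0 b t := by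
  simp [timeW, clockSpeed, timeFactorVal, bumpVal_rho]

theorem timeW_load_zero (hb : ProfileFacts) {b : ℕ} (hb4 : b ≤ 4) {t : ℝ} (h : 1 / 2 ≤ t) :
    timeW false 16 b t = 0 := by
  have : (b : ℝ) ≤ 4 := by exact_mod_cast hb4
  rw [timeW_load, clockSpeed, hb.rho_high _ (by push_cast; linarith), mul_zero]

end Vale.Agent.P113
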